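import Vale.Agent.Q017.Tors
import Vale.Agent.Q017A.LinkDef

/-!
# Families of elliptic curves with constant two-torsion or three-torsion
-/

set_option linter.all false

open WeierstrassCurve WeierstrassCurve.Affine
open scoped Classical

namespace Vale.Agent.Q017

open Vale.Agent.Q017A

universe u

section coord

variable {L : Type u} [Field L] [CharZero L] {W : WeierstrassCurve L}

theorem pt_ext {P Q : W.toAffine.Point} (h : P ≠ 0) (k : Q ≠ 0) (e : xc P = xc Q)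
    (f : yc P = yc Q) : P = Q := by
  rcases xc_inj h k e with g | g
  · exact g
  · have : yc Q = 0 := by
      rw [g, yc_neg] at f
      linear_combination -f / 2
    rw [g, neg_eq_of_add_eq_zero_left ((two_tors k).2 this)]

theorem add_xy {P Q : W.toAffine.Point} (h : P ≠ 0) (k : Q ≠ 0) (e : xc P ≠ xc Q) :
    P + Q ≠ 0 ∧ ∃ l, l * (xc P - xc Q) = yc P - yc Q ∧ xc (P + Q) = l ^ 2 - xc P - xc Q ∧
      yc (P + Q) = -(l * (xc (P + Q) - xc P) + yc P) := by
  rcases P with _ | ⟨x, y, h1⟩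
  · exact absurd rfl h
  rcases Q with _ | ⟨x', y', h2⟩
  · exact absurd rfl k
  have hx : x ≠ x' := fun g => e (by simp only [xc, g])
  rw [Point.add_of_X_ne hx]
  refine ⟨Point.some_ne_zero _, W.toAffine.slope x x' y y' + W.a₁ / 2, ?_, ?_, ?_⟩
  · have := sub_ne_zero.2 hx
    simp only [xc, yc, slope_of_X_ne hx]
    field_simp; ring
  · simp only [xc, addX, b₂]; ring
  · simp only [xc, yc, addY, negAddY, negY]; ring

theorem col {P Q R : W.toAffine.Point} (h : P ≠ 0) (k : Q ≠ 0) (r : R ≠ 0) (e : xc P ≠ xc Q)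
    (e1 : xc R ≠ xc P) (e2 : xc R ≠ xc Q)
    (c : (yc R + yc P) * (xc P - xc Q) + (yc P - yc Q) * (xc R - xc P) = 0) : P + Q = R := by
  obtain ⟨n, l, a1, a2, a3⟩ := add_xy h k e
  have c1 : yc R = -(l * (xc R - xc P) + yc P) :=
    mul_right_cancel₀ (sub_ne_zero.2 e) (by linear_combination c + (xc R - xc P) * a1)
  have q : yc Q = yc P - l * (xc P - xc Q) := by linear_combination a1
  have p1 := pt_eqn h
  have p2 := pt_eqn k
  have p3 := pt_eqn r
  rw [q] at p2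
  rw [c1] at p3
  have x1 : xc R = l ^ 2 - xc P - xc Q :=
    mul_right_cancel₀ (mul_ne_zero (sub_ne_zero.2 e) (mul_ne_zero (sub_ne_zero.2 e1)
      (sub_ne_zero.2 e2))) (by
        linear_combination (xc R - xc Q) * p1 - (xc R - xc P) * p2 - (xc P - xc Q) * p3)
  exact pt_ext n r (by rw [a2, x1]) (by rw [a3, c1, a2, x1])

theorem exists_xy [W.IsElliptic] {x y : L} (h : y ^ 2 = x ^ 3 + sa W * x + sb W) :
    ∃ P : W.toAffine.Point, P ≠ 0 ∧ xc P = x ∧ yc P = y := by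
  have e : W.toAffine.Equation (x - W.b₂ / 12) (y - (W.a₁ * (x - W.b₂ / 12) + W.a₃) / 2) := by
    rw [equation_iff]
    simp only [sa, sb, c₄, c₆, b₂, b₄, b₆] at h ⊢
    linear_combination h
  exact ⟨.some _ _ (equation_iff_nonsingular.1 e), Point.some_ne_zero _, by simp [xc], by simp [yc]⟩

end coord

variable {K : Type u} [Field K] [CharZero K]

theorem yc_act {E : WeierstrassCurve K} (s : Gal K) (P : Pt E) : yc (act E s P) = s (yc P) := by
  rcases P with _ | ⟨x, y, k⟩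
  · exact (map_zero s).symm
  · show s y + (_ * s x + _) / 2 = s (y + _)
    simp [WeierstrassCurve.baseChange, map_ofNat]

theorem cong_of {E E' : WeierstrassCurve K} {p : ℕ} (hp : p = 2 ∨ p = 3)
    (X D : AlgebraicClosure K → AlgebraicClosure K)
    (hX : ∀ (s : Gal K) x, s (X x) = X (s x)) (hD : ∀ (s : Gal K) x, s (D x) = D (s x))
    (h1 : ∀ P : Pt E, P ≠ 0 → p • P = 0 →
      ∃ Q : Pt E', Q ≠ 0 ∧ p • Q = 0 ∧ xc Q = X (xc P) ∧ yc Q = D (xc P) * yc P)
    (h2 : ∀ P Q : Pt E, P ≠ 0 → p • P = 0 → Q ≠ 0 → p • Q = 0 → X (xc P) = X (xc Q) →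
      xc P = xc Q)
    (h3 : ∀ Q : Pt E', Q ≠ 0 → p • Q = 0 → ∃ P : Pt E, P ≠ 0 ∧ p • P = 0 ∧ X (xc P) = xc Q)
    (h4 : ∀ P Q R : Pt E, P ≠ 0 → p • P = 0 → Q ≠ 0 → p • Q = 0 → R ≠ 0 → p • R = 0 →
      (yc R + yc P) * (xc P - xc Q) + (yc P - yc Q) * (xc R - xc P) = 0 →
      (D (xc R) * yc R + D (xc P) * yc P) * (X (xc P) - X (xc Q)) +
        (D (xc P) * yc P - D (xc Q) * yc Q) * (X (xc R) - X (xc P)) = 0) :
    Cong E E' p := by
  choose! g g0 gp gx gy using h1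
  obtain ⟨f, f0, fg⟩ : ∃ f : Pt E → Pt E', f 0 = 0 ∧ ∀ P, P ≠ 0 → f P = g P :=
    ⟨fun P => if P = 0 then 0 else g P, if_pos rfl, fun P h => if_neg h⟩
  have n0 : ∀ P, P ≠ 0 → p • P = 0 → f P ≠ 0 := fun P h k => by rw [fg P h]; exact g0 P h k
  have fx : ∀ P, P ≠ 0 → p • P = 0 → xc (f P) = X (xc P) := fun P h k => by
    rw [fg P h]; exact gx P h k
  have fy : ∀ P, P ≠ 0 → p • P = 0 → yc (f P) = D (xc P) * yc P := fun P h k => by
    rw [fg P h]; exact gy P h k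
  have fp : ∀ P, p • P = 0 → p • f P = 0 := fun P k => by
    by_cases h : P = 0
    · rw [h, f0, nsmul_zero]
    · rw [fg P h]; exact gp P h k
  have ng : ∀ P : Pt E, p • P = 0 → p • -P = 0 := fun P k => by rw [neg_nsmul, k, neg_zero]
  have fn : ∀ P, p • P = 0 → f (-P) = -f P := fun P k => by
    by_cases h : P = 0
    · rw [h, neg_zero, f0, neg_zero]
    have h' := neg_ne_zero.2 h
    refine pt_ext (n0 _ h' (ng P k)) (neg_ne_zero.2 (n0 P h k)) ?_ ?_
    · rw [fx _ h' (ng P k), xc_neg, xc_neg, fx P h k]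
    · rw [fy _ h' (ng P k), xc_neg, yc_neg, yc_neg, fy P h k]; ring
  refine ⟨f, ⟨fp, fun P k Q k' e => ?_, fun Q k => ?_⟩, fun P k => ⟨fun Q k' => ?_, fun s => ?_⟩⟩
  · by_cases h : P = 0
    · by_contra z
      exact n0 Q (fun y => z (h.trans y.symm)) k' (by rw [← e, h, f0])
    by_cases h' : Q = 0
    · exact absurd (by rw [e, h', f0]) (n0 P h k)
    rcases xc_inj h h' (h2 P Q h k h' k' (by rw [← fx P h k, e, fx Q h' k'])) with z | z
    · exact z
    rw [z, fn Q k'] at e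
    have k2 := fp Q k'
    simp only [Set.mem_setOf_eq] at k'
    rcases hp with rfl | rfl
    · linear_combination (norm := abel1) z - k'
    · exact absurd (by linear_combination (norm := abel1) k2 + e) (n0 Q h' k')
  · by_cases h : Q = 0
    · exact ⟨0, nsmul_zero _, by rw [f0, h]⟩
    obtain ⟨P, p0, pp, e⟩ := h3 Q h k
    rcases xc_inj (n0 P p0 pp) h ((fx P p0 pp).trans e) with z | z
    · exact ⟨P, pp, z⟩
    · exact ⟨-P, ng P pp, by rw [fn P pp, z, neg_neg]⟩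
  · by_cases h : P = 0
    · rw [h, f0, zero_add, zero_add]
    by_cases h' : Q = 0
    · rw [h', f0, add_zero, add_zero]
    have k2 := fp P k
    by_cases e : xc P = xc Q
    · rcases xc_inj h h' e with z | z
      · subst z
        rcases hp with rfl | rfl
        · rw [← two_nsmul, ← two_nsmul, k, k2, f0]
        · rw [show P + P = -P by linear_combination (norm := abel1) k, fn P k]
          linear_combination (norm := abel1) -k2
      · rw [z, fn Q k', neg_add_cancel, neg_add_cancel, f0]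
    obtain ⟨n, l, a1, a2, a3⟩ := add_xy h h' e
    have s : p • (P + Q) = 0 := by rw [nsmul_add, k, k', add_zero]
    have ne : ∀ P Q : Pt E, P ≠ 0 → p • P = 0 → Q ≠ 0 → p • Q = 0 → xc P ≠ xc Q →
        xc (f P) ≠ xc (f Q) := fun P Q h k h' k' e z =>
      e (h2 P Q h k h' k' (by rw [← fx P h k, z, fx Q h' k']))
    have d : ∀ P Q : Pt E, P ≠ 0 → p • P = 0 → Q ≠ 0 → P + Q ≠ 0 → xc P ≠ xc Q →
        xc (P + Q) ≠ xc P := fun P Q h k h' n e z => by
      rcases xc_inj n h z with y | y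
      · exact h' (by linear_combination (norm := abel1) y)
      rcases hp with rfl | rfl
      · exact h' (by linear_combination (norm := abel1) y - k)
      · exact e (by rw [show P = Q by linear_combination (norm := abel1) k - y])
    refine (col (n0 P h k) (n0 Q h' k') (n0 _ n s) (ne P Q h k h' k' e)
      (ne _ _ n s h k (d P Q h k h' n e)) (ne _ _ n s h' k' ?_) ?_).symm
    · rw [add_comm] at n ⊢
      exact d Q P h' k' h n (Ne.symm e)
    · rw [fx P h k, fx Q h' k', fx _ n s, fy P h k, fy Q h' k', fy _ n s]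
      exact h4 P Q _ h k h' k' n s (by linear_combination (xc P - xc Q) * a3 - (xc (P + Q) - xc P) * a1)
  · by_cases h : P = 0
    · rw [h, map_zero, f0, map_zero]
    have k2 : p • act E s P = 0 := by rw [← map_nsmul, k, map_zero]
    refine pt_ext (n0 _ (act_ne s h) k2) (act_ne s (n0 P h k)) ?_ ?_
    · rw [fx _ (act_ne s h) k2, xc_act, xc_act, fx P h k, hX]
    · rw [fy _ (act_ne s h) k2, xc_act, yc_act, yc_act, fy P h k, map_mul, hD]

theorem j_ab (E : WeierstrassCurve K) [E.IsElliptic] : 4 * sa E ^ 3 + 27 * sb E ^ 2 ≠ 0 ∧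
    E.j = 6912 * sa E ^ 3 / (4 * sa E ^ 3 + 27 * sb E ^ 2) := by
  obtain ⟨d, hj⟩ := j_short E
  have d0 := right_ne_zero_of_mul d
  refine ⟨d0, ?_⟩
  rw [hj, div_eq_div_iff d d0]; ring

theorem model {A B : K} (h : 4 * A ^ 3 + 27 * B ^ 2 ≠ 0) :
    ∃ (E : WeierstrassCurve K) (_ : E.IsElliptic), sa E = A ∧ sb E = B := by
  have a : sa (⟨0, 0, 0, A, B⟩ : WeierstrassCurve K) = A := by
    simp only [sa, c₄, b₂, b₄]; ring
  have b : sb (⟨0, 0, 0, A, B⟩ : WeierstrassCurve K) = B := by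
    simp only [sb, c₆, b₂, b₄, b₆]; ring
  exact ⟨_, ⟨by rw [disc_eq, a, b]; exact (mul_ne_zero (by norm_num) h).isUnit⟩, a, b⟩

theorem exists_XY (E : WeierstrassCurve K) [E.IsElliptic] {x y : AlgebraicClosure K}
    (h : y ^ 2 = x ^ 3 + algebraMap K _ (sa E) * x + algebraMap K _ (sb E)) :
    ∃ P : Pt E, P ≠ 0 ∧ xc P = x ∧ yc P = y :=
  haveI : (E.baseChange (AlgebraicClosure K)).IsElliptic := inferInstanceAs (E.map _).IsElliptic
  exists_xy (by rw [sa_bc, sb_bc]; exact h)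

theorem root2 {E : WeierstrassCurve K} {P : Pt E} (h0 : P ≠ 0) : 2 • P = 0 ↔
    xc P ^ 3 + algebraMap K _ (sa E) * xc P + algebraMap K _ (sb E) = 0 := by
  rw [two_nsmul, two_tors h0, ← Pt_eqn h0, pow_eq_zero_iff two_ne_zero]

theorem root3 {E : WeierstrassCurve K} [E.IsElliptic] {P : Pt E} (p0 : P ≠ 0)
    (hx : 3 * xc P ^ 4 + 6 * algebraMap K _ (sa E) * xc P ^ 2 + 12 * algebraMap K _ (sb E) * xc P -
      algebraMap K _ (sa E) ^ 2 = 0) : 3 • P = 0 := by
  have d' := (map_ne_zero (algebraMap K (AlgebraicClosure K))).2 (j_short E).1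
  simp only [map_mul, map_add, map_pow, map_neg, map_ofNat] at d'
  have n2 : P + P ≠ 0 := by
    intro e
    have e1 := Pt_eqn p0
    rw [(two_tors p0).1 e] at e1
    generalize algebraMap K (AlgebraicClosure K) (sa E) = a at *
    generalize algebraMap K (AlgebraicClosure K) (sb E) = b at *
    have e2 : (3 * xc P ^ 2 + a) ^ 2 = 0 := by linear_combination -hx - 12 * xc P * e1
    have e3 := pow_eq_zero_iff two_ne_zero |>.1 e2
    obtain rfl : a = -3 * xc P ^ 2 := by linear_combination e3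
    obtain rfl : b = 2 * xc P ^ 3 := by linear_combination -e1
    exact d' (by ring)
  obtain ⟨k, g0⟩ := Pt_two n2
  have e : xc (P + P) = xc P :=
    sub_eq_zero.1 (mul_right_cancel₀ g0 (by linear_combination k / 4 - hx / 4))
  rcases xc_inj n2 p0 e with f | f
  · exact absurd (by linear_combination (norm := abel1) f) p0
  · linear_combination (norm := abel1) f

/-- the family of curves with the two-torsion of `E` -/
theorem cong2 (E : WeierstrassCurve K) [E.IsElliptic] {a b : K} (ha : sa E = a) (hb : sb E = b)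
    {l m : K} (h : l ^ 3 + 9 * a * l * m ^ 2 + 27 * b * m ^ 3 ≠ 0) :
    ∃ (E' : WeierstrassCurve K) (_ : E'.IsElliptic), Cong E E' 2 ∧
      E'.j = 6912 * (a * l ^ 2 + 9 * b * l * m - 3 * a ^ 2 * m ^ 2) ^ 3 /
        ((4 * a ^ 3 + 27 * b ^ 2) * (l ^ 3 + 9 * a * l * m ^ 2 + 27 * b * m ^ 3) ^ 2) := by
  have hd : 4 * (a * l ^ 2 + 9 * b * l * m - 3 * a ^ 2 * m ^ 2) ^ 3 + 27 * (b * l ^ 3 -
      2 * a ^ 2 * l ^ 2 * m - 9 * a * b * l * m ^ 2 - (2 * a ^ 3 + 27 * b ^ 2) * m ^ 3) ^ 2 =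
      (4 * a ^ 3 + 27 * b ^ 2) * (l ^ 3 + 9 * a * l * m ^ 2 + 27 * b * m ^ 3) ^ 2 := by ring
  obtain ⟨E', i, hA, hB⟩ := model (hd ▸ mul_ne_zero (ha ▸ hb ▸ (j_ab E).1) (pow_ne_zero 2 h))
  refine ⟨E', i, ?_, by rw [(j_ab E').2, hA, hB, hd]⟩
  have h' := (map_ne_zero (algebraMap K (AlgebraicClosure K))).2 h
  have hA' := congrArg (algebraMap K (AlgebraicClosure K)) hA
  have hB' := congrArg (algebraMap K (AlgebraicClosure K)) hB
  simp only [map_mul, map_add, map_sub, map_pow, map_ofNat] at h' hA' hB'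
  refine cong_of (Or.inl rfl) (fun x => algebraMap K _ l * x + algebraMap K _ m *
    (3 * x ^ 2 + 2 * algebraMap K _ a)) (fun _ => 0) (fun s x => by simp [map_ofNat])
    (fun s x => map_zero s) (fun P p0 p2 => ?_) (fun P Q p0 p2 q0 q2 e => ?_) (fun Q q0 q2 => ?_)
    (fun _ _ _ _ _ _ _ _ _ _ => by ring)
  · rw [root2 p0, ha, hb] at p2
    obtain ⟨Q, q0, qx, qy⟩ := exists_XY E' (x := algebraMap K _ l * xc P + algebraMap K _ m *
      (3 * xc P ^ 2 + 2 * algebraMap K _ a)) (y := 0) (by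
        rw [hA', hB']
        generalize algebraMap K (AlgebraicClosure K) a = a at *
        generalize algebraMap K (AlgebraicClosure K) b = b at *
        generalize algebraMap K (AlgebraicClosure K) l = l at *
        generalize algebraMap K (AlgebraicClosure K) m = m at *
        obtain rfl : b = -xc P ^ 3 - a * xc P := by linear_combination p2
        ring)
    exact ⟨Q, q0, by rw [two_nsmul, two_tors q0, qy], qx, by rw [qy, zero_mul]⟩
  · rw [root2 p0, ha, hb] at p2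
    rw [root2 q0, ha, hb] at q2
    by_contra n
    have n' := sub_ne_zero.2 n
    have e1 : xc P ^ 2 + xc P * xc Q + xc Q ^ 2 + algebraMap K _ a = 0 :=
      mul_left_cancel₀ n' (by linear_combination p2 - q2)
    have e2 : algebraMap K _ l = -3 * algebraMap K _ m * (xc P + xc Q) :=
      mul_left_cancel₀ n' (by linear_combination e)
    refine h' ?_
    rw [e2]
    linear_combination 27 * algebraMap K _ m ^ 3 * (p2 - (2 * xc P + xc Q) * e1)
  · rw [root2 q0, hA', hB'] at q2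
    obtain ⟨x, y, z, h0, hf, -⟩ := cubic_roots (algebraMap K (AlgebraicClosure K) a)
      (algebraMap K _ b)
    obtain ⟨e, he, k⟩ : ∃ e, e ^ 3 + algebraMap K _ a * e + algebraMap K _ b = 0 ∧
        algebraMap K _ l * e + algebraMap K _ m * (3 * e ^ 2 + 2 * algebraMap K _ a) = xc Q := by
      generalize algebraMap K (AlgebraicClosure K) a = a at *
      generalize algebraMap K (AlgebraicClosure K) b = b at *
      generalize algebraMap K (AlgebraicClosure K) l = l at *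
      generalize algebraMap K (AlgebraicClosure K) m = m at *
      obtain rfl : z = -x - y := by linear_combination h0
      obtain rfl : b = x * y * (x + y) := by linear_combination hf 0
      obtain rfl : a = -(x ^ 2 + x * y + y ^ 2) := by linear_combination hf 1
      have : (l * x + m * (3 * x ^ 2 + 2 * -(x ^ 2 + x * y + y ^ 2)) - xc Q) *
          ((l * y + m * (3 * y ^ 2 + 2 * -(x ^ 2 + x * y + y ^ 2)) - xc Q) *
          (l * (-x - y) + m * (3 * (-x - y) ^ 2 + 2 * -(x ^ 2 + x * y + y ^ 2)) - xc Q)) = 0 := by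
        linear_combination -q2
      simp only [mul_eq_zero, sub_eq_zero] at this
      rcases this with e | e | e <;> exact ⟨_, by ring, e⟩
    obtain ⟨P, p0, rfl⟩ := exists_Pt E e
    exact ⟨P, p0, by rw [root2 p0, ha, hb, he], k⟩

theorem alg3 {L : Type u} [Field L] [CharZero L] {a b l m A B D α β : L}
    (hA : A = a * l ^ 4 + 18 * b * l ^ 3 * m - 18 * a ^ 2 * l ^ 2 * m ^ 2 - 54 * a * b * l * m ^ 3 -
      (27 * a ^ 3 + 243 * b ^ 2) * m ^ 4)
    (hB : B = b * l ^ 6 - 4 * a ^ 2 * l ^ 5 * m - 45 * a * b * l ^ 4 * m ^ 2 -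
      270 * b ^ 2 * l ^ 3 * m ^ 3 + 135 * a ^ 2 * b * l ^ 2 * m ^ 4 -
      (108 * a ^ 4 + 486 * a * b ^ 2) * l * m ^ 5 - (243 * a ^ 3 * b + 1458 * b ^ 3) * m ^ 6)
    (hD : D = l ^ 4 + 18 * a * l ^ 2 * m ^ 2 + 108 * b * l * m ^ 3 - 27 * a ^ 2 * m ^ 4)
    (hα : α = l ^ 3 + 9 * a * l * m ^ 2 + 27 * b * m ^ 3)
    (hβ : β = 3 * a * l ^ 2 * m + 27 * b * l * m ^ 2 - 9 * a ^ 2 * m ^ 3) (h : D ≠ 0) :
    α * l + 3 * m * β = D ∧
    (∀ x, 3 * x ^ 4 + 6 * a * x ^ 2 + 12 * b * x - a ^ 2 = 0 → l - 3 * m * x ≠ 0 ∧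
      ∀ X, X = (α * x + β) / (l - 3 * m * x) → 3 * X ^ 4 + 6 * A * X ^ 2 + 12 * B * X - A ^ 2 = 0 ∧
      ∀ y, y ^ 2 = x ^ 3 + a * x + b → (D / (l - 3 * m * x) * y) ^ 2 = X ^ 3 + A * X + B) ∧
    ∀ X, 3 * X ^ 4 + 6 * A * X ^ 2 + 12 * B * X - A ^ 2 = 0 → ∃ x,
      3 * x ^ 4 + 6 * a * x ^ 2 + 12 * b * x - a ^ 2 = 0 ∧ (α * x + β) / (l - 3 * m * x) = X := by
  have e0 : α * l + 3 * m * β = D := by rw [hα, hβ, hD]; ring
  have e1 : ∀ x z, 3 * (α * x + β * z) ^ 4 + 6 * A * (α * x + β * z) ^ 2 * (l * z - 3 * m * x) ^ 2 +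
      12 * B * (α * x + β * z) * (l * z - 3 * m * x) ^ 3 - A ^ 2 * (l * z - 3 * m * x) ^ 4 =
      D ^ 3 * (3 * x ^ 4 + 6 * a * x ^ 2 * z ^ 2 + 12 * b * x * z ^ 3 - a ^ 2 * z ^ 4) := by
    intro x z
    rw [hα, hβ, hD, hA, hB]; ring
  have e2 : ∀ x, D ^ 2 * (x ^ 3 + a * x + b) * (l - 3 * m * x) =
      (α * x + β) ^ 3 + A * (α * x + β) * (l - 3 * m * x) ^ 2 + B * (l - 3 * m * x) ^ 3 -
      m * D ^ 2 * (3 * x ^ 4 + 6 * a * x ^ 2 + 12 * b * x - a ^ 2) := by
    intro x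
    rw [hα, hβ, hD, hA, hB]; ring
  have n : ∀ x, 3 * x ^ 4 + 6 * a * x ^ 2 + 12 * b * x - a ^ 2 = 0 → l - 3 * m * x ≠ 0 :=
    fun x hx z => h (by rw [hD, sub_eq_zero.1 z]; linear_combination 27 * m ^ 4 * hx)
  clear hA hB hD hα hβ
  refine ⟨e0, fun x hx => ⟨n x hx, fun X hX => ?_⟩, fun X hX => ?_⟩
  · have k1 := e1 x 1
    have k2 := e2 x
    have w := n x hx
    rw [eq_div_iff w] at hX
    simp only [mul_one, one_pow] at k1
    rw [← hX, hx] at k1 k2
    generalize l - 3 * m * x = v at *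
    refine ⟨mul_right_cancel₀ (pow_ne_zero 4 w) (by linear_combination k1), fun y hy => ?_⟩
    field_simp
    exact mul_right_cancel₀ w (by linear_combination k2 + D ^ 2 * v * hy)
  · have k1 := e1 (l * X - β) (3 * m * X + α)
    rw [show α * (l * X - β) + β * (3 * m * X + α) = D * X by linear_combination X * e0,
      show l * (3 * m * X + α) - 3 * m * (l * X - β) = D by linear_combination e0] at k1
    have k2 : 3 * (l * X - β) ^ 4 + 6 * a * (l * X - β) ^ 2 * (3 * m * X + α) ^ 2 +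
        12 * b * (l * X - β) * (3 * m * X + α) ^ 3 - a ^ 2 * (3 * m * X + α) ^ 4 = 0 :=
      mul_left_cancel₀ (pow_ne_zero 3 h) (by linear_combination D ^ 4 * hX - k1)
    have w : 3 * m * X + α ≠ 0 := fun z => by
      rw [z] at k2
      have : l * X - β = 0 := pow_eq_zero_iff four_ne_zero |>.1 (by linear_combination k2 / 3)
      exact h (by linear_combination l * z - 3 * m * this - e0)
    have k3 : 3 * ((l * X - β) / (3 * m * X + α)) ^ 4 + 6 * a * ((l * X - β) / (3 * m * X + α)) ^ 2 +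
        12 * b * ((l * X - β) / (3 * m * X + α)) - a ^ 2 = 0 := by
      generalize 3 * m * X + α = v at *
      field_simp
      linear_combination k2
    refine ⟨_, k3, ?_⟩
    rw [div_eq_iff (n _ k3)]
    generalize z : 3 * m * X + α = v at w
    field_simp
    rw [← z]; ring

/-- the family of curves with the three-torsion of `E` -/
theorem cong3 (E : WeierstrassCurve K) [E.IsElliptic] {a b : K} (ha : sa E = a) (hb : sb E = b)
    {l m : K} (h : l ^ 4 + 18 * a * l ^ 2 * m ^ 2 + 108 * b * l * m ^ 3 - 27 * a ^ 2 * m ^ 4 ≠ 0) :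
    ∃ (E' : WeierstrassCurve K) (_ : E'.IsElliptic), Cong E E' 3 ∧
      E'.j = 6912 * (a * l ^ 4 + 18 * b * l ^ 3 * m - 18 * a ^ 2 * l ^ 2 * m ^ 2 -
          54 * a * b * l * m ^ 3 - (27 * a ^ 3 + 243 * b ^ 2) * m ^ 4) ^ 3 /
        ((4 * a ^ 3 + 27 * b ^ 2) *
          (l ^ 4 + 18 * a * l ^ 2 * m ^ 2 + 108 * b * l * m ^ 3 - 27 * a ^ 2 * m ^ 4) ^ 3) := by
  have hd : 4 * (a * l ^ 4 + 18 * b * l ^ 3 * m - 18 * a ^ 2 * l ^ 2 * m ^ 2 -
      54 * a * b * l * m ^ 3 - (27 * a ^ 3 + 243 * b ^ 2) * m ^ 4) ^ 3 + 27 * (b * l ^ 6 -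
      4 * a ^ 2 * l ^ 5 * m - 45 * a * b * l ^ 4 * m ^ 2 -
      270 * b ^ 2 * l ^ 3 * m ^ 3 + 135 * a ^ 2 * b * l ^ 2 * m ^ 4 -
      (108 * a ^ 4 + 486 * a * b ^ 2) * l * m ^ 5 - (243 * a ^ 3 * b + 1458 * b ^ 3) * m ^ 6) ^ 2 =
      (4 * a ^ 3 + 27 * b ^ 2) *
        (l ^ 4 + 18 * a * l ^ 2 * m ^ 2 + 108 * b * l * m ^ 3 - 27 * a ^ 2 * m ^ 4) ^ 3 := by ring
  obtain ⟨E', i, hA, hB⟩ := model (hd ▸ mul_ne_zero (ha ▸ hb ▸ (j_ab E).1) (pow_ne_zero 3 h))
  refine ⟨E', i, ?_, by rw [(j_ab E').2, hA, hB, hd]⟩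
  have h' := (map_ne_zero (algebraMap K (AlgebraicClosure K))).2 h
  have hA' := congrArg (algebraMap K (AlgebraicClosure K)) hA
  have hB' := congrArg (algebraMap K (AlgebraicClosure K)) hB
  simp only [map_mul, map_add, map_sub, map_pow, map_ofNat] at hA' hB'
  obtain ⟨D, hD⟩ : ∃ D, D = l ^ 4 + 18 * a * l ^ 2 * m ^ 2 + 108 * b * l * m ^ 3 -
    27 * a ^ 2 * m ^ 4 := ⟨_, rfl⟩
  obtain ⟨α, hα⟩ : ∃ α, α = l ^ 3 + 9 * a * l * m ^ 2 + 27 * b * m ^ 3 := ⟨_, rfl⟩
  obtain ⟨β, hβ⟩ : ∃ β, β = 3 * a * l ^ 2 * m + 27 * b * l * m ^ 2 - 9 * a ^ 2 * m ^ 3 := ⟨_, rfl⟩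
  rw [← hD] at h'
  obtain ⟨e0, e1, e2⟩ := alg3 (α := algebraMap K _ α) (β := algebraMap K _ β) hA' hB'
    (by simp [hD, map_ofNat]) (by simp [hα, map_ofNat]) (by simp [hβ, map_ofNat]) h'
  rw [← ha, ← hb] at e1 e2
  refine cong_of (Or.inr rfl) (fun x => (algebraMap K _ α * x + algebraMap K _ β) /
    (algebraMap K _ l - 3 * algebraMap K _ m * x))
    (fun x => algebraMap K _ D / (algebraMap K _ l - 3 * algebraMap K _ m * x))
    (fun s x => by simp [map_ofNat]) (fun s x => by simp [map_ofNat]) (fun P p0 p3 => ?_)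
    (fun P Q p0 p3 q0 q3 e => ?_) (fun Q q0 q3 => ?_) (fun P Q R p0 p3 q0 q3 r0 r3 e => ?_)
  · obtain ⟨k1, k2⟩ := (e1 _ (psi3 p0 p3).1).2 _ rfl
    obtain ⟨Q, q0, qx, qy⟩ := exists_XY E' (k2 _ (Pt_eqn p0))
    exact ⟨Q, q0, root3 q0 (by rw [qx]; exact k1), qx, qy⟩
  · rw [div_eq_div_iff (e1 _ (psi3 p0 p3).1).1 (e1 _ (psi3 q0 q3).1).1] at e
    exact mul_left_cancel₀ h' (by linear_combination e - (xc P - xc Q) * e0)
  · obtain ⟨x, k1, k2⟩ := e2 _ (psi3 q0 q3).1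
    obtain ⟨P, p0, rfl⟩ := exists_Pt E x
    exact ⟨P, p0, root3 p0 k1, k2⟩
  · have n1 := (e1 _ (psi3 p0 p3).1).1
    have n2 := (e1 _ (psi3 q0 q3).1).1
    have n3 := (e1 _ (psi3 r0 r3).1).1
    generalize z1 : algebraMap K _ l - 3 * algebraMap K _ m * xc P = u at n1
    generalize z2 : algebraMap K _ l - 3 * algebraMap K _ m * xc Q = v at n2
    generalize z3 : algebraMap K _ l - 3 * algebraMap K _ m * xc R = w at n3
    field_simp
    rw [← z1, ← z2, ← z3]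
    linear_combination algebraMap K _ D * (algebraMap K _ α * algebraMap K _ l +
      3 * algebraMap K _ m * algebraMap K _ β) *
      (algebraMap K _ l - 3 * algebraMap K _ m * xc P) * e

theorem nsq3 {E : WeierstrassCurve K} (h : AbsIrr E 3 Set.univ) (k : ¬ AbsIrr E 3 (Cyc K 3)) :
    ¬ IsSquare (-3 : K) := by
  rintro ⟨r, hr⟩
  refine k (Set.eq_univ_of_forall (fun s => (cyc3 (r := algebraMap K _ r) ?_ s).2 (s.commutes r)) ▸ h)
  rw [sq, ← map_mul, ← hr, map_neg, map_ofNat]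

theorem cong_absIrr {E E' : WeierstrassCurve K} {p : ℕ} {H : Set (Gal K)} (h : Cong E E' p)
    (k : AbsIrr E p H) : AbsIrr E' p H := by
  obtain ⟨f, ⟨h1, h2, h3⟩, h4⟩ := h
  have ap : ∀ (s : Gal K) (P : Pt E), p • P = 0 → p • act E s P = 0 := fun s P e => by
    rw [← map_nsmul, e, map_zero]
  have f0 : f 0 = 0 := by simpa using (h4 0 (nsmul_zero _)).1 0 (nsmul_zero _)
  refine ⟨fun ⟨Q, q0, qp, hs⟩ => k.1 ?_, fun hc => k.2 fun s m t n P e => ?_⟩
  · obtain ⟨P, pp, rfl⟩ := h3 qp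
    have np : ∀ n : ℕ, p • n • P = 0 := fun n => by rw [smul_comm, pp, nsmul_zero]
    refine ⟨P, fun e => q0 (by rw [e, f0]), pp, fun s m => ?_⟩
    obtain ⟨n, e⟩ := hs s m
    refine ⟨n, h2 (ap s P pp) (np n) ?_⟩
    rw [(h4 P pp).2, e]
    clear e
    induction n with
    | zero => rw [zero_nsmul, zero_nsmul, f0]
    | succ n ih => rw [succ_nsmul, succ_nsmul, (h4 _ (np n)).1 P pp, ih]
  · refine h2 (ap _ _ (ap _ _ e)) (ap _ _ (ap _ _ e)) ?_
    rw [(h4 _ (ap _ _ e)).2, (h4 _ (ap _ _ e)).2, (h4 _ e).2, (h4 _ e).2]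
    exact hc s m t n _ (h1 e)

end Vale.Agent.Q017
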