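import Mathlib

/-!
# Torsion representations, isogenies and local behaviour of elliptic curves over a number field
-/

open WeierstrassCurve NumberField IsDedekindDomain
open scoped Classical

namespace Vale.Agent.Q017

universe u

variable {K : Type u} [Field K]

/-- the absolute Galois group of `K` -/
abbrev Gal (K : Type u) [Field K] : Type u := AlgebraicClosure K ≃ₐ[K] AlgebraicClosure K

/-- the group of points of `E` over the algebraic closure -/
abbrev Pt (E : WeierstrassCurve K) : Type u :=
  (E.baseChange (AlgebraicClosure K)).toAffine.Point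

/-- the action of the Galois group on the points -/
noncomputable def act (E : WeierstrassCurve K) (s : Gal K) : Pt E →+ Pt E :=
  Affine.Point.map (W' := E.toAffine) (s : AlgebraicClosure K →ₐ[K] AlgebraicClosure K)

/-- the Galois group of the field generated by the roots of unity of order dividing `n` -/
def Cyc (K : Type u) [Field K] (n : ℕ) : Set (Gal K) :=
  {s | ∀ x : AlgebraicClosure K, x ^ n = 1 → s x = x}

/-- `H` stabilises a subgroup of order `p` -/
def Line (E : WeierstrassCurve K) (p : ℕ) (H : Set (Gal K)) : Prop :=
  ∃ P : Pt E, P ≠ 0 ∧ p • P = 0 ∧ ∀ s ∈ H, ∃ k : ℕ, act E s P = k • P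

/-- the elements of `H` commute on the `p`-torsion -/
def Comm (E : WeierstrassCurve K) (p : ℕ) (H : Set (Gal K)) : Prop :=
  ∀ s ∈ H, ∀ t ∈ H, ∀ P : Pt E, p • P = 0 → act E s (act E t P) = act E t (act E s P)

/-- the `p`-torsion is an absolutely irreducible representation of `H` -/
def AbsIrr (E : WeierstrassCurve K) (p : ℕ) (H : Set (Gal K)) : Prop :=
  ¬ Line E p H ∧ ¬ Comm E p H

/-- there is a nonconstant morphism from `W` to `W'` -/
def Isog {F : Type u} [Field F] (W W' : WeierstrassCurve F) : Prop :=
  Nonempty (W'.toAffine.FunctionField →ₐ[F] W.toAffine.FunctionField)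

/-- `E` is isogenous over the algebraic closure to its conjugates -/
def QCurve (E : WeierstrassCurve K) : Prop :=
  ∀ t : K ≃+* K, Isog (E.baseChange (AlgebraicClosure K))
    ((E.map (t : K →+* K)).baseChange (AlgebraicClosure K))

/-- `H` acts absolutely irreducibly on the `p`-torsion and `ord_v j ≤ 0` at all primes over `p`
(potentially ordinary or multiplicative reduction for `p = 2, 3`) -/
def Ord [NumberField K] (E : WeierstrassCurve K) [E.IsElliptic] (p : ℕ) (H : Set (Gal K)) : Prop :=
  AbsIrr E p H ∧
    ∀ v : HeightOneSpectrum (𝓞 K), (p : 𝓞 K) ∈ v.asIdeal → 1 ≤ v.valuation K E.j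

end Vale.Agent.Q017
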