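import Vale.Agent.Q017.Tors

/-!
# Five-torsion: images in the normaliser of a non-split Cartan subgroup
-/

set_option linter.all false

open WeierstrassCurve WeierstrassCurve.Affine Function

namespace Vale.Agent.Q017

set_option synthInstance.maxSize 4000 in
theorem derange (f : Fin 6 → Fin 6) (h : Injective f) (k : ∀ i, f i ≠ i) :
    (∃ i l, Injective ![0, i, l, f 0, f i, f l]) ∨
      ∃ i, Injective ![0, f 0, f (f 0), i, f i, f (f i)] ∧ f (f (f 0)) = 0 ∧ f (f (f i)) = i := by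
  have D : ∀ a : Fin 6, a ≠ 0 → ∀ b : Fin 6, b ≠ 1 → b ≠ a → ∀ c : Fin 6, c ≠ 2 → c ≠ a → c ≠ b →
      ∀ d : Fin 6, d ≠ 3 → d ≠ a → d ≠ b → d ≠ c → ∀ e : Fin 6, e ≠ 4 → e ≠ a → e ≠ b → e ≠ c →
      e ≠ d → ∀ g : Fin 6, g ≠ 5 → g ≠ a → g ≠ b → g ≠ c → g ≠ d → g ≠ e →
      (∃ i l, Injective ![0, i, l, ![a, b, c, d, e, g] 0, ![a, b, c, d, e, g] i,
        ![a, b, c, d, e, g] l]) ∨
      ∃ i, Injective ![0, ![a, b, c, d, e, g] 0, ![a, b, c, d, e, g] (![a, b, c, d, e, g] 0), i,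
        ![a, b, c, d, e, g] i, ![a, b, c, d, e, g] (![a, b, c, d, e, g] i)] ∧
        ![a, b, c, d, e, g] (![a, b, c, d, e, g] (![a, b, c, d, e, g] 0)) = 0 ∧
        ![a, b, c, d, e, g] (![a, b, c, d, e, g] (![a, b, c, d, e, g] i)) = i := by
    decide +kernel
  have e : ![f 0, f 1, f 2, f 3, f 4, f 5] = f := by funext i; fin_cases i <;> rfl
  have n : ∀ i l, i ≠ l → f i ≠ f l := fun i l m => h.ne m
  have := D (f 0) (k _) (f 1) (k _) (n _ _ (by decide)) (f 2) (k _) (n _ _ (by decide))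
    (n _ _ (by decide)) (f 3) (k _) (n _ _ (by decide)) (n _ _ (by decide)) (n _ _ (by decide))
    (f 4) (k _) (n _ _ (by decide)) (n _ _ (by decide)) (n _ _ (by decide)) (n _ _ (by decide))
    (f 5) (k _) (n _ _ (by decide)) (n _ _ (by decide)) (n _ _ (by decide)) (n _ _ (by decide))
    (n _ _ (by decide))
  rwa [e] at this

theorem two_more : ∀ a b : Fin 6, a ≠ 0 → a ≠ 1 → b ≠ 0 → b ≠ 1 → a ≠ b → ∃ m n : Fin 6,
    (m ≠ 0 ∧ m ≠ 1 ∧ m ≠ a ∧ m ≠ b) ∧ (n ≠ 0 ∧ n ≠ 1 ∧ n ≠ a ∧ n ≠ b) ∧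
      ∀ k : Fin 6, k = 0 ∨ k = 1 ∨ k = a ∨ k = b ∨ k = m ∨ k = n := by decide +kernel

open scoped Classical

open Vale.Agent.Q017A

universe u

section alg

variable {L : Type u} [Field L] [CharZero L]

/-- six distinct roots of the sextic of `X₀(5)` -/
def Six (j : L) (ρ : Fin 6 → L) : Prop := Injective ρ ∧ ∀ i, (ρ i ^ 2 - 20) ^ 3 = j * (ρ i - 5)

theorem Six.comp {j : L} {ρ : Fin 6 → L} (h : Six j ρ) {τ : Fin 6 → Fin 6} (k : Injective τ) :
    Six j (ρ ∘ τ) := ⟨h.1.comp k, fun i => h.2 _⟩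

/-- coefficients of the monic cubic with roots `x, y, z` -/
def ca (x y z : L) : L := -(x + y + z)
/-- coefficients of the monic cubic with roots `x, y, z` -/
def cb (x y z : L) : L := x * y + x * z + y * z
/-- coefficients of the monic cubic with roots `x, y, z` -/
def cc (x y z : L) : L := -(x * y * z)

theorem Six.coef {j : L} {ρ : Fin 6 → L} (h : Six j ρ) {a b c a' b' c' : L}
    (ha : a = ca (ρ 0) (ρ 1) (ρ 2)) (hb : b = cb (ρ 0) (ρ 1) (ρ 2)) (hc : c = cc (ρ 0) (ρ 1) (ρ 2))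
    (ha' : a' = ca (ρ 3) (ρ 4) (ρ 5)) (hb' : b' = cb (ρ 3) (ρ 4) (ρ 5))
    (hc' : c' = cc (ρ 3) (ρ 4) (ρ 5)) :
    c * c' - (5 * j - 8000) = 0 ∧ b * c' + b' * c + j = 0 ∧ a * c' + a' * c + b * b' - 1200 = 0 ∧
      c + c' + a * b' + a' * b = 0 ∧ b + b' + a * a' + 60 = 0 ∧ a + a' = 0 := by
  have k := Matrix.eq_zero_of_forall_index_sum_mul_pow_eq_zero h.1
    (v := ![c * c' - (5 * j - 8000), b * c' + b' * c + j, a * c' + a' * c + b * b' - 1200,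
      c + c' + a * b' + a' * b, b + b' + a * a' + 60, a + a']) (fun i => by
      have e := h.2 i
      have f : (ρ i ^ 3 + a * ρ i ^ 2 + b * ρ i + c) * (ρ i ^ 3 + a' * ρ i ^ 2 + b' * ρ i + c') = 0 := by
        have : (ρ i - ρ 0) * (ρ i - ρ 1) * (ρ i - ρ 2) * ((ρ i - ρ 3) * (ρ i - ρ 4) * (ρ i - ρ 5)) = 0 := by
          fin_cases i <;> simp
        rw [ha, hb, hc, ha', hb', hc', ← this]; simp only [ca, cb, cc]; ring
      simp [Fin.sum_univ_six]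
      linear_combination f - e)
  exact ⟨congrFun k 0, congrFun k 1, congrFun k 2, congrFun k 3, congrFun k 4, congrFun k 5⟩

theorem Six.mem {j : L} {ρ : Fin 6 → L} (h : Six j ρ) {x : L} (e : (x ^ 2 - 20) ^ 3 = j * (x - 5)) :
    ∃ i, x = ρ i := by
  obtain ⟨h0, h1, h2, h3, h4, h5⟩ := h.coef rfl rfl rfl rfl rfl rfl
  have : (x - ρ 0) * ((x - ρ 1) * ((x - ρ 2) * ((x - ρ 3) * ((x - ρ 4) * (x - ρ 5))))) = 0 := by
    simp only [ca, cb, cc] at h0 h1 h2 h3 h4 h5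
    linear_combination e + h0 + x * h1 + x ^ 2 * h2 + x ^ 3 * h3 + x ^ 4 * h4 + x ^ 5 * h5
  simp only [mul_eq_zero, sub_eq_zero] at this
  rcases this with f | f | f | f | f | f <;> exact ⟨_, f⟩

/-- the odd part of the second coefficient -/
def mu (a b : L) : L := b - (a ^ 2 - 60) / 2
/-- the odd part of the third coefficient -/
def nu (a b c : L) : L := c - a * mu a b
/-- the square root of five attached to a cubic factor -/
def sig (a b c : L) : L :=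
  (a ^ 3 / 2 - 50 * a - 2 * nu a b c - 10 * mu a b) / (a * mu a b + a ^ 2 - 20)

theorem Six.rel {j : L} {ρ : Fin 6 → L} (h : Six j ρ) (j0 : j ≠ 0) (j1 : j ≠ 1728) {a b c m n : L}
    (ha : a = ca (ρ 0) (ρ 1) (ρ 2)) (hb : b = cb (ρ 0) (ρ 1) (ρ 2)) (hc : c = cc (ρ 0) (ρ 1) (ρ 2))
    (hm : m = mu a b) (hn : n = nu a b c) :
    ca (ρ 3) (ρ 4) (ρ 5) = -a ∧ mu (-a) (cb (ρ 3) (ρ 4) (ρ 5)) = -m ∧
      nu (-a) (cb (ρ 3) (ρ 4) (ρ 5)) (cc (ρ 3) (ρ 4) (ρ 5)) = -n ∧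
      ((a ^ 2 - 60) / 2) ^ 2 - m ^ 2 - 2 * a * n = 1200 ∧
      j = -2 * ((a ^ 2 - 60) / 2 * (a * m) - m * n) ∧ a * m + a ^ 2 - 20 ≠ 0 ∧
      sig a b c ^ 2 = 5 := by
  obtain ⟨h0, h1, h2, h3, h4, h5⟩ := h.coef ha hb hc rfl rfl rfl
  generalize ca (ρ 3) (ρ 4) (ρ 5) = a' at *
  generalize cb (ρ 3) (ρ 4) (ρ 5) = b' at *
  generalize cc (ρ 3) (ρ 4) (ρ 5) = c' at *
  clear ha hb hc h
  obtain rfl : a' = -a := by linear_combination h5
  obtain rfl : b = (a ^ 2 - 60) / 2 + m := by rw [hm, mu]; ring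
  obtain rfl : c = a * m + n := by rw [hn, nu, ← hm]; ring
  obtain rfl : b' = (a ^ 2 - 60) / 2 - m := by linear_combination h4
  obtain rfl : c' = a * m - n := by linear_combination h3
  have r1 : ((a ^ 2 - 60) / 2) ^ 2 - m ^ 2 - 2 * a * n = 1200 := by linear_combination h2
  have rj : j = -2 * ((a ^ 2 - 60) / 2 * (a * m) - m * n) := by linear_combination h1
  have key : (a ^ 3 / 2 - 50 * a - 2 * n - 10 * m) ^ 2 = 5 * (a * m + a ^ 2 - 20) ^ 2 := by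
    linear_combination (a ^ 2 - 100) * h2 - 4 * h0 - 20 * h1
  have q0 : a * m + a ^ 2 - 20 ≠ 0 := by
    intro q
    have p : a ^ 3 / 2 - 50 * a - 2 * n - 10 * m = 0 :=
      pow_eq_zero_iff two_ne_zero |>.1 (by rw [key, q]; ring)
    obtain rfl : n = a ^ 3 / 4 - 25 * a - 5 * m := by linear_combination -p / 2
    have e : (a ^ 2 - 20) ^ 2 + 4 * m ^ 2 = 0 := by linear_combination -4 * r1 + 40 * q
    have f : m ^ 2 * (a ^ 2 + 4) = 0 := by linear_combination e + (a * m - a ^ 2 + 20) * q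
    rcases mul_eq_zero.1 f with g | g
    · obtain rfl := pow_eq_zero_iff two_ne_zero |>.1 g
      exact j0 (by rw [rj]; ring)
    · obtain rfl : m = -6 * a := by linear_combination (-a / 4) * q + (a + m) / 4 * g
      exact j1 (by rw [rj]; linear_combination (3 * a ^ 2 - 432) * g)
  refine ⟨rfl, by rw [mu]; ring, by rw [nu, mu]; ring, r1, rj, q0, ?_⟩
  rw [sig, ← hn, ← hm, div_pow, key, mul_div_cancel_right₀ _ (pow_ne_zero 2 q0)]

theorem sig_neg (a b c b' c' : L) (h1 : mu (-a) b' = -mu a b) (h2 : nu (-a) b' c' = -nu a b c) :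
    sig (-a) b' c' = -sig a b c := by
  rw [sig, sig, h1, h2, ← neg_div]; congr 1 <;> ring

/-- the `j`-map of the curve attached to the normaliser of a non-split Cartan subgroup -/
def Jns (t : L) : L :=
  125 * (t + 1) * (2 * t + 1) ^ 3 * (2 * t ^ 2 - 3 * t + 3) ^ 3 / (t ^ 2 + t - 1) ^ 5

/-- the `j`-map of the curve attached to the normaliser of a split Cartan subgroup -/
def Js (t : L) : L :=
  (t + 5) ^ 3 * (t ^ 2 - 5) ^ 3 * (t ^ 2 + 5 * t + 10) ^ 3 / (t ^ 2 + 5 * t + 5) ^ 5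

theorem par_ns {j A M N : L} (j2 : j ≠ 8000)
    (r1 : ((5 * A ^ 2 - 60) / 2) ^ 2 - 5 * M ^ 2 - 10 * A * N = 1200)
    (rj : j = -2 * ((5 * A ^ 2 - 60) / 2 * (5 * A * M) - 5 * M * N))
    (q0 : 5 * A * M + 5 * A ^ 2 - 20 ≠ 0)
    (rs : 5 * A ^ 3 / 2 - 50 * A - 2 * N - 10 * M = 5 * A * M + 5 * A ^ 2 - 20) :
    ∃ t : L, t ^ 2 + t - 1 ≠ 0 ∧ j = Jns t ∧ A = -(4 * t ^ 2 - t + 1) / (t ^ 2 + t - 1) ∧
      M = (10 * t ^ 4 - 5 / 2 * t ^ 2 + 15 * t + 15 / 2) / (t ^ 2 + t - 1) ^ 2 ∧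
      N = (40 * t ^ 6 + 170 * t ^ 5 - 100 * t ^ 4 - 175 / 2 * t ^ 3 + 75 / 2 * t ^ 2 + 15 / 2 * t +
        145 / 2) / (t ^ 2 + t - 1) ^ 3 := by
  obtain rfl : N = (5 * A ^ 3 / 2 - 50 * A - 10 * M - 5 * A * M - 5 * A ^ 2 + 20) / 2 := by
    linear_combination -rs / 2
  have e : (M - 5 * A - 5 * A ^ 2 / 2) ^ 2 = 5 * (A + 2) ^ 2 * (A + 3) * (A - 1) := by
    linear_combination -r1 / 5
  have a2 : A + 2 ≠ 0 := by
    intro z
    obtain rfl : A = -2 := by linear_combination z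
    obtain rfl : M = 0 := pow_eq_zero_iff two_ne_zero |>.1 (by linear_combination e)
    exact q0 (by ring)
  obtain ⟨w, rfl⟩ : ∃ w, M = 5 * A + 5 * A ^ 2 / 2 + 5 * (A + 2) * w :=
    ⟨(M - 5 * A - 5 * A ^ 2 / 2) / (5 * (A + 2)), by field_simp; ring⟩
  have c : 5 * w ^ 2 = (A + 3) * (A - 1) :=
    mul_left_cancel₀ (pow_ne_zero 2 a2) (by linear_combination e / 5)
  obtain ⟨k, rfl⟩ : ∃ k, w = 1 - 2 * k - 3 * (A + 4) / 5 := ⟨(1 - w - 3 * (A + 4) / 5) / 2, by ring⟩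
  have k0 : k ≠ 0 := by
    rintro rfl
    obtain rfl : A = -4 := by
      have : (A + 4) ^ 2 = 0 := by linear_combination 5 / 4 * c
      linear_combination pow_eq_zero_iff two_ne_zero |>.1 this
    exact j2 (by rw [rj]; norm_num)
  obtain ⟨t, rfl⟩ : ∃ t, A = 5 * k * (t - 1) - 4 := ⟨(A + 4) / (5 * k) + 1, by field_simp; ring⟩
  have hk : k * (t ^ 2 + t - 1) = 1 :=
    mul_left_cancel₀ k0 (by linear_combination c / 20)
  have h0 : t ^ 2 + t - 1 ≠ 0 := right_ne_zero_of_mul_eq_one hk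
  obtain rfl : k = 1 / (t ^ 2 + t - 1) := by rw [eq_div_iff h0, hk]
  refine ⟨t, h0, ?_, ?_, ?_, ?_⟩
  · rw [rj, Jns]
    generalize z : t ^ 2 + t - 1 = h at h0
    field_simp
    rw [← z]; ring
  all_goals
    generalize z : t ^ 2 + t - 1 = h at h0
    field_simp
    rw [← z]; ring

theorem disc_ns {s t a b c : L} (hs : s ^ 2 = 5) (h0 : t ^ 2 + t - 1 ≠ 0)
    (ha : a = s * (-(4 * t ^ 2 - t + 1) / (t ^ 2 + t - 1)))
    (hb : mu a b = s * ((10 * t ^ 4 - 5 / 2 * t ^ 2 + 15 * t + 15 / 2) / (t ^ 2 + t - 1) ^ 2))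
    (hc : nu a b c = s * ((40 * t ^ 6 + 170 * t ^ 5 - 100 * t ^ 4 - 175 / 2 * t ^ 3 +
      75 / 2 * t ^ 2 + 15 / 2 * t + 145 / 2) / (t ^ 2 + t - 1) ^ 3)) :
    a ^ 2 * b ^ 2 - 4 * b ^ 3 - 4 * a ^ 3 * c + 18 * a * b * c - 27 * c ^ 2 =
      -(8 * t ^ 2 - 12 * t + 7) * (25 * ((4 - 4 * s) * t ^ 5 + 12 * t ^ 4 + (s - 1) * t ^ 3 +
        (3 - 6 * s) * t ^ 2 + (21 - 3 * s) * t + 9) / (t ^ 2 + t - 1) ^ 3) ^ 2 := by
  have ea : a * (t ^ 2 + t - 1) = -s * (4 * t ^ 2 - t + 1) := by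
    rw [ha, mul_assoc, div_mul_cancel₀ _ h0]; ring
  have eb : b * (t ^ 2 + t - 1) ^ 2 = 10 * t ^ 4 - 80 * t ^ 3 + 105 / 2 * t ^ 2 + 55 * t - 55 / 2 +
      s * (10 * t ^ 4 - 5 / 2 * t ^ 2 + 15 * t + 15 / 2) := by
    have : mu a b * (t ^ 2 + t - 1) ^ 2 = s * (10 * t ^ 4 - 5 / 2 * t ^ 2 + 15 * t + 15 / 2) := by
      rw [hb, mul_assoc, div_mul_cancel₀ _ (pow_ne_zero 2 h0)]
    rw [mu] at this
    linear_combination this + (a * (t ^ 2 + t - 1) - s * (4 * t ^ 2 - t + 1)) / 2 * ea +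
      (4 * t ^ 2 - t + 1) ^ 2 / 2 * hs
  have ec : c * (t ^ 2 + t - 1) ^ 3 = -200 * t ^ 6 + 50 * t ^ 5 - 625 / 2 * t ^ 3 - 125 / 2 * t ^ 2 -
      75 / 2 * t - 75 / 2 + s * (40 * t ^ 6 + 170 * t ^ 5 - 100 * t ^ 4 - 175 / 2 * t ^ 3 +
      75 / 2 * t ^ 2 + 15 / 2 * t + 145 / 2) := by
    have h1 : mu a b * (t ^ 2 + t - 1) ^ 2 = s * (10 * t ^ 4 - 5 / 2 * t ^ 2 + 15 * t + 15 / 2) := by
      rw [hb, mul_assoc, div_mul_cancel₀ _ (pow_ne_zero 2 h0)]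
    have h2 : nu a b c * (t ^ 2 + t - 1) ^ 3 = s * (40 * t ^ 6 + 170 * t ^ 5 - 100 * t ^ 4 -
      175 / 2 * t ^ 3 + 75 / 2 * t ^ 2 + 15 / 2 * t + 145 / 2) := by
      rw [hc, mul_assoc, div_mul_cancel₀ _ (pow_ne_zero 3 h0)]
    rw [nu] at h2
    linear_combination h2 + mu a b * (t ^ 2 + t - 1) ^ 2 * ea - s * (4 * t ^ 2 - t + 1) * h1 -
      (4 * t ^ 2 - t + 1) * (10 * t ^ 4 - 5 / 2 * t ^ 2 + 15 * t + 15 / 2) * hs
  rw [eq_div_of_mul_eq h0 ea, eq_div_of_mul_eq (pow_ne_zero 2 h0) eb,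
    eq_div_of_mul_eq (pow_ne_zero 3 h0) ec]
  generalize t ^ 2 + t - 1 = h at h0
  rw [← sub_eq_zero]
  refine Eq.trans (b := (s ^ 2 - 5) * (11840 * s ^ 2 * t ^ 12 - 80800 * s * t ^ 12 + 35040 * s ^ 2 * t ^ 11 - 91200 * s * t ^ 11 - 48540 * s ^ 2 * t ^ 10 + 200800 * t ^ 12 + 78600 * s * t ^ 10 + 38600 * s ^ 2 * t ^ 9 - 199200 * t ^ 11 - 60000 * s * t ^ 9 - 12450 * s ^ 2 * t ^ 8 + 173700 * t ^ 10 - 276750 * s * t ^ 8 - 6210 * s ^ 2 * t ^ 7 + 197000 * t ^ 9 + 50700 * s * t ^ 7 + 125385 / 4 * s ^ 2 * t ^ 6 + 261000 * t ^ 8 + 83975 / 2 * s * t ^ 6 - 35655 / 2 * s ^ 2 * t ^ 5 + 398550 * t ^ 7 - 72900 * s * t ^ 5 + 82575 / 4 * s ^ 2 * t ^ 4 - 1451675 / 4 * t ^ 6 + 31875 / 2 * s * t ^ 4 - 6475 * s ^ 2 * t ^ 3 + 246525 / 2 * t ^ 5 - 84000 * s * t ^ 3 + 18615 / 4 * s ^ 2 * t ^ 2 + 1810875 / 4 * t ^ 4 - 88275 / 2 * s * t ^ 2 - 1455 / 2 * s ^ 2 * t + 28625 * t ^ 3 - 19800 * s * t + 1385 / 4 *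 s ^ 2 - 74325 / 4 * t ^ 2 - 24075 / 2 * s - 188475 / 2 * t - 319675 / 4) / h ^ 6) ?_ (by rw [hs]; simp)
  field_simp
  ring

theorem par_s {j p w : L} (j0 : j ≠ 0) (j1 : j ≠ 1728) (w0 : w ≠ 0)
    (h1 : (p ^ 2 + 5 * w ^ 2 - 20) ^ 3 + 60 * (p ^ 2 + 5 * w ^ 2 - 20) * (p * w) ^ 2 = j * (p - 5))
    (h2 : 6 * (p ^ 2 + 5 * w ^ 2 - 20) ^ 2 * p + 40 * p ^ 3 * w ^ 2 = j) :
    ∃ t y : L, t ^ 2 + 5 * t + 5 ≠ 0 ∧ j = Js t ∧ t ^ 2 - 20 = 5 * y ^ 2 := by
  have p0 : p ≠ 0 := by rintro rfl; exact j0 (by rw [← h2]; ring)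
  obtain ⟨l, hl⟩ : ∃ l, 5 * w ^ 2 = 2 * p * l + p ^ 2 - 10 * p + 20 :=
    ⟨(5 * w ^ 2 - p ^ 2 + 10 * p - 20) / (2 * p), by field_simp; ring⟩
  have hw : w ^ 2 = (2 * p * l + p ^ 2 - 10 * p + 20) / 5 := by linear_combination hl / 5
  rw [mul_pow, hw] at h1
  rw [hw] at h2
  have e : l * (2 * p - 10) ^ 2 + (3 * l ^ 2 + 10 * l - 5) * (2 * p - 10) + l ^ 3 + 30 * l ^ 2 -
      15 * l = 0 :=
    mul_left_cancel₀ (pow_ne_zero 3 p0) (by linear_combination (h1 - (p - 5) * h2) / 8)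
  have l1 : 1 - l ≠ 0 := by
    intro z
    obtain rfl : l = 1 := by linear_combination -z
    obtain rfl : p = 3 := by
      have : (p - 3) ^ 2 = 0 := by linear_combination e / 4
      linear_combination pow_eq_zero_iff two_ne_zero |>.1 this
    exact j1 (by rw [← h2]; norm_num)
  obtain ⟨t, rfl⟩ : ∃ t, p = (t * (1 - l) - 4 * l + 10) / 2 :=
    ⟨(2 * p - 10 + 4 * l) / (1 - l), by field_simp; ring⟩
  have f : l * (t ^ 2 + 5 * t + 5) = 5 * t :=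
    mul_left_cancel₀ (pow_ne_zero 2 l1) (by linear_combination e)
  have d0 : t ^ 2 + 5 * t + 5 ≠ 0 := by
    intro z
    obtain rfl : t = 0 := by linear_combination (l * z - f) / 5
    norm_num at z
  obtain rfl : l = 5 * t / (t ^ 2 + 5 * t + 5) := by rw [eq_div_iff d0, f]
  have hj : j = Js t := by
    rw [← h2, Js]
    generalize z : t ^ 2 + 5 * t + 5 = h at d0
    field_simp
    rw [← z]; ring
  have t5 : t ^ 2 - 5 ≠ 0 := fun z => j0 (by rw [hj, Js, z]; simp)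
  refine ⟨t, 2 * w * (t ^ 2 + 5 * t + 5) / (t ^ 2 - 5), d0, hj, ?_⟩
  rw [div_pow, mul_pow, mul_pow, hw]
  generalize z : t ^ 2 + 5 * t + 5 = h at d0
  generalize z' : t ^ 2 - 5 = k at t5
  field_simp
  rw [← z, ← z']; ring

theorem alg5' {a b x z : L} (hd : z - x ≠ 0) (g0 : x ^ 3 + a * x + b ≠ 0)
    (h1 : (z + 2 * x) * (4 * (x ^ 3 + a * x + b)) = (3 * x ^ 2 + a) ^ 2)
    (h2 : (x + 2 * z) * (4 * (z ^ 3 + a * z + b)) = (3 * z ^ 2 + a) ^ 2) {S : L}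
    (hS : S = 4 * (x ^ 2 + x * z + z ^ 2 + a) / (z - x) ^ 2 - 6) :
    -48 * a = (z - x) ^ 2 * (S ^ 2 - 20) ∧
      -16 * (4 * a ^ 3 + 27 * b ^ 2) = (z - x) ^ 6 * (S - 5) ∧
      864 * b = (z - x) ^ 2 * (6 * (x + z)) * (S ^ 2 - 6 * S + 4) := by
  obtain ⟨g, rfl⟩ : ∃ g, b = g - x ^ 3 - a * x := ⟨x ^ 3 + a * x + b, by ring⟩
  obtain ⟨c, rfl⟩ : ∃ c, a = c - 3 * x ^ 2 := ⟨a + 3 * x ^ 2, by ring⟩
  obtain ⟨d, rfl⟩ : ∃ d, z = x + d := ⟨z - x, by ring⟩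
  have g1 : g ≠ 0 := by convert g0 using 1; ring
  have d0 : d ≠ 0 := by convert hd using 1; ring
  have e : d * (4 * g + 2 * c * d - d ^ 3) = 0 := by linear_combination h2 - h1
  obtain rfl : c = (d ^ 3 - 4 * g) / (2 * d) := by
    have := (mul_eq_zero.1 e).resolve_left d0
    field_simp; linear_combination this
  obtain rfl : x = (((d ^ 3 - 4 * g) / (2 * d)) ^ 2 / (4 * g) - d) / 3 := by
    rw [eq_div_iff three_ne_zero, eq_sub_iff_add_eq, eq_div_iff (by simpa using g1)]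
    linear_combination h1
  subst hS
  simp only [add_sub_cancel_left]
  refine ⟨?_, ?_, ?_⟩ <;> (field_simp; ring)

theorem alg5e [IsAlgClosed L] {a b : L} (a0 : a ≠ 0) (b0 : b ≠ 0)
    (d0 : 4 * a ^ 3 + 27 * b ^ 2 ≠ 0) : ∃ x z : L, z ≠ x ∧ x ^ 3 + a * x + b ≠ 0 ∧
      z ^ 3 + a * z + b ≠ 0 ∧ (z + 2 * x) * (4 * (x ^ 3 + a * x + b)) = (3 * x ^ 2 + a) ^ 2 ∧
      (x + 2 * z) * (4 * (z ^ 3 + a * z + b)) = (3 * z ^ 2 + a) ^ 2 := by
  obtain ⟨j, hj⟩ : ∃ j, j * (-16 * (4 * a ^ 3 + 27 * b ^ 2)) = (-48 * a) ^ 3 :=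
    ⟨_, div_mul_cancel₀ _ (mul_ne_zero (by norm_num) d0)⟩
  obtain ⟨S, hS⟩ := IsAlgClosed.exists_root
    ((Polynomial.X ^ 2 - Polynomial.C 20) ^ 3 - Polynomial.C j * (Polynomial.X - Polynomial.C 5) :
      Polynomial L)
    (by rw [show ((Polynomial.X ^ 2 - Polynomial.C 20) ^ 3 -
      Polynomial.C j * (Polynomial.X - Polynomial.C 5) : Polynomial L).degree = 6 by
        compute_degree!]; norm_num)
  simp only [Polynomial.IsRoot, Polynomial.eval_sub, Polynomial.eval_mul, Polynomial.eval_pow,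
    Polynomial.eval_X, Polynomial.eval_C] at hS
  have j0 : j ≠ 0 := by
    rintro rfl
    exact pow_ne_zero 3 a0 (by linear_combination hj / 110592)
  have S5 : S - 5 ≠ 0 := by
    intro z
    obtain rfl : S = 5 := by linear_combination z
    norm_num at hS
  have q0 : S ^ 2 - 20 ≠ 0 := fun z => mul_ne_zero j0 S5 (by rw [z] at hS; linear_combination -hS)
  obtain ⟨D, rfl⟩ : ∃ D, a = -D * (S ^ 2 - 20) / 48 := ⟨-48 * a / (S ^ 2 - 20), by field_simp⟩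
  have D0 : D ≠ 0 := by rintro rfl; simp at a0
  have e1 : -16 * (4 * (-D * (S ^ 2 - 20) / 48) ^ 3 + 27 * b ^ 2) = D ^ 3 * (S - 5) :=
    mul_left_cancel₀ j0 (by linear_combination hj + D ^ 3 * hS)
  have e2 : (864 * b) ^ 2 = D ^ 3 * (S ^ 2 + 12 * S + 40) * (S ^ 2 - 6 * S + 4) ^ 2 := by
    linear_combination -1728 * e1
  have r0 : S ^ 2 - 6 * S + 4 ≠ 0 := fun z => pow_ne_zero 2 b0 (by
    rw [z] at e2; linear_combination e2 / 746496)
  obtain ⟨d, rfl⟩ := IsAlgClosed.exists_pow_nat_eq D two_pos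
  have d1 : d ≠ 0 := by rintro rfl; simp at D0
  obtain ⟨w, rfl⟩ : ∃ w, b = d ^ 3 * w * (S ^ 2 - 6 * S + 4) / 864 :=
    ⟨864 * b / (d ^ 3 * (S ^ 2 - 6 * S + 4)), by
      generalize S ^ 2 - 6 * S + 4 = v at r0
      field_simp⟩
  have e3 : w ^ 2 = S ^ 2 + 12 * S + 40 :=
    mul_left_cancel₀ (mul_ne_zero (pow_ne_zero 6 d1) (pow_ne_zero 2 r0)) (by linear_combination e2)
  clear e1 e2 hj d0 hS a0 b0
  obtain ⟨C, rfl⟩ : ∃ C, w = 2 * C + S + 6 := ⟨(w - S - 6) / 2, by ring⟩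
  have C0 : C ≠ 0 := by
    rintro rfl
    have : (4 : L) = 0 := by linear_combination -e3
    norm_num at this
  obtain rfl : S = 1 / C - C - 6 := by field_simp; linear_combination e3 / 4
  have g1 : (d * (C + 1 / C - 6) / 12) ^ 3 + -d ^ 2 * ((1 / C - C - 6) ^ 2 - 20) / 48 *
      (d * (C + 1 / C - 6) / 12) + d ^ 3 * (2 * C + (1 / C - C - 6) + 6) *
      ((1 / C - C - 6) ^ 2 - 6 * (1 / C - C - 6) + 4) / 864 = C * d ^ 3 / 4 := by
    field_simp; ring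
  have g2 : (d * (C + 1 / C + 6) / 12) ^ 3 + -d ^ 2 * ((1 / C - C - 6) ^ 2 - 20) / 48 *
      (d * (C + 1 / C + 6) / 12) + d ^ 3 * (2 * C + (1 / C - C - 6) + 6) *
      ((1 / C - C - 6) ^ 2 - 6 * (1 / C - C - 6) + 4) / 864 = d ^ 3 / (4 * C) := by
    field_simp; ring
  refine ⟨d * (C + 1 / C - 6) / 12, d * (C + 1 / C + 6) / 12, fun z => d1 (by linear_combination z),
    ?_, ?_, ?_, ?_⟩
  · rw [g1]; simp [C0, d1]
  · rw [g2]; simp [C0, d1]
  · rw [g1]; field_simp; ring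
  · rw [g2]; field_simp; ring

end alg

section pts

variable {K : Type u} [Field K] [CharZero K] {E : WeierstrassCurve K}

/-- points of order five -/
def T5 (P : Pt E) : Prop := P ≠ 0 ∧ 5 • P = 0

/-- the parameter on `X₀(5)` of the subgroup generated by a point of order five -/
noncomputable def Z (P : Pt E) : AlgebraicClosure K :=
  4 * (xc P ^ 2 + xc P * xc (P + P) + xc (P + P) ^ 2 + algebraMap K _ (sa E)) /
    (xc (P + P) - xc P) ^ 2 - 6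

theorem Z_act (s : Gal K) (P : Pt E) : Z (act E s P) = s (Z P) := by
  simp only [Z, map_sub, map_div₀, map_mul, map_add, map_pow, map_ofNat, AlgEquiv.commutes,
    ← xc_act]

theorem T5.act {P : Pt E} (h : T5 P) (s : Gal K) : T5 (act E s P) :=
  ⟨act_ne s h.1, by rw [← map_nsmul, h.2, map_zero]⟩

theorem T5.e4 {P : Pt E} (h : T5 P) : P + P + (P + P) = -P := by
  linear_combination (norm := abel1) h.2

theorem T5.n4 {P : Pt E} (h : T5 P) : P + P + (P + P) ≠ 0 := by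
  rw [h.e4]; exact neg_ne_zero.2 h.1

theorem T5.n2 {P : Pt E} (h : T5 P) : P + P ≠ 0 := fun e => h.n4 (by rw [e, add_zero])

theorem T5.zmul {P : Pt E} (h : T5 P) (k : ℤ) : (5 ∣ k ∧ k • P = 0) ∨ (k • P ≠ 0 ∧ Z (k • P) = Z P) := by
  have h5 : (5 : ℤ) • P = 0 := by linear_combination (norm := abel1) h.2
  obtain ⟨q, e⟩ : ∃ q, k = 5 * q ∨ k = 5 * q + 1 ∨ k = 5 * q + 2 ∨ k = 5 * q - 2 ∨ k = 5 * q - 1 :=
    ⟨(k + 2) / 5, by omega⟩
  have hq : (5 * q) • P = 0 := by rw [mul_comm, mul_zsmul, h5, zsmul_zero]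
  rcases e with rfl | rfl | rfl | rfl | rfl
  · exact Or.inl ⟨dvd_mul_right _ _, hq⟩
  · rw [add_zsmul, hq, zero_add, one_zsmul]; exact Or.inr ⟨h.1, rfl⟩
  · rw [add_zsmul, hq, zero_add, two_zsmul]
    exact Or.inr ⟨h.n2, by rw [Z, Z, h.e4, xc_neg]; ring⟩
  · rw [sub_zsmul, hq, zero_add, two_zsmul]
    exact Or.inr ⟨neg_ne_zero.2 h.n2, by rw [Z, Z, ← neg_add, h.e4, xc_neg, xc_neg, xc_neg]; ring⟩
  · rw [sub_zsmul, hq, zero_add, one_zsmul]
    exact Or.inr ⟨neg_ne_zero.2 h.1, by rw [Z, Z, ← neg_add, xc_neg, xc_neg]⟩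

theorem T5.alg {P : Pt E} (h : T5 P) : xc (P + P) - xc P ≠ 0 ∧
    -48 * algebraMap K _ (sa E) = (xc (P + P) - xc P) ^ 2 * (Z P ^ 2 - 20) ∧
      -16 * (4 * algebraMap K _ (sa E) ^ 3 + 27 * algebraMap K _ (sb E) ^ 2) =
        (xc (P + P) - xc P) ^ 6 * (Z P - 5) ∧
      864 * algebraMap K _ (sb E) =
        (xc (P + P) - xc P) ^ 2 * (6 * (xc P + xc (P + P))) * (Z P ^ 2 - 6 * Z P + 4) := by
  obtain ⟨k1, g0⟩ := Pt_two h.n2
  obtain ⟨k2, -⟩ := Pt_two h.n4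
  rw [h.e4, xc_neg] at k2
  have hd : xc (P + P) - xc P ≠ 0 := by
    intro e
    rcases xc_inj h.n2 h.1 (sub_eq_zero.1 e) with f | f
    · exact h.1 (by linear_combination (norm := abel1) f)
    · exact h.1 (by linear_combination (norm := abel1) f + f - h.2)
  exact ⟨hd, alg5' hd g0 k1 k2 rfl⟩

variable [E.IsElliptic]

theorem T5.root {P : Pt E} (h : T5 P) : (Z P ^ 2 - 20) ^ 3 = algebraMap K _ E.j * (Z P - 5) := by
  obtain ⟨hd, a1, a2, -⟩ := h.alg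
  obtain ⟨d, hj⟩ := j_short E
  have d' := (map_ne_zero (algebraMap K (AlgebraicClosure K))).2 d
  rw [hj]
  simp only [map_mul, map_add, map_pow, map_neg, map_ofNat, map_div₀] at d' ⊢
  rw [a2] at d'
  have S0 := right_ne_zero_of_mul d'
  rw [a1, a2]
  field_simp

theorem sa_ne (j0 : E.j ≠ 0) : algebraMap K (AlgebraicClosure K) (sa E) ≠ 0 :=
  (map_ne_zero _).2 fun e => j0 (by rw [(j_short E).2, e]; simp)

theorem sb_ne (j1 : E.j ≠ 1728) : algebraMap K (AlgebraicClosure K) (sb E) ≠ 0 :=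
  (map_ne_zero _).2 fun e => by
    obtain ⟨k, d⟩ := j_sub (E := E)
    rw [e] at k d
    exact mul_ne_zero (sub_ne_zero.2 j1) d (by rw [k]; ring)

theorem T5.inj (j0 : E.j ≠ 0) (j1 : E.j ≠ 1728) {P Q : Pt E} (h : T5 P) (k : T5 Q)
    (e : Z P = Z Q) : ∃ n : ℤ, Q = n • P := by
  obtain ⟨hd, a1, -, a3⟩ := h.alg
  obtain ⟨hd', b1, -, b3⟩ := k.alg
  rw [← e] at b1 b3
  have q0 : Z P ^ 2 - 20 ≠ 0 := fun z => sa_ne j0 (by rw [z] at a1; linear_combination -a1 / 48)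
  have r0 : Z P ^ 2 - 6 * Z P + 4 ≠ 0 := fun z => sb_ne j1 (by
    rw [z] at a3; linear_combination a3 / 864)
  have e1 : (xc (Q + Q) - xc Q) ^ 2 = (xc (P + P) - xc P) ^ 2 :=
    mul_right_cancel₀ q0 (b1.symm.trans a1)
  rw [e1] at b3
  have e2 := mul_left_cancel₀ (pow_ne_zero 2 hd) (mul_right_cancel₀ r0 (b3.symm.trans a3))
  rcases sq_eq_sq_iff_eq_or_eq_neg.1 e1 with f | f
  · rcases xc_inj k.1 h.1 (by linear_combination e2 / 12 - f / 2) with g | g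
    · exact ⟨1, by simpa using g⟩
    · exact ⟨-1, by simpa using g⟩
  · rcases xc_inj k.1 h.n2 (by linear_combination e2 / 12 - f / 2) with g | g
    · exact ⟨2, by rw [g, two_zsmul]⟩
    · exact ⟨-2, by rw [g, neg_zsmul, two_zsmul]⟩

theorem exists_T5 (j0 : E.j ≠ 0) (j1 : E.j ≠ 1728) : ∃ P : Pt E, T5 P := by
  have d' := (map_ne_zero (algebraMap K (AlgebraicClosure K))).2 (j_short E).1
  simp only [map_mul, map_add, map_pow, map_neg, map_ofNat] at d'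
  obtain ⟨x, z, n, g1, g2, h1, h2⟩ := alg5e (sa_ne j0) (sb_ne j1) (right_ne_zero_of_mul d')
  obtain ⟨P, p0, rfl⟩ := exists_Pt E x
  have n2 : P + P ≠ 0 := fun e => g1 (by rw [← Pt_eqn p0, (two_tors p0).1 e]; ring)
  obtain ⟨k1, -⟩ := Pt_two n2
  obtain rfl : xc (P + P) = z := mul_right_cancel₀ g1 (by linear_combination (k1 - h1) / 4)
  have n4 : P + P + (P + P) ≠ 0 := fun e => g2 (by rw [← Pt_eqn n2, (two_tors n2).1 e]; ring)
  obtain ⟨k2, -⟩ := Pt_two n4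
  have e : xc (P + P + (P + P)) = xc P := mul_right_cancel₀ g2 (by linear_combination (k2 - h2) / 4)
  rcases xc_inj n4 p0 e with f | f
  · exact absurd (by rw [← xc_neg P]; congr 1; linear_combination (norm := abel1) f) n
  · exact ⟨P, p0, by linear_combination (norm := abel1) f⟩

omit [E.IsElliptic] in
theorem indep {P Q : Pt E} (h : T5 P) (k : T5 Q) (n : Z P ≠ Z Q) {a b : ℤ} (e : a • P = b • Q) :
    5 ∣ a ∧ 5 ∣ b := by
  rcases h.zmul a with ⟨a1, a2⟩ | ⟨a1, a2⟩ <;> rcases k.zmul b with ⟨b1, b2⟩ | ⟨b1, b2⟩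
  · exact ⟨a1, b1⟩
  · exact absurd (e.symm.trans a2) b1
  · exact absurd (e.trans b2) a1
  · exact absurd (by rw [← a2, e, b2]) n

/-- generators of the six subgroups of order five -/
noncomputable def gen (P Q : Pt E) (i : Fin 6) : Pt E :=
  (![1, 0, 1, 1, 1, 1] i : ℤ) • P + (![0, 1, 1, 2, 3, 4] i : ℤ) • Q

theorem six (j0 : E.j ≠ 0) (j1 : E.j ≠ 1728) {P Q : Pt E} (h : T5 P) (k : T5 Q) (n : Z P ≠ Z Q) :
    (∀ i, T5 (gen P Q i)) ∧ Six (algebraMap K _ E.j) (fun i => Z (gen P Q i)) ∧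
      gen P Q 0 = P ∧ gen P Q 1 = Q := by
  have t : ∀ i, T5 (gen P Q i) := fun i => ⟨fun e => by
    have := indep h k n (a := ![1, 0, 1, 1, 1, 1] i) (b := -![0, 1, 1, 2, 3, 4] i)
      (by rw [neg_zsmul]; exact eq_neg_of_add_eq_zero_left e)
    revert this; fin_cases i <;> decide, by
    rw [gen, nsmul_add, smul_comm, h.2, smul_comm 5, k.2, zsmul_zero, zsmul_zero, add_zero]⟩
  refine ⟨t, ⟨fun i l e => ?_, fun i => (t i).root⟩, by simp [gen], by simp [gen]⟩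
  obtain ⟨m, hm⟩ := (t i).inj j0 j1 (t l) e
  have := indep h k n (a := ![1, 0, 1, 1, 1, 1] l - m * ![1, 0, 1, 1, 1, 1] i)
    (b := m * ![0, 1, 1, 2, 3, 4] i - ![0, 1, 1, 2, 3, 4] l) (by
      simp only [gen] at hm
      linear_combination (norm := module) hm)
  revert this
  fin_cases i <;> fin_cases l <;> simp <;> omega

theorem scal (j0 : E.j ≠ 0) (j1 : E.j ≠ 1728) {P Q : Pt E} (h : T5 P) (k : T5 Q) (n : Z P ≠ Z Q)
    {s : Gal K} {m : ℤ} (e1 : act E s P = m • P) (e2 : act E s Q = m • Q) {x : AlgebraicClosure K}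
    (hx : (x ^ 2 - 20) ^ 3 = algebraMap K _ E.j * (x - 5)) : s x = x := by
  obtain ⟨t, S, -, -⟩ := six j0 j1 h k n
  obtain ⟨i, rfl⟩ := S.mem hx
  have e : act E s (gen P Q i) = m • gen P Q i := by
    rw [gen, map_add, map_zsmul, map_zsmul, e1, e2]; module
  rcases (t i).zmul m with ⟨-, f⟩ | ⟨-, f⟩
  · exact absurd (e.trans f) ((t i).act s).1
  · rw [← Z_act, e, f]

theorem swap_scal (j0 : E.j ≠ 0) (j1 : E.j ≠ 1728) {P : Pt E} (h : T5 P) {s : Gal K}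
    (n : s (Z P) ≠ Z P) (e : s (s (Z P)) = Z P) {x : AlgebraicClosure K}
    (hx : (x ^ 2 - 20) ^ 3 = algebraMap K _ E.j * (x - 5)) : s (s x) = x := by
  obtain ⟨m, hm⟩ := h.inj j0 j1 ((h.act s).act s) (by rw [Z_act, Z_act, e])
  exact scal j0 j1 h (h.act s) (by rw [Z_act]; exact n.symm) (s := s * s) (m := m)
    (by rw [act_mul, hm]) (by rw [act_mul, hm, map_zsmul]) hx

theorem line5 (j0 : E.j ≠ 0) (j1 : E.j ≠ 1728) {H : Set (Gal K)} {P : Pt E} (h : T5 P)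
    (hs : ∀ s ∈ H, s (Z P) = Z P) : Line E 5 H := by
  refine ⟨P, h.1, h.2, fun s m => ?_⟩
  obtain ⟨n, e⟩ := h.inj j0 j1 (h.act s) (by rw [Z_act, hs s m])
  have h5 : (5 : ℤ) • P = 0 := by linear_combination (norm := abel1) h.2
  refine ⟨(n % 5).toNat, ?_⟩
  rw [e, ← natCast_zsmul, Int.toNat_of_nonneg (Int.emod_nonneg _ (by norm_num))]
  conv_lhs => rw [← Int.emod_add_ediv_mul n 5, add_zsmul, mul_zsmul, h5, zsmul_zero, add_zero]

omit [E.IsElliptic] in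
theorem line5' {H : Set (Gal K)} (h : Line E 5 H) : ∃ P : Pt E, T5 P ∧ ∀ s ∈ H, s (Z P) = Z P := by
  obtain ⟨P, h0, h5, hs⟩ := h
  refine ⟨P, ⟨h0, h5⟩, fun s m => ?_⟩
  obtain ⟨k, e⟩ := hs s m
  rw [← natCast_zsmul] at e
  rcases T5.zmul ⟨h0, h5⟩ k with ⟨-, f⟩ | ⟨-, f⟩
  · exact absurd (e.trans f) (act_ne s h0)
  · rw [← Z_act, e, f]

end pts

section grp

variable {K : Type u} [Field K] [CharZero K] {E : WeierstrassCurve K}

theorem cyclo5 : ∃ r : AlgebraicClosure K, r ^ 2 = 5 ∧ (∀ s ∈ Cyc K 5, s r = r) ∧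
    (∀ s ∈ Cyc K 5, ∀ g : Gal K, g⁻¹ * s * g ∈ Cyc K 5) ∧
    (∀ s ∈ Cyc K 5, ∀ t ∈ Cyc K 5, s * t ∈ Cyc K 5) ∧
    ∀ g x : Gal K, g r = -r → x r = r → x ∈ Cyc K 5 ∨ x * g * g ∈ Cyc K 5 := by
  obtain ⟨z, hz⟩ := IsAlgClosed.exists_root (Polynomial.X ^ 4 + Polynomial.X ^ 3 + Polynomial.X ^ 2 +
    Polynomial.X + 1 : Polynomial (AlgebraicClosure K)) (by
      rw [show (Polynomial.X ^ 4 + Polynomial.X ^ 3 + Polynomial.X ^ 2 + Polynomial.X + 1 :
        Polynomial (AlgebraicClosure K)).degree = 4 by compute_degree!]; norm_num)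
  simp only [Polynomial.IsRoot, Polynomial.eval_add, Polynomial.eval_pow, Polynomial.eval_X,
    Polynomial.eval_one] at hz
  have z5 : z ^ 5 = 1 := by linear_combination (z - 1) * hz
  have rt : ∀ y : AlgebraicClosure K, y ^ 4 + y ^ 3 + y ^ 2 + y + 1 = 0 →
      y = z ∨ y = z ^ 2 ∨ y = z ^ 3 ∨ y = z ^ 4 := fun y hy => by
    have : (y - z) * ((y - z ^ 2) * ((y - z ^ 3) * (y - z ^ 4))) = 0 := by
      linear_combination hy + (-y * z ^ 5 + z ^ 6 + y ^ 2 * z ^ 3 - z ^ 5 + y ^ 2 * z - y ^ 3 + y * z - y ^ 2 - y + z - 1) * hz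
    simpa only [mul_eq_zero, sub_eq_zero] using this
  have mp : ∀ x : Gal K, x z = z ∨ x z = z ^ 2 ∨ x z = z ^ 3 ∨ x z = z ^ 4 := fun x =>
    rt _ (by simpa using congrArg x hz)
  have cy : ∀ s : Gal K, s z = z → s ∈ Cyc K 5 := fun s e y hy => by
    have : (y - 1) * (y ^ 4 + y ^ 3 + y ^ 2 + y + 1) = 0 := by linear_combination hy
    rcases mul_eq_zero.1 this with f | f
    · rw [sub_eq_zero.1 f, map_one]
    · rcases rt y f with rfl | rfl | rfl | rfl <;> simp [e]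
  have r2 : (1 + 2 * z + 2 * z ^ 4) ^ 2 = 5 := by
    linear_combination 4 * hz + (4 * z ^ 3 + 8) * z5
  have r0 : 1 + 2 * z + 2 * z ^ 4 ≠ 0 := fun e => by rw [e] at r2; norm_num at r2
  have ev : ∀ x : Gal K, x (1 + 2 * z + 2 * z ^ 4) = 1 + 2 * x z + 2 * x z ^ 4 := fun x => by
    simp [map_ofNat]
  refine ⟨1 + 2 * z + 2 * z ^ 4, r2, fun s m => by rw [ev, m z z5], fun s m g y hy => ?_,
    fun s m t n y hy => by rw [AlgEquiv.mul_apply, n y hy, m y hy], fun g x hg hx => ?_⟩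
  · rw [AlgEquiv.mul_apply, AlgEquiv.mul_apply, m (g y) (by rw [← map_pow, hy, map_one]),
      ← AlgEquiv.mul_apply, inv_mul_cancel, AlgEquiv.one_apply]
  · rw [ev] at hg hx
    have g2 : g (g z) = z ^ 4 := by
      rcases mp g with e | e | e | e <;> rw [e] at hg
      · exact absurd (by linear_combination hg / 2) r0
      · rw [e, map_pow, e]; ring
      · rw [e, map_pow, e]; linear_combination z ^ 4 * z5
      · exact absurd (by linear_combination hg / 2 - (z ^ 11 + z ^ 6 + z) * z5) r0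
    rcases mp x with e | e | e | e <;> rw [e] at hx
    · exact Or.inl (cy x e)
    · exact absurd (by linear_combination -hx / 2 + hz + z ^ 3 * z5) r0
    · exact absurd (by linear_combination -hx / 2 + hz + (z ^ 7 + z ^ 2) * z5) r0
    · refine Or.inr (cy _ ?_)
      rw [AlgEquiv.mul_apply, AlgEquiv.mul_apply, g2, map_pow, e]
      linear_combination (z ^ 11 + z ^ 6 + z) * z5

theorem root_map {j : K} (s : Gal K) {x : AlgebraicClosure K}
    (hx : (x ^ 2 - 20) ^ 3 = algebraMap K _ j * (x - 5)) :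
    (s x ^ 2 - 20) ^ 3 = algebraMap K _ j * (s x - 5) := by
  simpa [map_ofNat] using congrArg s hx

theorem sig_map (s : Gal K) (x y z : AlgebraicClosure K) :
    s (sig (ca x y z) (cb x y z) (cc x y z)) =
      sig (ca (s x) (s y) (s z)) (cb (s x) (s y) (s z)) (cc (s x) (s y) (s z)) := by
  simp only [sig, nu, mu, ca, cb, cc, map_div₀, map_sub, map_add, map_mul, map_pow, map_neg,
    map_ofNat]

variable [E.IsElliptic]

theorem swap_odd (j0 : E.j ≠ 0) (j1 : E.j ≠ 1728) {ρ : Fin 6 → AlgebraicClosure K}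
    (h : Six (algebraMap K _ E.j) ρ) {r : AlgebraicClosure K} (hr : r ^ 2 = 5) {s : Gal K}
    (e0 : ca (s (ρ 0)) (s (ρ 1)) (s (ρ 2)) = ca (ρ 3) (ρ 4) (ρ 5))
    (e1 : cb (s (ρ 0)) (s (ρ 1)) (s (ρ 2)) = cb (ρ 3) (ρ 4) (ρ 5))
    (e2 : cc (s (ρ 0)) (s (ρ 1)) (s (ρ 2)) = cc (ρ 3) (ρ 4) (ρ 5)) : s r = -r := by
  obtain ⟨h1, h2, h3, -, -, -, h4⟩ := h.rel ((map_ne_zero _).2 j0)
    (fun e => j1 ((algebraMap K (AlgebraicClosure K)).injective (by rw [e, map_ofNat])))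
    rfl rfl rfl rfl rfl
  have k := sig_map s (ρ 0) (ρ 1) (ρ 2)
  rw [e0, e1, e2, h1, sig_neg _ _ _ _ _ h2 h3] at k
  rcases sq_eq_sq_iff_eq_or_eq_neg.1 (hr.trans h4.symm) with e | e <;> rw [e]
  · exact k
  · rw [map_neg, k]

theorem five_line (j0 : E.j ≠ 0) (j1 : E.j ≠ 1728) (h5 : ¬ IsSquare (5 : K))
    (hl : ¬ Line E 5 Set.univ) (h : Line E 5 (Cyc K 5)) :
    ∃ t y : K, t ^ 2 + 5 * t + 5 ≠ 0 ∧ E.j = Js t ∧ t ^ 2 - 20 = 5 * y ^ 2 := by
  obtain ⟨r, hr, c1, c2, c3, c4⟩ := cyclo5 (K := K)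
  have r0 : r ≠ 0 := by rintro rfl; norm_num at hr
  have pm : ∀ s : Gal K, s r = r ∨ s r = -r := fun s =>
    sq_eq_sq_iff_eq_or_eq_neg.1 (by rw [← map_pow, hr, map_ofNat])
  obtain ⟨g, hg⟩ : ∃ g : Gal K, g r = -r := by
    by_contra k
    push Not at k
    obtain ⟨y, hy⟩ := fixed_iff r fun s => (pm s).resolve_right (k s)
    exact h5 ⟨y, (algebraMap K (AlgebraicClosure K)).injective
      (by rw [map_mul, hy, map_ofNat, ← hr, sq])⟩
  obtain ⟨P, hP, hs⟩ := line5' h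
  have orb : ∀ s ∈ Cyc K 5, ∀ y : Gal K, s (y (Z P)) = y (Z P) := fun s m y => by
    have := congrArg y (hs _ (c2 s m y))
    rwa [← AlgEquiv.mul_apply, ← mul_assoc, ← mul_assoc, mul_inv_cancel, one_mul,
      AlgEquiv.mul_apply] at this
  have g4 : ∀ y : Gal K, g (g (g (g (y (Z P))))) = y (Z P) := fun y => by
    rcases c4 g (g * g) hg (by rw [AlgEquiv.mul_apply, hg, map_neg, hg, neg_neg]) with m | m
    · have := orb _ m y
      rw [AlgEquiv.mul_apply] at this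
      rw [this, this]
    · exact orb _ m y
  have evn : ∀ x : Gal K, x r = r → (∀ y : Gal K, x (y (Z P)) = y (Z P)) ∨
      ∀ y : Gal K, x (y (Z P)) = g (g (y (Z P))) := fun x e => by
    refine (c4 g x hg e).imp (orb x) fun m y => ?_
    have := orb _ m (g * g * y)
    simp only [AlgEquiv.mul_apply] at this
    rwa [g4] at this
  have odd : ∀ x : Gal K, x r = -r → (∀ y : Gal K, x (y (Z P)) = g (g (g (y (Z P))))) ∨
      ∀ y : Gal K, x (y (Z P)) = g (y (Z P)) := fun x e => by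
    refine (evn (x * g) (by rw [AlgEquiv.mul_apply, hg, map_neg, e, neg_neg])).imp
      (fun m y => ?_) fun m y => ?_ <;>
    · have := m (g * g * g * y)
      simp only [AlgEquiv.mul_apply, g4] at this
      exact this
  have n1 : g (Z P) ≠ Z P := fun e => hl (line5 j0 j1 hP fun x _ => by
    rcases pm x with f | f
    · rcases evn x f with m | m <;> simpa [e] using m 1
    · rcases odd x f with m | m <;> simpa [e] using m 1)
  have g2 : g (g (Z P)) = Z P := by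
    by_contra n2
    obtain ⟨t, S, e0, e1⟩ := six j0 j1 hP (hP.act g) (by rw [Z_act]; exact n1.symm)
    have f0 : Z (gen P (act E g P) 0) = Z P := by rw [e0]
    have f1 : Z (gen P (act E g P) 1) = g (Z P) := by rw [e1, Z_act]
    obtain ⟨a, ha⟩ := S.mem (root_map g (root_map g hP.root))
    obtain ⟨b, hb⟩ := S.mem (root_map g (root_map g (root_map g hP.root)))
    have g4' : g (g (g (g (Z P)))) = Z P := g4 1
    obtain ⟨m, n, hm, hn, cov⟩ := two_more a b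
      (by rintro rfl; exact n2 (ha.trans f0))
      (by rintro rfl; exact n1 (g.injective (ha.trans f1)))
      (by rintro rfl; exact n1 ((congrArg g (hb.trans f0)).symm.trans g4'))
      (by rintro rfl; exact n2 (g.injective (hb.trans f1)))
      (by rintro rfl; exact n1 (g.injective (g.injective (hb.trans ha.symm))))
    have out : ∀ k : Fin 6, k ≠ 0 ∧ k ≠ 1 ∧ k ≠ a ∧ k ≠ b → ∀ x : Gal K,
        x (Z (gen P (act E g P) k)) = Z (gen P (act E g P) m) ∨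
        x (Z (gen P (act E g P) k)) = Z (gen P (act E g P) n) := by
      intro k hk x
      have no : ∀ y : Gal K, x (Z (gen P (act E g P) k)) ≠ y (Z P) := fun y e => by
        have e' : Z (gen P (act E g P) k) = (x⁻¹ * y) (Z P) := by
          rw [AlgEquiv.mul_apply, ← e, ← AlgEquiv.mul_apply, inv_mul_cancel, AlgEquiv.one_apply]
        rcases pm (x⁻¹ * y) with f | f
        · rcases evn _ f with q | q
          · exact hk.1 (S.1 (e'.trans ((q 1).trans f0.symm)))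
          · exact hk.2.2.1 (S.1 (e'.trans ((q 1).trans ha)))
        · rcases odd _ f with q | q
          · exact hk.2.2.2 (S.1 (e'.trans ((q 1).trans hb)))
          · exact hk.2.1 (S.1 (e'.trans ((q 1).trans f1.symm)))
      obtain ⟨l, hl⟩ := S.mem (root_map x (t k).root)
      rcases cov l with rfl | rfl | rfl | rfl | rfl | rfl
      · exact absurd (hl.trans f0) (no 1)
      · exact absurd (hl.trans f1) (no g)
      · exact absurd (hl.trans ha.symm) (no (g * g))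
      · exact absurd (hl.trans hb.symm) (no (g * g * g))
      · exact Or.inl hl
      · exact Or.inr hl
    have fx : ∀ x : Gal K, x r = -r → x (Z (gen P (act E g P) m)) = Z (gen P (act E g P) m) := by
      intro x e
      by_contra q
      have q1 := (out m hm x).resolve_left q
      have q2 := (out n hn x).resolve_right fun z => q (by
        have := x.injective (q1.trans z.symm)
        rw [q1, this])
      have := swap_scal j0 j1 (t m) q (by rw [q1, q2]) hP.root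
      rcases odd x e with w | w
      · have w1 : x (Z P) = (g * g * g) (Z P) := w 1
        rw [w1, w] at this
        simp only [AlgEquiv.mul_apply, g4'] at this
        exact n2 this
      · have w1 : x (Z P) = g (Z P) := w 1
        rw [w1, w] at this
        exact n2 this
    refine hl (line5 j0 j1 (t m) fun x _ => ?_)
    rcases pm x with f | f
    · have := fx (g * x) (by rw [AlgEquiv.mul_apply, f, hg])
      exact g.injective (this.trans (fx g hg).symm)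
    · exact fx x f
  have act2 : ∀ x : Gal K, x r = r ∧ x (Z P) = Z P ∧ x (g (Z P)) = g (Z P) ∨
      x r = -r ∧ x (Z P) = g (Z P) ∧ x (g (Z P)) = Z P := fun x => by
    refine (pm x).imp (fun f => ⟨f, ?_⟩) fun f => ⟨f, ?_⟩
    · rcases evn x f with m | m
      · exact ⟨m 1, m g⟩
      · exact ⟨(m 1).trans g2, (m g).trans (by rw [g2])⟩
    · rcases odd x f with m | m
      · exact ⟨(m 1).trans (congrArg g g2), (m g).trans (g4 1)⟩
      · exact ⟨m 1, (m g).trans g2⟩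
  obtain ⟨p, hp⟩ := fixed_iff ((Z P + g (Z P)) / 2) fun x => by
    rw [map_div₀, map_add, map_ofNat]
    rcases act2 x with ⟨-, a, b⟩ | ⟨-, a, b⟩ <;> rw [a, b]
    ring
  obtain ⟨w, hw⟩ := fixed_iff ((Z P - g (Z P)) / (2 * r)) fun x => by
    rw [map_div₀, map_sub, map_mul, map_ofNat]
    rcases act2 x with ⟨c, a, b⟩ | ⟨c, a, b⟩ <;> rw [a, b, c]
    field_simp; ring
  have w0 : w ≠ 0 := by
    rintro rfl
    rw [map_zero, eq_comm, div_eq_zero_iff] at hw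
    rcases hw with e | e
    · exact n1 (sub_eq_zero.1 e).symm
    · exact mul_ne_zero two_ne_zero r0 e
  have R1 := hP.root
  have R2 := root_map g R1
  have z1 : Z P = algebraMap K _ p + algebraMap K _ w * r := by rw [hp, hw]; field_simp; ring
  have z2 : g (Z P) = algebraMap K _ p - algebraMap K _ w * r := by rw [hp, hw]; field_simp; ring
  rw [z2] at R2
  rw [z1] at R1
  have W0 := (map_ne_zero (algebraMap K (AlgebraicClosure K))).2 w0
  refine par_s (p := p) j0 j1 w0 ((algebraMap K (AlgebraicClosure K)).injective ?_)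
    ((algebraMap K (AlgebraicClosure K)).injective ?_) <;>
    simp only [map_add, map_mul, map_sub, map_pow, map_ofNat]
  · generalize algebraMap K (AlgebraicClosure K) p = p at *
    generalize algebraMap K (AlgebraicClosure K) w = w at *
    linear_combination (R1 + R2) / 2 - (r ^ 4 * w ^ 6 + 15 * p ^ 2 * r ^ 2 * w ^ 4 + 5 * r ^ 2 * w ^ 6 + 75 * p ^ 2 * w ^ 4 + 15 * p ^ 4 * w ^ 2 - 60 * r ^ 2 * w ^ 4 + 25 * w ^ 6 - 360 * p ^ 2 * w ^ 2 - 300 * w ^ 4 + 1200 * w ^ 2) * hr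
  · generalize algebraMap K (AlgebraicClosure K) p = p at *
    generalize algebraMap K (AlgebraicClosure K) w = w at *
    refine mul_left_cancel₀ (mul_ne_zero W0 r0) ?_
    linear_combination (R1 - R2) / 2 - (6 * p * r ^ 3 * w ^ 5 + 30 * p * r * w ^ 5 + 20 * p ^ 3 * r * w ^ 3 - 240 * p * r * w ^ 3) * hr

theorem five_comm (j0 : E.j ≠ 0) (j1 : E.j ≠ 1728) (j2 : E.j ≠ 8000) (h5 : ¬ IsSquare (5 : K))
    (nl : ¬ Line E 5 (Cyc K 5)) (hc : Comm E 5 (Cyc K 5)) :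
    ∃ t y : K, t ^ 2 + t - 1 ≠ 0 ∧ E.j = Jns t ∧
      (y ^ 2 = -(8 * t ^ 2 - 12 * t + 7) ∨ y ^ 2 = -5 * (8 * t ^ 2 - 12 * t + 7)) := by
  obtain ⟨r, hr, c1, c2, c3, c4⟩ := cyclo5 (K := K)
  have r0 : r ≠ 0 := by rintro rfl; norm_num at hr
  have rr : ∀ s : Gal K, s r = r → s r ≠ -r := fun s e f => r0 (by linear_combination (f - e) / 2)
  have pm : ∀ s : Gal K, s r = r ∨ s r = -r := fun s =>
    sq_eq_sq_iff_eq_or_eq_neg.1 (by rw [← map_pow, hr, map_ofNat])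
  obtain ⟨g, hg⟩ : ∃ g : Gal K, g r = -r := by
    by_contra k
    push Not at k
    obtain ⟨y, hy⟩ := fixed_iff r fun s => (pm s).resolve_right (k s)
    exact h5 ⟨y, (algebraMap K (AlgebraicClosure K)).injective
      (by rw [map_mul, hy, map_ofNat, ← hr, sq])⟩
  have mv : ∀ R : Pt E, T5 R → ∃ v ∈ Cyc K 5, v (Z R) ≠ Z R := fun R hR => by
    by_contra k
    push Not at k
    exact nl (line5 j0 j1 hR k)
  obtain ⟨Rt, hRt⟩ : ∃ Rt : AlgebraicClosure K → Prop,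
    Rt = fun x => (x ^ 2 - 20) ^ 3 = algebraMap K _ E.j * (x - 5) := ⟨_, rfl⟩
  have rm : ∀ (y : Gal K) x, Rt x → Rt (y x) := fun y x h => by
    rw [hRt] at h ⊢; exact root_map y h
  obtain ⟨P, hP⟩ := exists_T5 j0 j1
  obtain ⟨s, m, hs⟩ := mv P hP
  obtain ⟨t, S, e0, -⟩ := six j0 j1 hP (hP.act s) (by rw [Z_act]; exact hs.symm)
  have pt : ∀ x, Rt x → ∃ R : Pt E, T5 R ∧ x = Z R := fun x h => by
    rw [hRt] at h
    obtain ⟨i, e⟩ := S.mem h
    exact ⟨_, t i, e⟩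
  have fix : ∀ u ∈ Cyc K 5, ∀ z, Rt z → u z = z → ∀ x, Rt x → u x = x := by
    intro u n z hz e x hx
    obtain ⟨R, hR, rfl⟩ := pt z hz
    obtain ⟨v, o, hv⟩ := mv R hR
    obtain ⟨k, hk⟩ := hR.inj j0 j1 (hR.act u) (by rw [Z_act, e])
    rw [hRt] at hx
    exact scal j0 j1 hR (hR.act v) (by rw [Z_act]; exact hv.symm) hk
      (by rw [hc u n v o R hR.2, hk, map_zsmul]) hx
  have cm : ∀ u ∈ Cyc K 5, ∀ x, Rt x → u (s x) = s (u x) := fun u n x hx => by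
    obtain ⟨R, hR, rfl⟩ := pt x hx
    rw [← Z_act, ← Z_act, hc u n s m R hR.2, Z_act, Z_act]
  have nf : ∀ x, Rt x → s x ≠ x := fun x hx e => hs (fix s m x hx e _ (by rw [hRt]; exact hP.root))
  obtain ⟨ρ, S, a0, a1, a2, a3, a4, a5⟩ : ∃ ρ : Fin 6 → AlgebraicClosure K,
      Six (algebraMap K _ E.j) ρ ∧ s (ρ 0) = ρ 1 ∧ s (ρ 1) = ρ 2 ∧ s (ρ 2) = ρ 0 ∧ s (ρ 3) = ρ 4 ∧
        s (ρ 4) = ρ 5 ∧ s (ρ 5) = ρ 3 := by
    generalize (fun i => Z (gen P (act E s P) i)) = ρ at S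
    choose f hf using fun i => S.mem (root_map s (S.2 i))
    rcases derange f (fun i l e => S.1 (s.injective (by rw [hf, hf, e])))
      (fun i e => nf _ (by rw [hRt]; exact S.2 i) (by rw [hf, e])) with ⟨i, l, k⟩ | ⟨i, k, k1, k2⟩
    · exact absurd (swap_odd j0 j1 (S.comp k) hr (s := s) (by simp [hf]) (by simp [hf])
        (by simp [hf])) (rr s (c1 s m))
    · exact ⟨_, S.comp k, hf _, hf _, (hf _).trans (congrArg ρ k1), hf _, hf _,
        (hf _).trans (congrArg ρ k2)⟩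
  have rt : ∀ i, Rt (ρ i) := fun i => by rw [hRt]; exact S.2 i
  have mem : ∀ x, Rt x → x = ρ 0 ∨ x = ρ 1 ∨ x = ρ 2 ∨ x = ρ 3 ∨ x = ρ 4 ∨ x = ρ 5 := fun x h => by
    rw [hRt] at h
    obtain ⟨i, rfl⟩ := S.mem h
    fin_cases i <;> simp
  have s3 : ∀ x, Rt x → s (s (s x)) = x := fun x h => by
    rcases mem x h with rfl | rfl | rfl | rfl | rfl | rfl <;> simp only [a0, a1, a2, a3, a4, a5]
  have Hs : ∀ u ∈ Cyc K 5, (∀ x, Rt x → u x = x) ∨ (∀ x, Rt x → u x = s x) ∨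
      ∀ x, Rt x → u x = s (s x) := fun u n => by
    have b1 : u (ρ 1) = s (u (ρ 0)) := by rw [← a0, cm u n _ (rt 0)]
    have b2 : u (ρ 2) = s (s (u (ρ 0))) := by rw [← a1, cm u n _ (rt 1), b1]
    rcases mem _ (rm u _ (rt 0)) with e | e | e | e | e | e
    · exact Or.inl (fix u n _ (rt 0) e)
    · refine Or.inr (Or.inl fun x hx => ?_)
      have := fix _ (c3 s m _ (c3 s m u n)) _ (rt 0)
        (by rw [AlgEquiv.mul_apply, AlgEquiv.mul_apply, e, a1, a2]) x hx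
      rw [← s3 _ (rm u x hx)]; exact congrArg s this
    · refine Or.inr (Or.inr fun x hx => ?_)
      have := fix _ (c3 s m u n) _ (rt 0) (by rw [AlgEquiv.mul_apply, e, a2]) x hx
      rw [← s3 _ (rm u x hx)]; exact congrArg s (congrArg s this)
    all_goals
      refine absurd (swap_odd j0 j1 S hr (s := u) ?_ ?_ ?_) (rr u (c1 u n)) <;>
        simp only [b1, b2, e, a3, a4, a5, ca, cb, cc] <;> ring
  have nrm : ∀ y : Gal K, (∀ x, Rt x → y (s x) = s (y x)) ∨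
      ∀ x, Rt x → y (s (s x)) = s (y x) := fun y => by
    have k : ∀ x, y ((y⁻¹ * s * y) x) = s (y x) := fun x => by
      rw [← AlgEquiv.mul_apply, ← mul_assoc, ← mul_assoc, mul_inv_cancel, one_mul,
        AlgEquiv.mul_apply]
    rcases Hs _ (c2 s m y) with e | e | e
    · exact absurd (by rw [← k, e _ (rt 0)]) (nf _ (rm y _ (rt 0)))
    · exact Or.inl fun x hx => by rw [← k, e x hx]
    · exact Or.inr fun x hx => by rw [← k, e x hx]
  have nrm' : ∀ y : Gal K, (∀ x, Rt x → y (s (s x)) = s (y x)) →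
      ∀ x, Rt x → y (s x) = s (s (y x)) := fun y e x hx => by
    rw [← e x hx, ← e _ (rm s _ (rm s _ hx)), s3 _ (rm s x hx)]
  have cg : ∀ x, Rt x → g (g (s x)) = s (g (g x)) := fun x hx => by
    rcases nrm g with e | e
    · rw [e x hx, e _ (rm g x hx)]
    · rw [nrm' g e x hx, e _ (rm g x hx)]
  have ev : ∀ y : Gal K, y r = r → ∀ x, Rt x → y (s x) = s (y x) := fun y e x hx => by
    rcases c4 g y hg e with n | n
    · exact cm y n x hx
    · have i : ∀ z, g (g (g⁻¹ (g⁻¹ z))) = z := fun z => by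
        rw [← AlgEquiv.mul_apply g g⁻¹, mul_inv_cancel, AlgEquiv.one_apply, ← AlgEquiv.mul_apply,
          mul_inv_cancel, AlgEquiv.one_apply]
      have hx' := rm g⁻¹ _ (rm g⁻¹ x hx)
      have := cm _ n _ hx'
      simp only [AlgEquiv.mul_apply] at this
      rwa [cg _ hx', i] at this
  have sym : ∀ y : Gal K, (ca (y (ρ 0)) (y (ρ 1)) (y (ρ 2)) = ca (ρ 0) (ρ 1) (ρ 2) ∧
      cb (y (ρ 0)) (y (ρ 1)) (y (ρ 2)) = cb (ρ 0) (ρ 1) (ρ 2) ∧
      cc (y (ρ 0)) (y (ρ 1)) (y (ρ 2)) = cc (ρ 0) (ρ 1) (ρ 2)) ∨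
      (ca (y (ρ 0)) (y (ρ 1)) (y (ρ 2)) = ca (ρ 3) (ρ 4) (ρ 5) ∧
      cb (y (ρ 0)) (y (ρ 1)) (y (ρ 2)) = cb (ρ 3) (ρ 4) (ρ 5) ∧
      cc (y (ρ 0)) (y (ρ 1)) (y (ρ 2)) = cc (ρ 3) (ρ 4) (ρ 5)) := fun y => by
    have b : y (ρ 1) = s (y (ρ 0)) ∧ y (ρ 2) = s (s (y (ρ 0))) ∨
        y (ρ 1) = s (s (y (ρ 0))) ∧ y (ρ 2) = s (y (ρ 0)) := by
      rcases nrm y with e | e
      · exact Or.inl ⟨by rw [← a0, e _ (rt 0)], by rw [← a1, e _ (rt 1), ← a0, e _ (rt 0)]⟩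
      · exact Or.inr ⟨by rw [← a0, nrm' y e _ (rt 0)], by rw [← a1, ← a0, e _ (rt 0)]⟩
    rcases mem _ (rm y _ (rt 0)) with e | e | e | e | e | e
    iterate 3
      left
      rcases b with ⟨b1, b2⟩ | ⟨b1, b2⟩ <;> refine ⟨?_, ?_, ?_⟩ <;>
        simp only [b1, b2, e, a0, a1, a2, ca, cb, cc] <;> ring
    all_goals
      right
      rcases b with ⟨b1, b2⟩ | ⟨b1, b2⟩ <;> refine ⟨?_, ?_, ?_⟩ <;>
        simp only [b1, b2, e, a3, a4, a5, ca, cb, cc] <;> ring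
  have dl : ∀ y : Gal K, y r = r → y ((ρ 0 - ρ 1) * (ρ 0 - ρ 2) * (ρ 1 - ρ 2)) =
      (ρ 0 - ρ 1) * (ρ 0 - ρ 2) * (ρ 1 - ρ 2) := fun y n => by
    have b1 : y (ρ 1) = s (y (ρ 0)) := by rw [← a0, ev y n _ (rt 0)]
    have b2 : y (ρ 2) = s (s (y (ρ 0))) := by rw [← a1, ev y n _ (rt 1), b1]
    rcases mem _ (rm y _ (rt 0)) with e | e | e | e | e | e
    iterate 3 simp only [map_mul, map_sub, b1, b2, e, a0, a1, a2] <;> ring
    all_goals
      refine absurd (swap_odd j0 j1 S hr (s := y) ?_ ?_ ?_) (rr y n) <;>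
        simp only [b1, b2, e, a3, a4, a5, ca, cb, cc] <;> ring
  have d0 : (ρ 0 - ρ 1) * (ρ 0 - ρ 2) * (ρ 1 - ρ 2) ≠ 0 :=
    mul_ne_zero (mul_ne_zero (sub_ne_zero.2 (S.1.ne (by decide)))
      (sub_ne_zero.2 (S.1.ne (by decide)))) (sub_ne_zero.2 (S.1.ne (by decide)))
  obtain ⟨a, ha⟩ : ∃ a, a = ca (ρ 0) (ρ 1) (ρ 2) := ⟨_, rfl⟩
  obtain ⟨b, hb⟩ : ∃ b, b = cb (ρ 0) (ρ 1) (ρ 2) := ⟨_, rfl⟩
  obtain ⟨c, hc'⟩ : ∃ c, c = cc (ρ 0) (ρ 1) (ρ 2) := ⟨_, rfl⟩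
  have dd : ((ρ 0 - ρ 1) * (ρ 0 - ρ 2) * (ρ 1 - ρ 2)) ^ 2 =
      a ^ 2 * b ^ 2 - 4 * b ^ 3 - 4 * a ^ 3 * c + 18 * a * b * c - 27 * c ^ 2 := by
    rw [ha, hb, hc']; simp only [ca, cb, cc]; ring
  obtain ⟨h1, h2, h3, r1, rj, q0, h4⟩ := S.rel ((map_ne_zero _).2 j0)
    (fun e => j1 ((algebraMap K (AlgebraicClosure K)).injective (by rw [e, map_ofNat])))
    ha hb hc' rfl rfl
  have sg : ∀ y : Gal K, (y a = a ∧ y (mu a b) = mu a b ∧ y (nu a b c) = nu a b c ∧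
      y (sig a b c) = sig a b c) ∨ (y a = -a ∧ y (mu a b) = -mu a b ∧ y (nu a b c) = -nu a b c ∧
      y (sig a b c) = -sig a b c) := fun y => by
    have ya : y a = ca (y (ρ 0)) (y (ρ 1)) (y (ρ 2)) := by rw [ha]; simp [ca]
    have yb : y b = cb (y (ρ 0)) (y (ρ 1)) (y (ρ 2)) := by rw [hb]; simp [cb]
    have yc : y c = cc (y (ρ 0)) (y (ρ 1)) (y (ρ 2)) := by rw [hc']; simp [cc]
    have ym : y (mu a b) = mu (y a) (y b) := by simp [mu, map_ofNat]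
    have yn : y (nu a b c) = nu (y a) (y b) (y c) := by simp [nu, mu, map_ofNat]
    have ys : y (sig a b c) = sig (y a) (y b) (y c) := by simp [sig, nu, mu, map_ofNat]
    rw [ym, yn, ys, ya, yb, yc]
    refine (sym y).imp (fun ⟨e1, e2, e3⟩ => ?_) fun ⟨e1, e2, e3⟩ => ?_
    · rw [e1, e2, e3, ← ha, ← hb, ← hc']; simp
    · rw [e1, e2, e3, h1]; exact ⟨rfl, h2, h3, sig_neg _ _ _ _ _ h2 h3⟩
  have rs : sig a b c * (a * mu a b + a ^ 2 - 20) = a ^ 3 / 2 - 50 * a - 2 * nu a b c - 10 * mu a b :=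
    div_mul_cancel₀ _ q0
  generalize hσ : sig a b c = σ at h4 sg rs
  have σ0 : σ ≠ 0 := by rintro rfl; norm_num at h4
  obtain ⟨A, hA⟩ := fixed_iff (a / σ) fun y => by
    rcases sg y with ⟨e, -, -, f⟩ | ⟨e, -, -, f⟩ <;> simp [e, f]
  obtain ⟨M, hM⟩ := fixed_iff (mu a b / σ) fun y => by
    rcases sg y with ⟨-, e, -, f⟩ | ⟨-, e, -, f⟩ <;> simp [e, f]
  obtain ⟨N, hN⟩ := fixed_iff (nu a b c / σ) fun y => by
    rcases sg y with ⟨-, -, e, f⟩ | ⟨-, -, e, f⟩ <;> simp [e, f]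
  have eA : a = σ * algebraMap K _ A := by rw [hA]; field_simp
  have eM : mu a b = σ * algebraMap K _ M := by rw [hM]; field_simp
  have eN : nu a b c = σ * algebraMap K _ N := by rw [hN]; field_simp
  rw [eM, eN] at r1 rj rs
  rw [eM] at q0
  have inj := (algebraMap K (AlgebraicClosure K)).injective
  obtain ⟨t, h0, hj, tA, tM, tN⟩ := par_ns (A := A) (M := M) (N := N) j2
    (inj (by
      simp only [map_sub, map_mul, map_pow, map_div₀, map_ofNat]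
      rw [eA] at r1
      generalize algebraMap K (AlgebraicClosure K) A = A at *
      generalize algebraMap K (AlgebraicClosure K) M = M at *
      generalize algebraMap K (AlgebraicClosure K) N = N at *
      linear_combination r1 - (1 / 4 * A ^ 4 * σ ^ 2 + 5 / 4 * A ^ 4 - 2 * A * N - 30 * A ^ 2 - M ^ 2) * h4))
    (inj (by
      simp only [map_sub, map_mul, map_pow, map_div₀, map_ofNat, map_neg]
      rw [eA] at rj
      generalize algebraMap K (AlgebraicClosure K) A = A at *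
      generalize algebraMap K (AlgebraicClosure K) M = M at *
      generalize algebraMap K (AlgebraicClosure K) N = N at *
      linear_combination rj + (-A ^ 3 * M * σ ^ 2 - 5 * A ^ 3 * M + 60 * A * M + 2 * M * N) * h4))
    (fun z => q0 (by
      have := congrArg (algebraMap K (AlgebraicClosure K)) z
      simp only [map_sub, map_add, map_mul, map_pow, map_ofNat, map_zero] at this
      rw [eA]
      linear_combination this + (algebraMap K _ A * algebraMap K _ M + algebraMap K _ A ^ 2) * h4))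
    (inj (by
      simp only [map_sub, map_add, map_mul, map_pow, map_div₀, map_ofNat]
      rw [eA] at rs
      refine mul_left_cancel₀ σ0 ?_
      linear_combination -rs + σ * (algebraMap K _ A * algebraMap K _ M + algebraMap K _ A ^ 2 -
        algebraMap K _ A ^ 3 / 2) * h4))
  have h0' := (map_ne_zero (algebraMap K (AlgebraicClosure K))).2 h0
  simp only [map_sub, map_add, map_pow, map_one] at h0'
  have D := disc_ns (t := algebraMap K _ t) (a := a) (b := b) (c := c) h4 h0'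
    (by rw [eA, tA]; simp [map_ofNat]) (by rw [eM, tM]; simp [map_ofNat])
    (by rw [eN, tN]; simp [map_ofNat])
  rw [← dd] at D
  have fR : ∀ y : Gal K, y r = r → y σ = σ := fun y n => by
    rcases sq_eq_sq_iff_eq_or_eq_neg.1 (h4.trans hr.symm) with e | e <;> simp [e, n]
  obtain ⟨R, hR⟩ : ∃ R, R = 25 * ((4 - 4 * σ) * algebraMap K _ t ^ 5 + 12 * algebraMap K _ t ^ 4 +
      (σ - 1) * algebraMap K _ t ^ 3 + (3 - 6 * σ) * algebraMap K _ t ^ 2 +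
      (21 - 3 * σ) * algebraMap K _ t + 9) / (algebraMap K _ t ^ 2 + algebraMap K _ t - 1) ^ 3 :=
    ⟨_, rfl⟩
  have gR : ∀ y : Gal K, y r = r → y R = R := fun y n => by
    rw [hR]; simp [map_ofNat, fR y n]
  rw [← hR] at D
  have R0 : R ≠ 0 := by rintro rfl; exact pow_ne_zero 2 d0 (by rw [D]; ring)
  generalize (ρ 0 - ρ 1) * (ρ 0 - ρ 2) * (ρ 1 - ρ 2) = δ at dl D
  have Y : (δ / R) ^ 2 = algebraMap K _ (-(8 * t ^ 2 - 12 * t + 7)) := by
    rw [div_pow, D, mul_div_cancel_right₀ _ (pow_ne_zero 2 R0)]; simp [map_ofNat]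
  rcases quad_desc (x := δ / R) pm (fun y n => by rw [map_div₀, dl y n, gR y n])
    (fun y => sq_eq_sq_iff_eq_or_eq_neg.1 (by rw [← map_pow, Y, AlgEquiv.commutes])) with k | k
  · obtain ⟨y, hy⟩ := fixed_iff _ k
    exact ⟨t, y, h0, hj, Or.inl (inj (by rw [map_pow, hy, Y]))⟩
  · obtain ⟨y, hy⟩ := fixed_iff _ k
    refine ⟨t, y, h0, hj, Or.inr (inj ?_)⟩
    rw [map_pow, hy, mul_pow, Y, hr]
    simp only [map_neg, map_mul, map_ofNat]; ring

/-- irreducible mod five image which is not absolutely irreducible on the cyclotomic field -/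
theorem five (j0 : E.j ≠ 0) (j1 : E.j ≠ 1728) (j2 : E.j ≠ 8000) (h5 : ¬ IsSquare (5 : K))
    (hl : ¬ Line E 5 Set.univ) (h : ¬ AbsIrr E 5 (Cyc K 5)) :
    (∃ t y : K, t ^ 2 + 5 * t + 5 ≠ 0 ∧ E.j = Js t ∧ t ^ 2 - 20 = 5 * y ^ 2) ∨
    ∃ t y : K, t ^ 2 + t - 1 ≠ 0 ∧ E.j = Jns t ∧
      (y ^ 2 = -(8 * t ^ 2 - 12 * t + 7) ∨ y ^ 2 = -5 * (8 * t ^ 2 - 12 * t + 7)) := by
  by_cases nl : Line E 5 (Cyc K 5)
  · exact Or.inl (five_line j0 j1 h5 hl nl)
  · exact Or.inr (five_comm j0 j1 j2 h5 nl (by by_contra hc; exact h ⟨nl, hc⟩))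

/-- the same with a quadratic factor of the icosahedral quintic -/
theorem five_pq (j0 : E.j ≠ 0) (j1 : E.j ≠ 1728) (j2 : E.j ≠ 8000) (h5 : ¬ IsSquare (5 : K))
    (hl : ¬ Line E 5 Set.univ) (h : ¬ AbsIrr E 5 (Cyc K 5)) :
    (∃ t y : K, t ^ 2 + 5 * t + 5 ≠ 0 ∧ E.j = Js t ∧ t ^ 2 - 20 = 5 * y ^ 2) ∨
    ∃ p q c : K, c + p * (40 - q - p * (5 - p)) + q * (5 - p) = 0 ∧
      p * c + q * (40 - q - p * (5 - p)) = 0 ∧ q * c = -E.j ∧ p ^ 2 - 4 * q ≠ 0 ∧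
      (IsSquare (p ^ 2 - 4 * q) ∨ IsSquare (5 * (p ^ 2 - 4 * q))) := by
  refine (five j0 j1 j2 h5 hl h).imp_right fun ⟨t, y, h0, hj, hy⟩ => ?_
  have t0 : 2 * t + 1 ≠ 0 := fun z => j0 (by rw [hj, Jns, z]; simp)
  have g0 : 8 * t ^ 2 - 12 * t + 7 ≠ 0 := fun z => j1 (by
    rw [hj, Jns, div_eq_iff (pow_ne_zero 5 h0)]
    linear_combination (784 * t ^ 8 - 1904 * t ^ 7 - 2372 * t ^ 6 + 2268 * t ^ 5 + 4905 * t ^ 4 + 6372 * t ^ 3 + 4698 * t ^ 2 + 1944 * t + 729) * z)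
  have e : (5 * (2 * t + 1) / (t ^ 2 + t - 1)) ^ 2 -
      4 * (5 * (2 * t + 1) ^ 2 * (2 * t ^ 2 - 3 * t + 3) / (t ^ 2 + t - 1) ^ 2) =
      -5 * (8 * t ^ 2 - 12 * t + 7) * ((2 * t + 1) / (t ^ 2 + t - 1)) ^ 2 := by
    generalize t ^ 2 + t - 1 = k at h0
    field_simp; ring
  refine ⟨5 * (2 * t + 1) / (t ^ 2 + t - 1),
    5 * (2 * t + 1) ^ 2 * (2 * t ^ 2 - 3 * t + 3) / (t ^ 2 + t - 1) ^ 2,
    -25 * (t + 1) * (2 * t + 1) * (2 * t ^ 2 - 3 * t + 3) ^ 2 / (t ^ 2 + t - 1) ^ 3,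
    ?_, ?_, ?_, ?_, ?_⟩
  iterate 2
    generalize z : t ^ 2 + t - 1 = k at h0
    field_simp; rw [← z]; ring
  · rw [hj, Jns]
    generalize z : t ^ 2 + t - 1 = k at h0
    field_simp; ring
  · rw [e]
    exact mul_ne_zero (mul_ne_zero (by norm_num) g0) (pow_ne_zero 2 (div_ne_zero t0 h0))
  · rw [e]
    rcases hy with hy | hy
    · exact Or.inr ⟨5 * y * ((2 * t + 1) / (t ^ 2 + t - 1)), by
        linear_combination -25 * ((2 * t + 1) / (t ^ 2 + t - 1)) ^ 2 * hy⟩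
    · exact Or.inl ⟨y * ((2 * t + 1) / (t ^ 2 + t - 1)), by
        linear_combination -((2 * t + 1) / (t ^ 2 + t - 1)) ^ 2 * hy⟩

end grp

end Vale.Agent.Q017
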