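import Vale.Agent.Q017.Five
import Vale.Agent.Q017A.Rel
import Vale.Agent.Q017A.NoRoot
import Vale.Agent.Q017B.Rat
import Vale.Agent.Q017D.R75

/-!
# The row `X₀(3) × X(s5+)`: every imaginary quadratic point is a `ℚ`-curve
-/

set_option linter.all false

namespace Vale.Agent.Q017

open Vale.Agent.Q017A Vale.Agent.Q017B

section model
variable {K : Type*} [Field K] [CharZero K]

/-- the degree `2` function on `X(b3, S₄)` -/
theorem b3A {T t : K} (ht : t ≠ 0) (hM : t ^ 2 + 4 * t + 24 ≠ 0)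
    (G : (T + 27) * (T + 3) ^ 3 = T * t ^ 3 * (t ^ 2 + 5 * t + 40)) :
    ∃ x : K, t ^ 2 - (x + 3) * (x ^ 2 - 5) * t + x ^ 4 + 3 * x ^ 3 - 15 * x ^ 2 - 15 * x + 90 = 0 ∧
      T ^ 2 + 729 = T * (x ^ 5 + 5 * x ^ 4 - 5 * x ^ 3 - 45 * x ^ 2 + 54) := by
  obtain ⟨n, hn⟩ : ∃ n, n = t ^ 5 + 4 * t ^ 4 + 3 * T * t ^ 2 + T ^ 2 * t - T ^ 3 + 33 * t ^ 3 + 30 * T * t - 33 * T ^ 2 + 9 * t ^ 2 - 171 * T + 81 * t - 243 := ⟨_, rfl⟩
  obtain ⟨d, hd⟩ : ∃ d, d = t ^ 2 * (t ^ 2 + 4 * t + 24) := ⟨_, rfl⟩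
  have d0 : d ≠ 0 := hd ▸ mul_ne_zero (pow_ne_zero 2 ht) hM
  have ha : d ^ 4 * t ^ 2 - d * n ^ 3 * t - 3 * d ^ 2 * n ^ 2 * t + 5 * d ^ 3 * n * t + 15 * d ^ 4 * t +
      3 * d * n ^ 3 - 15 * d ^ 2 * n ^ 2 - 15 * d ^ 3 * n + 90 * d ^ 4 + n ^ 4 = 0 := by
    rw [hn, hd]
    linear_combination (-T * t ^ 11 + T ^ 2 * t ^ 10 - 3 * t ^ 12 + 23 * T * t ^ 10 + 10 * T ^ 2 * t ^ 9 - 60 * t ^
      11 + 208 * T * t ^ 9 + 77 * T ^ 2 * t ^ 8 + 12 * T ^ 3 * t ^ 7 + 5 * T ^ 4 * t ^ 6 - 2 * T ^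
      5 * t ^ 5 - 414 * t ^ 10 + 2056 * T * t ^ 8 + 620 * T ^ 2 * t ^ 7 + 372 * T ^ 3 * t ^ 6 -
      104 * T ^ 4 * t ^ 5 - 10 * T ^ 5 * t ^ 4 - 2352 * t ^ 9 + 7596 * T * t ^ 7 + 8004 * T ^ 2 *
      t ^ 6 - 720 * T ^ 3 * t ^ 5 - 426 * T ^ 4 * t ^ 4 - 48 * T ^ 5 * t ^ 3 - 6 * T ^ 6 * t ^ 2 -
      4 * T ^ 7 * t + T ^ 8 - 690 * t ^ 8 + 49968 * T * t ^ 6 + 19908 * T ^ 2 * t ^ 5 - 540 * T ^
      3 * t ^ 4 - 3024 * T ^ 4 * t ^ 3 - 324 * T ^ 5 * t ^ 2 - 372 * T ^ 6 * t + 96 * T ^ 7 +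
      14940 * t ^ 7 + 90450 * T * t ^ 5 + 122580 * T ^ 2 * t ^ 4 - 59616 * T ^ 3 * t ^ 3 - 4050 *
      T ^ 4 * t ^ 2 - 12852 * T ^ 5 * t + 3492 * T ^ 6 + 206739 * t ^ 6 + 666630 * T * t ^ 4 -
      386208 * T ^ 2 * t ^ 3 + 18792 * T ^ 3 * t ^ 2 - 201636 * T ^ 4 * t + 60048 * T ^ 5 + 329508
      * t ^ 5 - 1014768 * T * t ^ 3 + 307638 * T ^ 2 * t ^ 2 - 1452492 * T ^ 3 * t + 514350 * T ^
      4 + 914166 * t ^ 4 + 1023516 * T * t ^ 2 - 5222556 * T ^ 2 * t + 2395008 * T ^ 3 - 944784 *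
      t ^ 3 - 9211644 * T * t + 6219828 * T ^ 2 + 1062882 * t ^ 2 + 8503056 * T - 6377292 * t +
      4782969) * G
  have hb : T ^ 2 * d ^ 5 - 5 * T * d * n ^ 4 + 5 * T * d ^ 2 * n ^ 3 + 45 * T * d ^ 3 * n ^ 2 - 54 * T
      * d ^ 5 - T * n ^ 5 + 729 * d ^ 5 = 0 := by
    rw [hn, hd]
    linear_combination (t ^ 20 + 20 * t ^ 19 + 15 * T * t ^ 17 + 5 * T ^ 2 * t ^ 16 - 4 * T ^ 3 * t ^ 15 + 280 * t ^
      18 + 375 * T * t ^ 16 - 54 * T ^ 2 * t ^ 15 - 60 * T ^ 3 * t ^ 14 + 2560 * t ^ 17 + 4274 * T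
      * t ^ 15 - 975 * T ^ 2 * t ^ 14 - 645 * T ^ 3 * t ^ 13 - 35 * T ^ 4 * t ^ 12 - 15 * T ^ 5 *
      t ^ 11 + 6 * T ^ 6 * t ^ 10 + 18560 * t ^ 16 + 35550 * T * t ^ 14 - 13990 * T ^ 2 * t ^ 13 -
      5185 * T ^ 3 * t ^ 12 - 1280 * T ^ 4 * t ^ 11 + 237 * T ^ 5 * t ^ 10 + 60 * T ^ 6 * t ^ 9 +
      100864 * t ^ 15 + 182415 * T * t ^ 13 - 95955 * T ^ 2 * t ^ 12 - 47625 * T ^ 3 * t ^ 11 -
      4345 * T ^ 4 * t ^ 10 + 2370 * T ^ 5 * t ^ 9 + 460 * T ^ 6 * t ^ 8 + 25 * T ^ 7 * t ^ 7 + 15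
      * T ^ 8 * t ^ 6 - 4 * T ^ 9 * t ^ 5 + 445440 * t ^ 14 + 717335 * T * t ^ 12 - 618210 * T ^ 2
      * t ^ 11 - 265311 * T ^ 3 * t ^ 10 - 21400 * T ^ 4 * t ^ 9 + 23520 * T ^ 5 * t ^ 8 + 3050 *
      T ^ 6 * t ^ 7 + 1535 * T ^ 7 * t ^ 6 - 312 * T ^ 8 * t ^ 5 - 20 * T ^ 9 * t ^ 4 + 1474560 *
      t ^ 13 + 1141215 * T * t ^ 11 - 2510946 * T ^ 2 * t ^ 10 - 1496925 * T ^ 3 * t ^ 9 + 213045
      * T ^ 4 * t ^ 8 + 103185 * T ^ 5 * t ^ 7 + 60265 * T ^ 6 * t ^ 6 - 6498 * T ^ 7 * t ^ 5 -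
      1390 * T ^ 8 * t ^ 4 - 95 * T ^ 9 * t ^ 3 - 5 * T ^ 10 * t ^ 2 - 5 * T ^ 11 * t + T ^ 12 +
      3870720 * t ^ 12 - 684621 * T * t ^ 10 - 10854810 * T ^ 2 * t ^ 9 - 3146715 * T ^ 3 * t ^ 8
      + 836100 * T ^ 4 * t ^ 7 + 1126125 * T ^ 5 * t ^ 6 + 35220 * T ^ 6 * t ^ 5 - 21270 * T ^ 7 *
      t ^ 4 - 9000 * T ^ 8 * t ^ 3 - 375 * T ^ 9 * t ^ 2 - 630 * T ^ 10 * t + 129 * T ^ 11 +
      6635520 * t ^ 11 - 21618495 * T * t ^ 9 - 23756085 * T ^ 2 * t ^ 8 - 8140365 * T ^ 3 * t ^ 7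
      + 10091385 * T ^ 4 * t ^ 6 + 2243322 * T ^ 5 * t ^ 5 + 451530 * T ^ 6 * t ^ 4 - 320580 * T ^
      7 * t ^ 3 - 7380 * T ^ 8 * t ^ 2 - 32265 * T ^ 9 * t + 6831 * T ^ 10 + 7962624 * t ^ 10 -
      53089425 * T * t ^ 8 - 65204190 * T ^ 2 * t ^ 7 + 39518145 * T ^ 3 * t ^ 6 + 17283456 * T ^
      4 * t ^ 5 + 15218010 * T ^ 5 * t ^ 4 - 5319000 * T ^ 6 * t ^ 3 + 66420 * T ^ 7 * t ^ 2 -
      862920 * T ^ 8 * t + 191943 * T ^ 9 - 127316205 * T * t ^ 7 + 64017135 * T ^ 2 * t ^ 6 +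
      53291682 * T ^ 3 * t ^ 5 + 132502230 * T ^ 4 * t ^ 4 - 42814170 * T ^ 5 * t ^ 3 + 3733290 *
      T ^ 6 * t ^ 2 - 12993210 * T ^ 7 * t + 3116394 * T ^ 8 + 31197555 * T * t ^ 6 + 73159524 * T
      ^ 2 * t ^ 5 + 511818750 * T ^ 3 * t ^ 4 - 183951000 * T ^ 4 * t ^ 3 + 42031710 * T ^ 5 * t ^
      2 - 113446980 * T ^ 6 * t + 30485322 * T ^ 7 + 37437066 * T * t ^ 5 + 929759310 * T ^ 2 * t
      ^ 4 - 434206980 * T ^ 3 * t ^ 3 + 220376700 * T ^ 4 * t ^ 2 - 598662090 * T ^ 5 * t +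
      187800606 * T ^ 6 + 650129490 * T * t ^ 4 - 531441000 * T ^ 2 * t ^ 3 + 610566660 * T ^ 3 *
      t ^ 2 - 1945467720 * T ^ 4 * t + 748290798 * T ^ 5 - 263063295 * T * t ^ 3 + 868906035 * T ^
      2 * t ^ 2 - 3818403585 * T ^ 3 * t + 1930961349 * T ^ 4 + 502211745 * T * t ^ 2 - 4161183030
      * T ^ 2 * t + 3123278757 * T ^ 3 - 1937102445 * T * t + 2884130307 * T ^ 2 + 1162261467 * T) * G
  refine ⟨n / d, ?_, ?_⟩
  · field_simp
    linear_combination ha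
  · field_simp
    linear_combination hb

/-- the quotient by the Atkin-Lehner involution -/
theorem b3B {s x : K} (hD : s ^ 2 + 5 * s + 5 ≠ 0) (h5 : s ^ 2 + 5 * s + 10 ≠ 0) (h1 : x ≠ 1)
    {t : K} (ht : t = (s + 5) * (s ^ 2 - 5) / (s ^ 2 + 5 * s + 5))
    (h : t ^ 2 - (x + 3) * (x ^ 2 - 5) * t + x ^ 4 + 3 * x ^ 3 - 15 * x ^ 2 - 15 * x + 90 = 0) :
    ∃ u a : K, a ≠ 0 ∧ u ^ 2 + 5 * u = (x + 3) * a ∧ a ^ 2 + 5 * a = u * (x * a + 5) := by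
  have ht' : t * (s ^ 2 + 5 * s + 5) = (s + 5) * (s ^ 2 - 5) := by rw [ht, div_mul_cancel₀ _ hD]
  have H : ((s + 5) * (s ^ 2 - 5)) ^ 2 -
      (x + 3) * (x ^ 2 - 5) * ((s + 5) * (s ^ 2 - 5)) * (s ^ 2 + 5 * s + 5) +
      (x ^ 4 + 3 * x ^ 3 - 15 * x ^ 2 - 15 * x + 90) * (s ^ 2 + 5 * s + 5) ^ 2 = 0 := by
    rw [← ht']; linear_combination (s ^ 2 + 5 * s + 5) ^ 2 * h
  have e0 : s - x ≠ 0 := fun k => pow_ne_zero 3 h5 (by
    rw [show x = s by linear_combination -k] at H; linear_combination H)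
  obtain ⟨a, ha⟩ : ∃ a, a = (s ^ 2 + 5 * s + 10) / (s - x) := ⟨_, rfl⟩
  have a0 : a ≠ 0 := ha ▸ div_ne_zero h5 e0
  have F : a * (a + 5) ^ 2 + 5 * (a + 5) * (x * a + 5) - (x + 3) * (x * a + 5) ^ 2 = 0 := by
    rw [ha]; field_simp; linear_combination H
  have u0 : x * a + 5 ≠ 0 := fun k => by
    have k1 : a * (a + 5) ^ 2 = 0 := by
      linear_combination F - (5 * (a + 5) - (x + 3) * (x * a + 5)) * k
    have k2 : a = -5 := by
      linear_combination pow_eq_zero_iff (n := 2) two_ne_zero |>.1 ((mul_eq_zero.1 k1).resolve_left a0)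
    rw [k2] at k
    exact h1 (by linear_combination -k / 5)
  refine ⟨a * (a + 5) / (x * a + 5), a, a0, ?_, ?_⟩
  · generalize z : x * a + 5 = w at u0 F
    field_simp
    linear_combination F
  · rw [div_mul_cancel₀ _ u0]; ring

end model

/-- rational points of the quotient -/
theorem b3pts {u a : ℚ} (h : a ^ 2 + 5 * a + 3 * u * a = u ^ 3 + 5 * u ^ 2 + 5 * u) :
    (u = -1 ∧ a = -1) ∨ (u = -5 ∧ a = 5) ∨ (u = -5 / 4 ∧ a = -5 / 8) ∨ (u = 0 ∧ a = 0) ∨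
      (u = 0 ∧ a = -5) ∨ (u = -2 ∧ a = 2) ∨ (u = -2 ∧ a = -1) := by
  rcases rat15' (x := 4 * u + 4) (y := 4 * (2 * a + 3 * u + 5)) (by linear_combination 64 * h)
    with k | k | k | k | k
  · obtain rfl : u = -1 := by linarith
    exact Or.inl ⟨rfl, by nlinarith⟩
  · obtain rfl : u = -5 / 4 := by linarith
    exact Or.inr (Or.inr (Or.inl ⟨rfl, by nlinarith⟩))
  · obtain rfl : u = -5 := by linarith
    exact Or.inr (Or.inl ⟨rfl, by nlinarith⟩)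
  · obtain rfl : u = 0 := by linarith
    rcases mul_eq_zero.1 (show a * (a + 5) = 0 by linear_combination h) with j | j
    · exact Or.inr (Or.inr (Or.inr (Or.inl ⟨rfl, j⟩)))
    · exact Or.inr (Or.inr (Or.inr (Or.inr (Or.inl ⟨rfl, by linarith⟩))))
  · obtain rfl : u = -2 := by linarith
    rcases mul_eq_zero.1 (show (a - 2) * (a + 1) = 0 by linear_combination h) with j | j
    · exact Or.inr (Or.inr (Or.inr (Or.inr (Or.inr (Or.inl ⟨rfl, by linarith⟩)))))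
    · exact Or.inr (Or.inr (Or.inr (Or.inr (Or.inr (Or.inr ⟨rfl, by linarith⟩)))))

/-- the two conics -/
def Con (T N : ℚ) : Prop := T ^ 2 < 4 * N ∧ (4 * T ^ 2 + N * T + 35 * T + 4 * N + 85 = 0 ∨
  N ^ 2 + 7 * N * T + 12 * T ^ 2 + 22 * N + 75 * T + 120 = 0)

theorem conO {T N l : ℚ} (h : Con T N) (hT : (l ^ 2 + 5 * l + 5) * T = -(3 * l ^ 2 + 10 * l + 5))
    (hN : (l ^ 2 + 5 * l + 5) * N = -(l ^ 3 + 10 * l ^ 2 + 40 * l + 30)) : False := by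
  obtain ⟨h0, h | h⟩ := h
  · have k : 4 * ((l ^ 2 + 5 * l + 5) * T) ^ 2 + ((l ^ 2 + 5 * l + 5) * N) * ((l ^ 2 + 5 * l + 5) * T)
      + (35 * ((l ^ 2 + 5 * l + 5) * T) + 4 * ((l ^ 2 + 5 * l + 5) * N)) * (l ^ 2 + 5 * l + 5)
      + 85 * (l ^ 2 + 5 * l + 5) ^ 2 = 0 := by linear_combination (l ^ 2 + 5 * l + 5) ^ 2 * h
    rw [hT, hN] at k
    have := no_rat [225, 225, 60, 0, -1] 2 (by norm_num) (by decide +kernel) l
    simp only [ev] at this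
    push_cast at this
    have j : l + 4 = 0 := (mul_eq_zero.1 (show (l + 4) * _ = 0 by linear_combination k)).resolve_right this
    obtain rfl : l = -4 := by linarith
    obtain rfl : T = -13 := by linarith
    obtain rfl : N = 34 := by linarith
    norm_num at h0
  · have k : ((l ^ 2 + 5 * l + 5) * N) ^ 2 + 7 * ((l ^ 2 + 5 * l + 5) * N) * ((l ^ 2 + 5 * l + 5) * T)
      + 12 * ((l ^ 2 + 5 * l + 5) * T) ^ 2
      + (22 * ((l ^ 2 + 5 * l + 5) * N) + 75 * ((l ^ 2 + 5 * l + 5) * T)) * (l ^ 2 + 5 * l + 5)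
      + 120 * (l ^ 2 + 5 * l + 5) ^ 2 = 0 := by linear_combination (l ^ 2 + 5 * l + 5) ^ 2 * h
    rw [hT, hN] at k
    exact no_rat [-75, 225, -330, -390, -133, -19, -1] 2 (by norm_num) (by decide +kernel) l
      (by simp only [ev]; push_cast; linear_combination -k)

theorem conA {T N l : ℚ} (h : Con T N) (hT : (l ^ 2 + 3 * l + 1) * T = l ^ 3 + 4 * l ^ 2 + 9 * l + 6)
    (hN : (l ^ 2 + 3 * l + 1) * N = l ^ 3 + 7 * l ^ 2 + 3 * l + 9) : False := by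
  obtain ⟨h0, h | h⟩ := h
  · have k : 4 * ((l ^ 2 + 3 * l + 1) * T) ^ 2 + ((l ^ 2 + 3 * l + 1) * N) * ((l ^ 2 + 3 * l + 1) * T)
      + (35 * ((l ^ 2 + 3 * l + 1) * T) + 4 * ((l ^ 2 + 3 * l + 1) * N)) * (l ^ 2 + 3 * l + 1)
      + 85 * (l ^ 2 + 3 * l + 1) ^ 2 = 0 := by linear_combination (l ^ 2 + 3 * l + 1) ^ 2 * h
    rw [hT, hN] at k
    exact no_rat [529, 2106, 2951, 1806, 546, 82, 5] 2 (by norm_num) (by decide +kernel) l
      (by simp only [ev]; push_cast; linear_combination k)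
  · have k : ((l ^ 2 + 3 * l + 1) * N) ^ 2 + 7 * ((l ^ 2 + 3 * l + 1) * N) * ((l ^ 2 + 3 * l + 1) * T)
      + 12 * ((l ^ 2 + 3 * l + 1) * T) ^ 2
      + (22 * ((l ^ 2 + 3 * l + 1) * N) + 75 * ((l ^ 2 + 3 * l + 1) * T)) * (l ^ 2 + 3 * l + 1)
      + 120 * (l ^ 2 + 3 * l + 1) ^ 2 = 0 := by linear_combination (l ^ 2 + 3 * l + 1) ^ 2 * h
    rw [hT, hN] at k
    have := no_rat [1659, 3789, 3274, 1344, 264, 20] 17 (by norm_num) (by decide +kernel) l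
    simp only [ev] at this
    push_cast at this
    have j : l + 1 = 0 := (mul_eq_zero.1 (show (l + 1) * _ = 0 by linear_combination k)).resolve_right this
    obtain rfl : l = -1 := by linarith
    obtain rfl : T = 0 := by linarith
    obtain rfl : N = -12 := by linarith
    norm_num at h0

theorem conB {T N l : ℚ} (h : Con T N) (hT : l ^ 2 * T = l * (l ^ 2 - 3 * l + 5))
    (hN : l ^ 2 * N = -(3 * l ^ 3 - 5 * l ^ 2 + 5 * l - 5)) : False := by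
  obtain ⟨h0, h | h⟩ := h
  · have k : 4 * (l ^ 2 * T) ^ 2 + (l ^ 2 * N) * (l ^ 2 * T)
      + (35 * (l ^ 2 * T) + 4 * (l ^ 2 * N)) * l ^ 2 + 85 * (l ^ 2) ^ 2 = 0 := by
      linear_combination (l ^ 2) ^ 2 * h
    rw [hT, hN] at k
    have := no_rat [25, 80, 80, 41, 13, 1] 17 (by norm_num) (by decide +kernel) l
    simp only [ev] at this
    push_cast at this
    obtain rfl : l = 0 := (mul_eq_zero.1 (show l * _ = 0 by linear_combination k)).resolve_right this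
    norm_num at hN
  · have k : (l ^ 2 * N) ^ 2 + 7 * (l ^ 2 * N) * (l ^ 2 * T) + 12 * (l ^ 2 * T) ^ 2
      + (22 * (l ^ 2 * N) + 75 * (l ^ 2 * T)) * l ^ 2 + 120 * (l ^ 2) ^ 2 = 0 := by
      linear_combination (l ^ 2) ^ 2 * h
    rw [hT, hN] at k
    exact no_rat [25, 125, 205, 140, 43, 5] 2 (by norm_num) (by decide +kernel) l
      (by simp only [ev]; push_cast; linear_combination k)

theorem conC {T N l : ℚ} (h : Con T N) (hT : (l ^ 2 + 5 * l + 5) * T = (l + 2) * (l ^ 2 + 5 * l + 5))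
    (hN : (l ^ 2 + 5 * l + 5) * N = 2 * l ^ 3 + 10 * l ^ 2 + 10 * l + 5) : False := by
  obtain ⟨h0, h | h⟩ := h
  · have k : 4 * ((l ^ 2 + 5 * l + 5) * T) ^ 2 + ((l ^ 2 + 5 * l + 5) * N) * ((l ^ 2 + 5 * l + 5) * T)
      + (35 * ((l ^ 2 + 5 * l + 5) * T) + 4 * ((l ^ 2 + 5 * l + 5) * N)) * (l ^ 2 + 5 * l + 5)
      + 85 * (l ^ 2 + 5 * l + 5) ^ 2 = 0 := by linear_combination (l ^ 2 + 5 * l + 5) ^ 2 * h
    rw [hT, hN] at k
    have := no_rat [1475, 2450, 1480, 420, 57, 3] 2 (by norm_num) (by decide +kernel) l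
    simp only [ev] at this
    push_cast at this
    have j : 2 * l + 3 = 0 :=
      (mul_eq_zero.1 (show (2 * l + 3) * _ = 0 by linear_combination k)).resolve_right this
    obtain rfl : l = -3 / 2 := by linarith
    obtain rfl : T = 1 / 2 := by linarith
    obtain rfl : N = -23 := by linarith
    norm_num at h0
  · have k : ((l ^ 2 + 5 * l + 5) * N) ^ 2 + 7 * ((l ^ 2 + 5 * l + 5) * N) * ((l ^ 2 + 5 * l + 5) * T)
      + 12 * ((l ^ 2 + 5 * l + 5) * T) ^ 2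
      + (22 * ((l ^ 2 + 5 * l + 5) * N) + 75 * ((l ^ 2 + 5 * l + 5) * T)) * (l ^ 2 + 5 * l + 5)
      + 120 * (l ^ 2 + 5 * l + 5) ^ 2 = 0 := by linear_combination (l ^ 2 + 5 * l + 5) ^ 2 * h
    rw [hT, hN] at k
    have := no_rat [1775, 3680, 2945, 1134, 210, 15] 2 (by norm_num) (by decide +kernel) l
    simp only [ev] at this
    push_cast at this
    have j : 2 * l + 5 = 0 :=
      (mul_eq_zero.1 (show (2 * l + 5) * _ = 0 by linear_combination k)).resolve_right this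
    obtain rfl : l = -5 / 2 := by linarith
    obtain rfl : T = -1 / 2 := by linarith
    obtain rfl : N = -9 := by linarith
    norm_num at h0

section main
variable {K : Type*} [Field K] [NumberField K] [Algebra.IsQuadraticExtension ℚ K]
  [NumberField.IsTotallyComplex K]

/-- Euler's lemma on `X(b3, S₄)` -/
theorem b3C {t x : K} (hx : ¬ ∃ q : ℚ, x = q)
    (h : t ^ 2 - (x + 3) * (x ^ 2 - 5) * t + x ^ 4 + 3 * x ^ 3 - 15 * x ^ 2 - 15 * x + 90 = 0) :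
    ∃ T N : ℚ, x ^ 2 - T * x + N = 0 ∧ Con T N := by
  have h1 : x - 1 ≠ 0 := fun k => hx ⟨1, by push_cast; linear_combination k⟩
  obtain ⟨T, N, l, m, th, eta, hq, hD, -, he, k1, k2, k3⟩ :=
    euler (y := (2 * t - (x + 3) * (x ^ 2 - 5)) / (x - 1)) (a := 1) (b := 8) (c := 10) (d := -60)
      (e := -135) hx (by push_cast; field_simp; linear_combination 4 * h)
  have k4 : 4 * (10 + th + 8 * T + T ^ 2) * (-135 + th * N + N ^ 2) =
      (-60 - th * T - 2 * N * T - 8 * N) ^ 2 := by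
    linear_combination -4 * m ^ 2 * k1 - 4 * (10 + th + 8 * T + T ^ 2) * k2 +
      (2 * l * m + (-60 - th * T - 2 * N * T - 8 * N)) * k3
  refine ⟨T, N, hq, hD, ?_⟩
  rcases Q017D.r75 (X := (th - 6) / 4) (W := eta / 4) (by linear_combination he / 16) with k | k
  · obtain rfl : th = 6 := by linarith
    left; linear_combination -k4 / 144
  · obtain rfl : th = -6 := by linarith
    right; linear_combination -k4 / 48

/-- comparison of two quadratic equations -/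
theorem cmp {x : K} (hx : ¬ ∃ q : ℚ, x = q) {T N D A B : ℚ} (hq : x ^ 2 - T * x + N = 0)
    (h : (D : K) * x ^ 2 - A * x + B = 0) : D * T = A ∧ D * N = B := by
  have k := Q017B.indep hx (a := D * T - A) (b := B - D * N)
    (by push_cast; linear_combination h - D * hq)
  exact ⟨by linarith [k.1], by linarith [k.2]⟩

/-- the classes on the quotient -/
theorem b3D {x u a : K} (hx : ¬ ∃ q : ℚ, x = q) {T N : ℚ} (hq : x ^ 2 - T * x + N = 0) (hc : Con T N)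
    (a0 : a ≠ 0) (h1 : u ^ 2 + 5 * u = (x + 3) * a) (h2 : a ^ 2 + 5 * a = u * (x * a + 5)) :
    False := by
  have x3 : x + 3 ≠ 0 := fun k => hx ⟨-3, by push_cast; linear_combination k⟩
  have u0 : u ≠ 0 := fun k => mul_ne_zero x3 a0 (by rw [← h1, k]; ring)
  by_cases hu : ∃ q : ℚ, u = q
  · obtain ⟨l, rfl⟩ := hu
    have k := cmp hx hq (D := l ^ 2 + 5 * l + 5) (A := -(3 * l ^ 2 + 10 * l + 5))
      (B := -(l ^ 3 + 10 * l ^ 2 + 40 * l + 30)) (mul_left_cancel₀ u0 (by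
        push_cast
        linear_combination -(x + 3) ^ 2 * h2 -
          ((x + 3) * a + l ^ 2 + 5 * l + (5 - l * x) * (x + 3)) * h1))
    exact conO hc k.1 k.2
  obtain ⟨l, m, rfl⟩ := line hu a
  have h3 : ((l : K) * u + m) ^ 2 + 5 * (l * u + m) + 3 * u * (l * u + m) =
      u ^ 3 + 5 * u ^ 2 + 5 * u := by linear_combination h2 - u * h1
  obtain ⟨r, hr⟩ := third_root hu (g3 := 1) (g2 := 5 - l ^ 2 - 3 * l)
    (g1 := 5 - 2 * l * m - 5 * l - 3 * m) (g0 := -m ^ 2 - 5 * m) one_ne_zero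
    (by push_cast; linear_combination -h3)
  have ur : u - r ≠ 0 := fun k => hu ⟨r, by linear_combination k⟩
  rcases b3pts (u := r) (a := l * r + m) (by linear_combination -hr) with
    ⟨rfl, k⟩ | ⟨rfl, k⟩ | ⟨rfl, k⟩ | ⟨rfl, k⟩ | ⟨rfl, k⟩ | ⟨rfl, k⟩ | ⟨rfl, k⟩
  · obtain rfl : m = l - 1 := by linarith
    have Q : u ^ 2 + (4 - l ^ 2 - 3 * l) * u + (4 - l ^ 2 - 3 * l) = 0 :=
      mul_left_cancel₀ ur (by push_cast at h3 ⊢; linear_combination -h3)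
    have l1 : ((1 - l : ℚ) : K) ≠ 0 := fun j => by
      obtain rfl : l = 1 := by have : 1 - l = 0 := by exact_mod_cast j
                               linarith
      exact u0 (pow_eq_zero_iff (n := 2) two_ne_zero |>.1 (by push_cast at Q; linear_combination Q))
    have E : u * (l * x - l ^ 2 - 1) = -l * x + l ^ 2 + x - 1 := by
      push_cast at h1; linear_combination Q - h1
    have k := cmp hx hq (D := l ^ 2 + 3 * l + 1) (A := l ^ 3 + 4 * l ^ 2 + 9 * l + 6)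
      (B := l ^ 3 + 7 * l ^ 2 + 3 * l + 9) (mul_left_cancel₀ l1 (by
        push_cast
        linear_combination (l * x - l ^ 2 - 1) ^ 2 * Q - (u * (l * x - l ^ 2 - 1) +
          (-l * x + l ^ 2 + x - 1) + (4 - l ^ 2 - 3 * l) * (l * x - l ^ 2 - 1)) * E))
    exact conA hc k.1 k.2
  · obtain rfl : m = 5 * l + 5 := by linarith
    exact hu (quad_rat (A := 1) (B := -l ^ 2 - 3 * l) (C := -5 * l ^ 2 - 15 * l - 10) one_ne_zero
      (by nlinarith [sq_nonneg ((l + 3 / 2) ^ 2), sq_nonneg (l + 3 / 2)])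
      (mul_left_cancel₀ ur (by push_cast at h3 ⊢; linear_combination -h3)))
  · obtain rfl : m = 5 / 4 * l - 5 / 8 := by linarith
    exact hu (quad_rat (A := 1) (B := 15 / 4 - l ^ 2 - 3 * l)
      (C := 35 / 16 - 5 / 4 * l ^ 2 - 15 / 4 * l) one_ne_zero
      (by nlinarith [sq_nonneg (l ^ 2 + 3 * l - 5 / 4)])
      (mul_left_cancel₀ ur (by push_cast at h3 ⊢; linear_combination -h3)))
  · obtain rfl : m = 0 := by linarith
    have Q : u ^ 2 + (5 - l ^ 2 - 3 * l) * u + (5 - 5 * l) = 0 :=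
      mul_left_cancel₀ ur (by push_cast at h3 ⊢; linear_combination -h3)
    have l1 : ((5 * (1 - l) : ℚ) : K) ≠ 0 := fun j => by
      obtain rfl : l = 1 := by have : 5 * (1 - l) = 0 := by exact_mod_cast j
                               linarith
      exact hu ⟨-1, mul_left_cancel₀ u0 (by push_cast at Q ⊢; linear_combination Q)⟩
    have E : u * (l * x - l ^ 2) = 5 * l - 5 := by
      push_cast at h1; linear_combination Q - h1
    have k := cmp hx hq (D := l ^ 2) (A := l * (l ^ 2 - 3 * l + 5))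
      (B := -(3 * l ^ 3 - 5 * l ^ 2 + 5 * l - 5)) (mul_left_cancel₀ l1 (by
        push_cast
        linear_combination (l * x - l ^ 2) ^ 2 * Q - (u * (l * x - l ^ 2) +
          (5 * l - 5) + (5 - l ^ 2 - 3 * l) * (l * x - l ^ 2)) * E))
    exact conB hc k.1 k.2
  · obtain rfl : m = -5 := by linarith
    have Q : u ^ 2 + (5 - l ^ 2 - 3 * l) * u + (5 * l + 20) = 0 :=
      mul_left_cancel₀ ur (by push_cast at h3 ⊢; linear_combination -h3)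
    have E : u * (l * x - l ^ 2) = 5 * x - 5 * l - 5 := by
      push_cast at h1; linear_combination Q - h1
    have k := cmp hx hq (D := l ^ 2 + 5 * l + 5) (A := (l + 2) * (l ^ 2 + 5 * l + 5))
      (B := 2 * l ^ 3 + 10 * l ^ 2 + 10 * l + 5) (by
        push_cast
        linear_combination ((l * x - l ^ 2) ^ 2 * Q - (u * (l * x - l ^ 2) +
          (5 * x - 5 * l - 5) + (5 - l ^ 2 - 3 * l) * (l * x - l ^ 2)) * E) / 5)
    exact conC hc k.1 k.2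
  · obtain rfl : m = 2 * l + 2 := by linarith
    exact hu (quad_rat (A := 1) (B := 3 - l ^ 2 - 3 * l) (C := -2 * l ^ 2 - 9 * l - 7) one_ne_zero
      (by nlinarith [sq_nonneg (l ^ 2 + 3 * l - 1), sq_nonneg (2 * l + 6)])
      (mul_left_cancel₀ ur (by push_cast at h3 ⊢; linear_combination -h3)))
  · obtain rfl : m = 2 * l - 1 := by linarith
    exact hu (quad_rat (A := 1) (B := 3 - l ^ 2 - 3 * l) (C := 2 - 2 * l ^ 2 - 3 * l) one_ne_zero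
      (by nlinarith [sq_nonneg (l ^ 2 + 3 * l - 1), sq_nonneg (2 * l)])
      (mul_left_cancel₀ ur (by push_cast at h3 ⊢; linear_combination -h3)))

/-- **Row `H1 × b3`** -/
theorem h1b3 {T s : K} (hT : T ≠ 0) (hs : s ^ 2 + 5 * s + 5 ≠ 0) (h : R3 T = Js s) (j0 : R3 T ≠ 0)
    (j1 : R3 T ≠ 1728) : QC (R3 T) := by
  obtain ⟨t, ht⟩ : ∃ t, t = (s + 5) * (s ^ 2 - 5) / (s ^ 2 + 5 * s + 5) := ⟨_, rfl⟩
  have hj : R3 T = t ^ 3 * (t ^ 2 + 5 * t + 40) := by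
    rw [h, ht, Js]
    generalize z : s ^ 2 + 5 * s + 5 = w at hs
    field_simp
    rw [← z]; ring
  have h5 : s ^ 2 + 5 * s + 10 ≠ 0 := fun k => j0 (by rw [h, Js, k]; simp)
  obtain ⟨x, ha, hb⟩ := b3A (T := T) (t := t) (fun k => j0 (by rw [hj, k]; ring))
    (fun k => j1 (by rw [hj]; linear_combination (t - 3) * (t ^ 2 + 4 * t + 24) * k))
    (by rw [mul_assoc, ← hj, R3]; field_simp)
  by_cases hx : ∃ q : ℚ, x = q
  · obtain ⟨q, rfl⟩ := hx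
    intro σ
    rw [show σ (R3 T) = R3 (σ T) from map_R3 (σ : K →+* K) T]
    rcases conj_inv σ hT (c := 729) (q := q ^ 5 + 5 * q ^ 4 - 5 * q ^ 3 - 45 * q ^ 2 + 54)
      (by push_cast; field_simp; linear_combination hb) with k | k
    · rw [k]; exact Rel.refl _
    · rw [k]; exact_mod_cast Rel.s3 T hT
  · obtain ⟨T', N, hq, hc⟩ := b3C hx ha
    obtain ⟨u, a, a0, h1, h2⟩ := b3B hs h5 (fun k => hx ⟨1, by simpa using k⟩) ht ha
    exact (b3D hx hq hc a0 h1 h2).elim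

end main

end Vale.Agent.Q017
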