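import Vale.Agent.Q017.Defs
import Vale.Agent.Q017A.Rel

/-!
# Explicit isogenies of degree `2, 3, 5` as embeddings of function fields
-/

set_option linter.all false

open WeierstrassCurve Polynomial
open scoped Classical Polynomial.Bivariate

namespace Vale.Agent.Q017

open Vale.Agent.Q017A

universe u

variable {F : Type u} [Field F]

theorem Isog.refl (W : WeierstrassCurve F) : Isog W W := ⟨AlgHom.id _ _⟩

theorem Isog.trans {A B D : WeierstrassCurve F} (h : Isog A B) (k : Isog B D) : Isog A D :=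
  let ⟨f⟩ := h; let ⟨g⟩ := k; ⟨f.comp g⟩

theorem hom_of_point {L : Type u} [Field L] [Algebra F L] (W : WeierstrassCurve F) {x y : L}
    (hx : Transcendental F x)
    (h : y ^ 2 + algebraMap F L W.a₁ * x * y + algebraMap F L W.a₃ * y =
      x ^ 3 + algebraMap F L W.a₂ * x ^ 2 + algebraMap F L W.a₄ * x + algebraMap F L W.a₆) :
    Nonempty (W.toAffine.FunctionField →ₐ[F] L) := by
  have h0 : W.toAffine.polynomial.eval₂ (aeval x : F[X] →ₐ[F] L) y = 0 := by
    simp [Affine.polynomial, eval₂_add, eval₂_sub, eval₂_mul, eval₂_pow]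
    linear_combination h
  let φ : W.toAffine.CoordinateRing →ₐ[F] L := AdjoinRoot.liftAlgHom _ (aeval x) y h0
  have hφ : ∀ p : F[X], φ (Affine.CoordinateRing.mk W.toAffine (C p)) = aeval x p := by
    intro p; simp [φ]
  have inj : Function.Injective φ := by
    refine (injective_iff_map_eq_zero _).2 fun a ha => ?_
    obtain ⟨p, q, rfl⟩ := Affine.CoordinateRing.exists_smul_basis_eq a
    have k := Affine.CoordinateRing.coe_norm_smul_basis (W' := W.toAffine) p q
    have e : p • (1 : W.toAffine.CoordinateRing) + q • Affine.CoordinateRing.mk W.toAffine Y =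
        Affine.CoordinateRing.mk W.toAffine (C p + C q * Y) := by
      simp only [Affine.CoordinateRing.smul, map_add, map_mul, mul_one]
    have k2 : aeval x (Algebra.norm F[X]
        (p • (1 : W.toAffine.CoordinateRing) + q • Affine.CoordinateRing.mk W.toAffine Y)) = 0 := by
      rw [← hφ]
      have : Affine.CoordinateRing.mk W.toAffine (C (Algebra.norm F[X]
        (p • (1 : W.toAffine.CoordinateRing) + q • Affine.CoordinateRing.mk W.toAffine Y))) = _ := k
      rw [this, map_mul, map_mul, ← e, ha, zero_mul]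
    have k3 := (transcendental_iff.1 hx) _ k2
    haveI : Module.Finite F[X] W.toAffine.CoordinateRing :=
      Module.Finite.of_basis (Affine.CoordinateRing.basis W.toAffine)
    exact Algebra.norm_eq_zero_iff.1 k3
  exact ⟨IsFractionRing.liftAlgHom inj⟩

/-- the `2`-division cubic of `W`, evaluated in an extension -/
def cub (W : WeierstrassCurve F) {L : Type u} [Field L] [Algebra F L] (x : L) : L :=
  4 * x ^ 3 + algebraMap F L W.b₂ * x ^ 2 + 2 * algebraMap F L W.b₄ * x + algebraMap F L W.b₆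

theorem generic (W : WeierstrassCurve F) :
    ∃ x e : W.toAffine.FunctionField, Transcendental F x ∧ e ^ 2 = cub W x := by
  let A := W.toAffine.CoordinateRing
  let L := W.toAffine.FunctionField
  let x : L := algebraMap A L (Affine.CoordinateRing.mk W.toAffine (C X))
  let y : L := algebraMap A L (Affine.CoordinateRing.mk W.toAffine Y)
  have hp : ∀ p : F[X], aeval x p = algebraMap A L (Affine.CoordinateRing.mk W.toAffine (C p)) := by
    intro p
    have : aeval (R := F) x = (IsScalarTower.toAlgHom F A L).comp (IsScalarTower.toAlgHom F F[X] A) := by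
      apply Polynomial.algHom_ext
      simp [x]
      rfl
    rw [this]; rfl
  have hx : Transcendental F x := by
    rw [transcendental_iff]
    intro p h
    rw [hp] at h
    have h1 := (IsFractionRing.injective A L) (h.trans (map_zero _).symm)
    have h2 : algebraMap F[X] A p = 0 := h1
    exact (FaithfulSMul.algebraMap_injective F[X] A) (h2.trans (map_zero _).symm)
  have he : y ^ 2 + aeval x (C W.a₁ * X + C W.a₃) * y =
      aeval x (X ^ 3 + C W.a₂ * X ^ 2 + C W.a₄ * X + C W.a₆) := by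
    rw [hp, hp]
    simp only [y, ← map_pow, ← map_mul, ← map_add]
    congr 1
    exact AdjoinRoot.mk_eq_mk.mpr ⟨1, by rw [Affine.polynomial]; ring1⟩
  refine ⟨x, 2 * y + algebraMap F L W.a₁ * x + algebraMap F L W.a₃, hx, ?_⟩
  simp only [map_add, map_mul, map_pow, aeval_C, aeval_X] at he
  simp only [cub, b₂, b₄, b₆, map_add, map_mul, map_pow, map_ofNat]
  linear_combination 4 * he

variable [CharZero F]

theorem isog_of (W W' : WeierstrassCurve F)
    (h : ∀ x : W.toAffine.FunctionField, Transcendental F x →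
      ∃ x' d : W.toAffine.FunctionField, Transcendental F x' ∧ cub W x * d ^ 2 = cub W' x') :
    Isog W W' := by
  obtain ⟨x, e, hx, he⟩ := generic W
  obtain ⟨x', d, hx', hd⟩ := h x hx
  haveI : CharZero W.toAffine.FunctionField := algebraRat.charZero _
  refine hom_of_point W' hx'
    (y := (e * d - algebraMap F _ W'.a₁ * x' - algebraMap F _ W'.a₃) / 2) ?_
  rw [← he] at hd
  simp only [cub, b₂, b₄, b₆, map_add, map_mul, map_pow, map_ofNat] at hd
  linear_combination hd / 4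

variable [IsAlgClosed F]

theorem tr_of {L : Type u} [Field L] [Algebra F L] {x x' : L} (hx : Transcendental F x)
    (h : ∀ c : F, x' = algebraMap F L c → ∃ P : F[X], P.Monic ∧ aeval x P = 0) :
    Transcendental F x' := by
  intro ha
  have hi := ha.isIntegral
  obtain ⟨c, hc⟩ := minpoly.mem_range_of_degree_eq_one F x'
    (IsAlgClosed.degree_eq_one_of_irreducible F (minpoly.irreducible hi))
  obtain ⟨P, hP, k⟩ := h c hc.symm
  exact hP.ne_zero (transcendental_iff.1 hx P k)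

theorem tr_ne {L : Type u} [Field L] [Algebra F L] {x : L} (hx : Transcendental F x) (c : F) :
    x - algebraMap F L c ≠ 0 := fun h =>
  hx (by rw [sub_eq_zero.1 h]; exact isAlgebraic_algebraMap c)

theorem isog_of_j (E E' : WeierstrassCurve F) [E.IsElliptic] [E'.IsElliptic] (h : E.j = E'.j) :
    Isog E E' := by
  obtain ⟨v, rfl⟩ := exists_variableChange_of_j_eq E E' h
  refine isog_of _ _ fun x hx => ?_
  have hu : algebraMap F E.toAffine.FunctionField (v.u⁻¹ : Fˣ) * algebraMap F _ (v.u : F) = 1 := by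
    rw [← map_mul]; simp
  refine ⟨algebraMap F _ (v.u⁻¹ : Fˣ) ^ 2 * (x - algebraMap F _ v.r),
    algebraMap F _ (v.u⁻¹ : Fˣ) ^ 3, tr_of hx fun c hc => ⟨X - C (v.r + c * v.u ^ 2),
      monic_X_sub_C _, ?_⟩, ?_⟩
  · simp only [map_sub, map_add, map_mul, map_pow, aeval_X, aeval_C]
    rw [← hc]
    linear_combination (-(x - algebraMap F _ v.r)) *
      (algebraMap F E.toAffine.FunctionField (v.u⁻¹ : Fˣ) * algebraMap F _ (v.u : F) + 1) * hu
  · simp only [cub, variableChange_b₂, variableChange_b₄, variableChange_b₆, map_add, map_mul,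
      map_pow, map_ofNat]
    ring

omit [IsAlgClosed F] [CharZero F] in
theorem j_eq (E : WeierstrassCurve F) [E.IsElliptic] : E.j = E.c₄ ^ 3 / E.Δ := by
  rw [j, Units.val_inv_eq_inv_val, coe_Δ', div_eq_inv_mul]

theorem isog_fam (E E' : WeierstrassCurve F) [E.IsElliptic] [E'.IsElliptic]
    (W W' : WeierstrassCurve F) (hW : W.Δ ≠ 0) (hW' : W'.Δ ≠ 0) (h : E.j = W.c₄ ^ 3 / W.Δ)
    (h' : E'.j = W'.c₄ ^ 3 / W'.Δ) (k : Isog W W') : Isog E E' := by
  haveI : W.IsElliptic := ⟨hW.isUnit⟩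
  haveI : W'.IsElliptic := ⟨hW'.isUnit⟩
  rw [← j_eq] at h h'
  exact (isog_of_j _ _ h).trans (k.trans (isog_of_j _ _ h'.symm))

theorem isog2 (E E' : WeierstrassCurve F) [E.IsElliptic] [E'.IsElliptic] {V : F} (hV : V ≠ 0)
    (h : E.j = R2 V) (h' : E'.j = R2 (4096 / V)) : Isog E E' := by
  obtain ⟨a, ha⟩ := IsAlgClosed.exists_pow_nat_eq (V / 16 + 4) two_pos
  obtain rfl : V = 16 * (a ^ 2 - 4) := by rw [ha]; ring
  have d1 : (⟨0, a, 0, 1, 0⟩ : WeierstrassCurve F).Δ = 16 * (a ^ 2 - 4) := by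
    simp only [Δ, b₂, b₄, b₆, b₈]; ring
  have d2 : (⟨0, -2 * a, 0, a ^ 2 - 4, 0⟩ : WeierstrassCurve F).Δ = (16 * (a ^ 2 - 4)) ^ 2 := by
    simp only [Δ, b₂, b₄, b₆, b₈]; ring
  have ha4 : a ^ 2 - 4 ≠ 0 := right_ne_zero_of_mul hV
  refine isog_fam E E' ⟨0, a, 0, 1, 0⟩ ⟨0, -2 * a, 0, a ^ 2 - 4, 0⟩ (d1 ▸ hV)
    (d2 ▸ pow_ne_zero 2 hV) ?_ ?_ (isog_of _ _ fun x hx => ?_)
  · rw [h, d1, R2]; simp only [c₄, b₂, b₄]; ring
  · rw [h', d2, R2]; simp only [c₄, b₂, b₄]; field_simp; ring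
  · have hx0 : x ≠ 0 := by simpa using tr_ne hx 0
    refine ⟨x + algebraMap F _ a + 1 / x, 1 - 1 / x ^ 2, tr_of hx fun c hc =>
      ⟨X ^ 2 + C (a - c) * X + 1, by monicity!, ?_⟩, ?_⟩
    · simp only [map_sub, map_add, map_mul, map_pow, aeval_X, aeval_C, map_one]
      rw [← hc]; field_simp; ring
    · simp only [cub, b₂, b₄, b₆, map_add, map_mul, map_pow, map_ofNat, map_sub, map_neg, map_zero,
        map_one]
      field_simp; ring

theorem isog3 (E E' : WeierstrassCurve F) [E.IsElliptic] [E'.IsElliptic] {T : F} (hT : T ≠ 0)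
    (h : E.j = R3 T) (h' : E'.j = R3 (729 / T)) : Isog E E' := by
  obtain ⟨a, ha⟩ := IsAlgClosed.exists_pow_nat_eq (T + 27) three_pos
  obtain rfl : T = a ^ 3 - 27 := by rw [ha]; ring
  have d1 : (⟨a, 0, 1, 0, 0⟩ : WeierstrassCurve F).Δ = a ^ 3 - 27 := by
    simp only [Δ, b₂, b₄, b₆, b₈]; ring
  have d2 : (⟨a, 0, 1, -5 * a, -a ^ 3 - 7⟩ : WeierstrassCurve F).Δ = (a ^ 3 - 27) ^ 3 := by
    simp only [Δ, b₂, b₄, b₆, b₈]; ring
  refine isog_fam E E' ⟨a, 0, 1, 0, 0⟩ ⟨a, 0, 1, -5 * a, -a ^ 3 - 7⟩ (d1 ▸ hT)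
    (d2 ▸ pow_ne_zero 3 hT) ?_ ?_ (isog_of _ _ fun x hx => ?_)
  · rw [h, d1, R3]; simp only [c₄, b₂, b₄]; ring
  · rw [h', d2, R3]; simp only [c₄, b₂, b₄]; field_simp; ring
  · have hx0 : x ≠ 0 := by simpa using tr_ne hx 0
    refine ⟨x + algebraMap F _ a / x + 1 / x ^ 2, 1 - algebraMap F _ a / x ^ 2 - 2 / x ^ 3,
      tr_of hx fun c hc => ⟨X ^ 3 - C c * X ^ 2 + C a * X + 1, by monicity!, ?_⟩, ?_⟩
    · simp only [map_sub, map_add, map_mul, map_pow, aeval_X, aeval_C, map_one]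
      rw [← hc]; field_simp; ring
    · simp only [cub, b₂, b₄, b₆, map_add, map_mul, map_pow, map_ofNat, map_sub, map_neg, map_zero,
        map_one]
      field_simp; ring

theorem isog5 (E E' : WeierstrassCurve F) [E.IsElliptic] [E'.IsElliptic] {S : F} (hS : S ≠ 0)
    (h : E.j = R5 S) (h' : E'.j = R5 (125 / S)) : Isog E E' := by
  obtain ⟨r, hr⟩ := IsAlgClosed.exists_pow_nat_eq ((S + 11) ^ 2 + 4) two_pos
  obtain ⟨a, ha⟩ : ∃ a : F, a ^ 2 - (S + 11) * a - 1 = 0 :=
    ⟨(S + 11 + r) / 2, by linear_combination hr / 4⟩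
  have a0 : a ≠ 0 := by rintro rfl; simp at ha
  obtain rfl : S = (a ^ 2 - 11 * a - 1) / a := by field_simp; linear_combination -ha
  have hs : a ^ 2 - 11 * a - 1 ≠ 0 := fun k => hS (by rw [k, zero_div])
  have d1 : (⟨1 - a, -a, -a, 0, 0⟩ : WeierstrassCurve F).Δ = a ^ 5 * (a ^ 2 - 11 * a - 1) := by
    simp only [Δ, b₂, b₄, b₆, b₈]; ring
  have d2 : (⟨1 - a, -a, -a, -5 * (a ^ 3 + 2 * a ^ 2 - a),
      -a * (a ^ 4 + 10 * a ^ 3 - 5 * a ^ 2 + 15 * a - 1)⟩ : WeierstrassCurve F).Δ =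
      a * (a ^ 2 - 11 * a - 1) ^ 5 := by
    simp only [Δ, b₂, b₄, b₆, b₈]; ring
  refine isog_fam E E' ⟨1 - a, -a, -a, 0, 0⟩ ⟨1 - a, -a, -a, -5 * (a ^ 3 + 2 * a ^ 2 - a),
      -a * (a ^ 4 + 10 * a ^ 3 - 5 * a ^ 2 + 15 * a - 1)⟩
    (d1 ▸ mul_ne_zero (pow_ne_zero 5 a0) hs)
    (d2 ▸ mul_ne_zero a0 (pow_ne_zero 5 hs)) ?_ ?_ (isog_of _ _ fun x hx => ?_)
  · rw [h, d1, R5]; simp only [c₄, b₂, b₄]; field_simp; ring
  · rw [h', d2, R5]; simp only [c₄, b₂, b₄]
    generalize e : a ^ 2 - 11 * a - 1 = s at hs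
    field_simp; rw [← e]; ring
  · have hx0 : x ≠ 0 := by simpa using tr_ne hx 0
    have hxa := tr_ne hx a
    obtain ⟨A, hA⟩ : ∃ A, A = algebraMap F (⟨1 - a, -a, -a, 0, 0⟩ :
      WeierstrassCurve F).toAffine.FunctionField a := ⟨_, rfl⟩
    rw [← hA] at hxa
    refine ⟨x + (A ^ 2 - A) / x + A ^ 2 / x ^ 2 + (A ^ 3 + A ^ 2) / (x - A) + A ^ 4 / (x - A) ^ 2,
      1 - (A ^ 2 - A) / x ^ 2 - 2 * A ^ 2 / x ^ 3 - (A ^ 3 + A ^ 2) / (x - A) ^ 2 -
        2 * A ^ 4 / (x - A) ^ 3,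
      tr_of hx fun c hc => ⟨X ^ 5 - C (2 * a + c) * X ^ 4 +
        C (a ^ 3 + 3 * a ^ 2 - a + 2 * a * c) * X ^ 3 +
        C (3 * a ^ 2 - 3 * a ^ 3 - a ^ 2 * c) * X ^ 2 + C (a ^ 4 - 3 * a ^ 3) * X + C (a ^ 4),
        by monicity!, ?_⟩, ?_⟩
    · simp only [map_sub, map_add, map_mul, map_pow, aeval_X, aeval_C, map_one, map_ofNat]
      rw [← hc, ← hA]; field_simp; ring
    · simp only [cub, b₂, b₄, b₆, map_add, map_mul, map_pow, map_ofNat, map_sub, map_neg, map_zero,
        map_one]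
      rw [← hA]; field_simp; ring

theorem isog_of_rel {a b : F} (h : Rel a b) : ∀ (E E' : WeierstrassCurve F) [E.IsElliptic]
    [E'.IsElliptic], E.j = a → E'.j = b → Isog E E' := by
  induction h with
  | refl a => exact fun E E' _ _ h h' => isog_of_j E E' (h.trans h'.symm)
  | s2 V hV => exact fun E E' _ _ h h' => isog2 E E' hV h h'
  | s3 V hV => exact fun E E' _ _ h h' => isog3 E E' hV h h'
  | s5 V hV => exact fun E E' _ _ h h' => isog5 E E' hV h h'
  | @trans a b c _ _ h k =>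
    exact fun E E' _ _ h1 h2 =>
      (h E (ofJ b) h1 (ofJ_j b)).trans (k (ofJ b) E' (ofJ_j b) h2)

omit [CharZero F] [IsAlgClosed F] in
/-- a curve whose `j`-invariant is linked to all its conjugates is a `ℚ`-curve -/
theorem qcurve_of_rel {K : Type u} [Field K] [CharZero K] (E : WeierstrassCurve K) [E.IsElliptic]
    (h : QC E.j) : QCurve E := fun t =>
  isog_of_rel ((h t).map (algebraMap K (AlgebraicClosure K)))
    (E.map (algebraMap K (AlgebraicClosure K)))
    ((E.map (t : K →+* K)).map (algebraMap K (AlgebraicClosure K))) (map_j _ _)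
    ((map_j _ _).trans (congrArg _ (map_j _ _)))

end Vale.Agent.Q017
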