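import Vale.Agent.Q017.Isog

/-!
# Normalised coordinates of points, and the Galois action on them
-/

set_option linter.all false

open WeierstrassCurve WeierstrassCurve.Affine
open scoped Classical

namespace Vale.Agent.Q017

universe u

section coord

variable {L : Type u} [Field L] [CharZero L] {W : WeierstrassCurve L}

/-- the coefficient `a` of the short model `y² = x³ + a x + b` -/
def sa {L : Type u} [Field L] (W : WeierstrassCurve L) : L := -W.c₄ / 48
/-- the coefficient `b` of the short model `y² = x³ + a x + b` -/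
def sb {L : Type u} [Field L] (W : WeierstrassCurve L) : L := -W.c₆ / 864

/-- the `x`-coordinate on the short model -/
def xc : W.toAffine.Point → L
  | .zero => 0
  | .some x _ _ => x + W.b₂ / 12

/-- the `y`-coordinate on the short model -/
def yc : W.toAffine.Point → L
  | .zero => 0
  | .some x y _ => y + (W.a₁ * x + W.a₃) / 2

theorem disc_eq (W : WeierstrassCurve L) : W.Δ = -16 * (4 * sa W ^ 3 + 27 * sb W ^ 2) := by
  have := W.c_relation
  simp only [sa, sb]
  linear_combination this / 1728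

theorem pt_eqn {P : W.toAffine.Point} (h : P ≠ 0) : yc P ^ 2 = xc P ^ 3 + sa W * xc P + sb W := by
  rcases P with _ | ⟨x, y, k⟩
  · exact absurd rfl h
  · have e := (equation_iff x y).1 k.1
    simp only [xc, yc, sa, sb, c₄, c₆, b₂, b₄, b₆]
    linear_combination e

theorem xc_neg (P : W.toAffine.Point) : xc (-P) = xc P := by
  rcases P with _ | ⟨x, y, k⟩ <;> rfl

theorem yc_neg (P : W.toAffine.Point) : yc (-P) = -yc P := by
  rcases P with _ | ⟨x, y, k⟩
  · exact neg_zero.symm
  · rw [Point.neg_some]; simp only [yc, negY]; ring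

theorem xc_inj {P Q : W.toAffine.Point} (h : P ≠ 0) (k : Q ≠ 0) (e : xc P = xc Q) :
    P = Q ∨ P = -Q := by
  rcases P with _ | ⟨x, y, h1⟩
  · exact absurd rfl h
  rcases Q with _ | ⟨x', y', h2⟩
  · exact absurd rfl k
  exact Point.X_eq_iff.1 (add_right_cancel e)

theorem two_tors {P : W.toAffine.Point} (h : P ≠ 0) : P + P = 0 ↔ yc P = 0 := by
  constructor
  · intro e
    have := yc_neg P
    rw [← eq_neg_of_add_eq_zero_left e] at this
    linear_combination this / 2
  · rcases P with _ | ⟨x, y, k⟩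
    · exact absurd rfl h
    · intro e
      refine Point.add_self_of_Y_eq ?_
      simp only [yc] at e
      simp only [negY]
      linear_combination 2 * e

theorem xc_two {P : W.toAffine.Point} (h : P + P ≠ 0) :
    (xc (P + P) + 2 * xc P) * (4 * yc P ^ 2) = (3 * xc P ^ 2 + sa W) ^ 2 := by
  rcases P with _ | ⟨x, y, k⟩
  · exact absurd rfl h
  · have hy : y ≠ W.toAffine.negY x y := fun e => h (Point.add_self_of_Y_eq e)
    rw [Point.add_self_of_Y_ne hy]
    simp only [xc, yc, addX, slope_of_Y_ne rfl hy]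
    have e := (equation_iff x y).1 k.1
    have h0 : y - W.toAffine.negY x y ≠ 0 := sub_ne_zero.2 hy
    obtain ⟨l, hl⟩ : ∃ l, l = (3 * x ^ 2 + 2 * W.a₂ * x + W.a₄ - W.a₁ * y) /
      (y - W.toAffine.negY x y) := ⟨_, rfl⟩
    have hl' : l * (y - W.toAffine.negY x y) = 3 * x ^ 2 + 2 * W.a₂ * x + W.a₄ - W.a₁ * y := by
      rw [hl, div_mul_cancel₀ _ h0]
    rw [← hl]
    simp only [negY, sa, c₄, b₂, b₄] at hl' ⊢
    have : 3 * (x + (W.a₁ ^ 2 + 4 * W.a₂) / 12) ^ 2 +
        -((W.a₁ ^ 2 + 4 * W.a₂) ^ 2 - 24 * (2 * W.a₄ + W.a₁ * W.a₃)) / 48 =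
        (l + W.a₁ / 2) * (2 * (y + (W.a₁ * x + W.a₃) / 2)) := by
      linear_combination -hl'
    rw [this]; ring

theorem exists_pt [IsAlgClosed L] [W.IsElliptic] (x : L) :
    ∃ P : W.toAffine.Point, P ≠ 0 ∧ xc P = x := by
  obtain ⟨y, hy⟩ := IsAlgClosed.exists_pow_nat_eq (x ^ 3 + sa W * x + sb W) two_pos
  have e : W.toAffine.Equation (x - W.b₂ / 12) (y - (W.a₁ * (x - W.b₂ / 12) + W.a₃) / 2) := by
    rw [equation_iff]
    simp only [sa, sb, c₄, c₆, b₂, b₄, b₆] at hy ⊢
    linear_combination hy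
  exact ⟨.some _ _ (equation_iff_nonsingular.1 e), Point.some_ne_zero _, by simp [xc]⟩

end coord

section galois

variable {K : Type u} [Field K] [CharZero K] (E : WeierstrassCurve K)

theorem exists_Pt [E.IsElliptic] (x : AlgebraicClosure K) : ∃ P : Pt E, P ≠ 0 ∧ xc P = x :=
  haveI : (E.baseChange (AlgebraicClosure K)).IsElliptic := inferInstanceAs (E.map _).IsElliptic
  exists_pt x

theorem sa_bc : sa (E.baseChange (AlgebraicClosure K)) = algebraMap K _ (sa E) := by
  simp [sa, WeierstrassCurve.baseChange, map_ofNat]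

theorem sb_bc : sb (E.baseChange (AlgebraicClosure K)) = algebraMap K _ (sb E) := by
  simp [sb, WeierstrassCurve.baseChange, map_ofNat]

variable {E}

theorem xc_act (s : Gal K) (P : Pt E) : xc (act E s P) = s (xc P) := by
  rcases P with _ | ⟨x, y, k⟩
  · exact (map_zero s).symm
  · show s x + _ = s (x + _)
    simp [WeierstrassCurve.baseChange, map_ofNat]

theorem Pt_eqn {P : Pt E} (h : P ≠ 0) :
    yc P ^ 2 = xc P ^ 3 + algebraMap K _ (sa E) * xc P + algebraMap K _ (sb E) := by
  rw [← sa_bc, ← sb_bc]; exact pt_eqn h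

theorem Pt_two {P : Pt E} (h : P + P ≠ 0) : (xc (P + P) + 2 * xc P) *
    (4 * (xc P ^ 3 + algebraMap K _ (sa E) * xc P + algebraMap K _ (sb E))) =
      (3 * xc P ^ 2 + algebraMap K _ (sa E)) ^ 2 ∧
    xc P ^ 3 + algebraMap K _ (sa E) * xc P + algebraMap K _ (sb E) ≠ 0 := by
  have h0 : P ≠ 0 := by rintro rfl; exact h (add_zero _)
  rw [← Pt_eqn h0, ← sa_bc]
  exact ⟨xc_two h, pow_ne_zero 2 fun e => h ((two_tors h0).2 e)⟩

theorem act_mul (s t : Gal K) (P : Pt E) : act E (s * t) P = act E s (act E t P) := by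
  rcases P with _ | ⟨x, y, k⟩ <;> rfl

theorem act_one (P : Pt E) : act E 1 P = P := by
  rcases P with _ | ⟨x, y, k⟩ <;> rfl

theorem act_ne (s : Gal K) {P : Pt E} (h : P ≠ 0) : act E s P ≠ 0 := by
  rcases P with _ | ⟨x, y, k⟩
  · exact absurd rfl h
  · exact Point.some_ne_zero _

theorem fixed_iff (x : AlgebraicClosure K) (h : ∀ s : Gal K, s x = x) :
    ∃ y : K, algebraMap K _ y = x :=
  (InfiniteGalois.mem_range_algebraMap_iff_fixed x).2 h

/-- descent along a quadratic extension -/
theorem quad_desc {r x : AlgebraicClosure K} (hr : ∀ s : Gal K, s r = r ∨ s r = -r)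
    (h1 : ∀ s : Gal K, s r = r → s x = x) (h2 : ∀ s : Gal K, s x = x ∨ s x = -x) :
    (∀ s : Gal K, s x = x) ∨ ∀ s : Gal K, s (x * r) = x * r := by
  by_cases h : ∀ s : Gal K, s x = x
  · exact Or.inl h
  right
  push Not at h
  obtain ⟨t, ht⟩ := h
  have t1 := (h2 t).resolve_left ht
  have t2 := (hr t).resolve_left fun e => ht (h1 t e)
  intro s
  rcases hr s with e | e
  · rw [map_mul, e, h1 s e]
  · have := h1 (t * s) (by rw [AlgEquiv.mul_apply, e, map_neg, t2, neg_neg])
    rw [AlgEquiv.mul_apply] at this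
    have k : s x = -x := t.injective (by rw [this, map_neg, t1, neg_neg])
    rw [map_mul, e, k]; ring

end galois

end Vale.Agent.Q017
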