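import Vale.Agent.Q017.Cong
import Vale.Agent.Q017A.Primes
import Vale.Agent.Q017B.Tools

/-!
# Members of the two-torsion family with large three-torsion
-/

set_option linter.all false

open NumberField IsDedekindDomain WithZero
open scoped Classical

namespace Vale.Agent.Q017

open Vale.Agent.Q017A Vale.Agent.Q017B

section cg
variable {K : Type*} [Field K] {Γ : Type*} [LinearOrderedCommGroupWithZero Γ] {w : Valuation K Γ}
  {g : Γ} {x y z t : K}

/-- congruence of integral elements -/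
structure Cg (w : Valuation K Γ) (g : Γ) (x y : K) : Prop where
  l : w x ≤ 1
  r : w y ≤ 1
  s : w (x - y) < g

theorem Cg.add (h : Cg w g x y) (k : Cg w g z t) : Cg w g (x + z) (y + t) :=
  ⟨w.map_add_le h.l k.l, w.map_add_le h.r k.r, by
    rw [add_sub_add_comm]; exact w.map_add_lt h.s k.s⟩

theorem Cg.neg (h : Cg w g x y) : Cg w g (-x) (-y) :=
  ⟨by simpa using h.l, by simpa using h.r, by rw [neg_sub_neg, w.map_sub_swap]; exact h.s⟩

theorem Cg.sub (h : Cg w g x y) (k : Cg w g z t) : Cg w g (x - z) (y - t) := by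
  simpa only [sub_eq_add_neg] using h.add k.neg

theorem Cg.mul (h : Cg w g x y) (k : Cg w g z t) : Cg w g (x * z) (y * t) := by
  refine ⟨by rw [map_mul]; exact mul_le_one' h.l k.l, by rw [map_mul]; exact mul_le_one' h.r k.r, ?_⟩
  rw [show x * z - y * t = x * (z - t) + (x - y) * t by ring]
  refine w.map_add_lt ?_ ?_ <;> rw [map_mul]
  · exact (mul_le_of_le_one_left' h.l).trans_lt k.s
  · exact (mul_le_of_le_one_right' k.r).trans_lt h.s

theorem Cg.of (h : Cg w g x y) (k : w z ≤ 1) : Cg w g z z :=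
  ⟨k, k, by rw [sub_self, map_zero]; exact zero_le.trans_lt h.s⟩

theorem Cg.pow (h : Cg w g x y) (n : ℕ) : Cg w g (x ^ n) (y ^ n) := by
  induction n with
  | zero => simpa using h.of w.map_one.le
  | succ n ih => simpa only [pow_succ] using ih.mul h

theorem Cg.num (h : Cg w g x y) (n : ℕ) [n.AtLeastTwo] :
    Cg w g (OfNat.ofNat n : K) (OfNat.ofNat n) := h.of (w_nat w n)

theorem Cg.mk' (hg : g ≤ 1) (h : w y ≤ 1) (k : w (x - y) < g) : Cg w g x y :=
  ⟨by simpa using w.map_add_le (k.le.trans hg) h, h, k⟩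

theorem Cg.eq (h : Cg w g x y) (k : g ≤ w y) : w x = w y :=
  w.map_eq_of_sub_lt (h.s.trans_le k)

theorem Cg.lt (h : Cg w g x y) (k : w y < g) : w x < g := by
  simpa using w.map_add_lt h.s k

end cg

variable {K : Type*} [Field K] [NumberField K]

theorem approx (S : Finset (HeightOneSpectrum (𝓞 K))) (x : HeightOneSpectrum (𝓞 K) → K)
    (g : HeightOneSpectrum (𝓞 K) → ℤᵐ⁰) (hx : ∀ v ∈ S, v.valuation K (x v) ≤ 1)
    (hg : ∀ v ∈ S, g v ≠ 0) : ∃ y : 𝓞 K, ∀ v ∈ S, v.valuation K (y - x v) < g v := by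
  choose! a ha using fun v h =>
    HeightOneSpectrum.exists_valuation_sub_lt_of_integer v (hx v h) (Units.mk0 _ (hg v h))
  choose! n hn using fun v h => exists_exp_neg_natCast_lt (hg v h)
  obtain ⟨y, hy⟩ := IsDedekindDomain.exists_forall_sub_mem_ideal (s := S) (fun v => v.asIdeal) n
    (fun v _ => v.prime) (fun v _ u _ h e => h (HeightOneSpectrum.ext e)) fun v => a v
  refine ⟨y, fun v h => ?_⟩
  have k := (v.intValuation_le_pow_iff_mem _ _).2 (hy v h)
  rw [← v.valuation_of_algebraMap (K := K)] at k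
  rw [show (y : K) - x v = ((y - a v : 𝓞 K) : K) + (algebraMap _ K (a v) - x v) by simp]
  exact (v.valuation K).map_add_lt (k.trans_lt (hn v h)) (ha v h)

theorem bad {c : K} (hc : c ≠ 0) :
    ∃ T : Finset (HeightOneSpectrum (𝓞 K)), ∀ v, v ∈ T ↔ v.valuation K c < 1 :=
  ⟨(HeightOneSpectrum.Support.finite (𝓞 K) c⁻¹).toFinset, fun v => by
    rw [Set.Finite.mem_toFinset, HeightOneSpectrum.Support, Set.mem_setOf_eq, map_inv₀,
      one_lt_inv₀ (zero_lt_iff.2 ((map_ne_zero _).2 hc))]⟩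

theorem norm12 (y : 𝓞 K) : Ideal.absNorm (Ideal.span {1 + 12 * y}) % 12 = 1 ∨
    Ideal.absNorm (Ideal.span {1 + 12 * y}) % 12 = 11 := by
  have h : ((Algebra.norm ℤ (1 + 12 * y) : ℤ) : ZMod 12) = ((1 : ℤ) : ZMod 12) := by
    rw [Algebra.norm_eq_matrix_det (RingOfIntegers.basis K), ← eq_intCast (Int.castRingHom _),
      RingHom.map_det]
    simp only [map_add, map_mul, map_one, map_ofNat]
    rw [show (12 : Matrix _ _ (ZMod 12)) = algebraMap (ZMod 12) _ 12 from (map_ofNat _ 12).symm,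
      show (12 : ZMod 12) = 0 from rfl]
    simp
  rw [ZMod.intCast_eq_intCast_iff'] at h
  rw [Ideal.absNorm_span_singleton]
  omega

theorem normG (I : Ideal (𝓞 K)) (h0 : I ≠ 0) (h : ∀ v : HeightOneSpectrum (𝓞 K), v.asIdeal ∣ I →
    Ideal.absNorm v.asIdeal % 12 = 1 ∨ Ideal.absNorm v.asIdeal % 12 = 11) :
    Ideal.absNorm I % 12 = 1 ∨ Ideal.absNorm I % 12 = 11 := by
  induction I using UniqueFactorizationMonoid.induction_on_prime with
  | h₁ => exact absurd rfl h0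
  | h₂ x hx => rw [Ideal.isUnit_iff.1 hx]; simp
  | h₃ a p ha hp ih =>
    have k1 := ih ha fun v e => h v (e.mul_left _)
    have k2 := h ⟨p, Ideal.isPrime_of_prime hp, hp.ne_zero⟩ (dvd_mul_right _ _)
    rw [map_mul, Nat.mul_mod]
    rcases k1 with k1 | k1 <;> rcases k2 with k2 | k2 <;> simp [k1, k2]

theorem nsq12 {v : HeightOneSpectrum (𝓞 K)}
    (h : Ideal.absNorm v.asIdeal % 12 = 5 ∨ Ideal.absNorm v.asIdeal % 12 = 7) (y : K) :
    ¬ v.valuation K (y ^ 2 - 3) < 1 := by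
  intro k
  have h3 : v.valuation K 3 ≤ 1 := w_nat _ 3
  have h1 : v.valuation K y ≤ 1 := by
    have := (v.valuation K).map_add_le k.le h3
    rw [sub_add_cancel, map_pow] at this
    exact (pow_le_one_iff two_ne_zero).1 this
  obtain ⟨z, hz⟩ := v.exists_valuation_sub_lt_of_integer h1 1
  have c := Cg.mk' le_rfl h1 hz
  have e := ((c.pow 2).sub (c.num 3)).lt k
  have e' : z ^ 2 - 3 ∈ v.asIdeal := (v.valuation_lt_one_iff_mem (K := K) _).1 (by
    convert e using 2; simp [map_ofNat])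
  haveI := v.isMaximal
  letI := Ideal.Quotient.field v.asIdeal
  haveI : Finite (𝓞 K ⧸ v.asIdeal) := Ideal.finiteQuotientOfFreeOfNeBot _ v.ne_bot
  letI := Fintype.ofFinite (𝓞 K ⧸ v.asIdeal)
  rw [Ideal.absNorm_apply, Submodule.cardQuot_apply, Nat.card_eq_fintype_card] at h
  have s := (FiniteField.isSquare_odd_prime_iff (F := 𝓞 K ⧸ v.asIdeal) (p := 3)
    (fun e => by have := FiniteField.even_card_of_char_two e; omega) (by norm_num)).1
    ⟨Ideal.Quotient.mk _ z, by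
      rw [← map_mul, ← map_natCast (Ideal.Quotient.mk v.asIdeal), eq_comm, Ideal.Quotient.eq]
      convert e' using 1; ring⟩
  generalize Fintype.card (𝓞 K ⧸ v.asIdeal) = n at h s
  rw [← ZMod.natCast_mod n 4, ← ZMod.natCast_mod n 3] at s
  rcases h with h | h
  · rw [show n % 4 = 1 by omega, show n % 3 = 2 by omega] at s
    exact s (by decide)
  · rw [show n % 4 = 3 by omega, show n % 3 = 1 by omega] at s
    exact s (by decide)

/-- a cubic has a root modulo some prime at which `3` is not a square -/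
theorem parity (P : ∀ S : Finset (HeightOneSpectrum (𝓞 K)), ∃ v ∉ S,
      Ideal.absNorm v.asIdeal % 12 = 5 ∨ Ideal.absNorm v.asIdeal % 12 = 7)
    (a b : 𝓞 K) (S : Finset (HeightOneSpectrum (𝓞 K))) :
    ∃ v ∉ S, (∀ y : K, ¬ v.valuation K (y ^ 2 - 3) < 1) ∧
      ∃ x : K, v.valuation K x ≤ 1 ∧ v.valuation K (x ^ 3 + a * x + b) < 1 := by
  obtain ⟨T0, hT0⟩ := bad (K := K) (c := 12) (by norm_num)
  obtain ⟨u, hu, hn⟩ := P T0
  obtain ⟨π, hπ⟩ := u.valuation_exists_uniformizer K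
  have e1 : (exp (-1 : ℤ) : ℤᵐ⁰) < 1 := by rw [← exp_zero, exp_lt_exp]; norm_num
  have u12 : u.valuation K 12 = 1 := le_antisymm (w_nat _ 12) (not_lt.1 fun e => hu ((hT0 u).2 e))
  obtain ⟨n, n1, n0⟩ := Submodule.exists_mem_ne_zero_of_ne_bot
    (p := ∏ v ∈ insert u S, v.asIdeal) (Finset.prod_ne_zero_iff.2 fun v _ => v.ne_bot)
  have nv : ∀ v ∈ insert u S, v.valuation K (n : K) < 1 := fun v h =>
    (v.valuation_lt_one_iff_mem n).2 (Ideal.le_of_dvd (Finset.dvd_prod_of_mem _ h) n1)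
  obtain ⟨T, hT⟩ := bad (K := K) (c := 12 * n ^ 2) (by simpa using n0)
  have zl : ∀ v : HeightOneSpectrum (𝓞 K), v.valuation K (12 * n ^ 2 : K) ≤ v.valuation K 12 ∧
      v.valuation K (12 * n ^ 2 : K) ≤ v.valuation K (n : K) ^ 2 := fun v => by
    rw [map_mul, map_pow]
    exact ⟨mul_le_of_le_one_right' (pow_le_one' (v.valuation_le_one n) 2),
      mul_le_of_le_one_left' (w_nat _ 12)⟩
  have ST : ∀ v ∈ insert u S, v ∈ T := fun v h =>
    (hT v).2 ((zl v).2.trans_lt (pow_lt_one' (nv v h) two_ne_zero))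
  obtain ⟨X, hX⟩ := approx T (fun v => if v = u then π else 1)
    (fun v => if v = u then exp (-1) else v.valuation K 12)
    (fun v _ => by
      split_ifs with h
      · rw [h, hπ]; exact e1.le
      · simp) (fun v _ => by split_ifs <;> simp)
  have Xu : u.valuation K (X : K) = exp (-1) := by
    have := hX u (ST u (by simp))
    simp only [if_true] at this
    rw [← hπ] at this ⊢
    exact (u.valuation K).map_eq_of_sub_lt this
  have X1 : ∀ v ∈ T, v ≠ u → v.valuation K ((X : K) - 1) < v.valuation K 12 := fun v h k => by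
    simpa only [if_neg k] using hX v h
  obtain ⟨y, hy⟩ := HeightOneSpectrum.mem_integers_of_valuation_le_one (R := 𝓞 K) K
    (((X : K) - 1) / 12) fun v => by
      rw [map_div₀, div_le_one₀ (zero_lt_iff.2 (by simp))]
      have k : v.valuation K ((X : K) - 1) ≤ 1 :=
        (v.valuation K).map_sub_le (v.valuation_le_one X) (by simp)
      by_cases h : v = u
      · rw [h, u12, ← h]; exact k
      by_cases h' : v ∈ T
      · exact (X1 v h' h).le
      · exact k.trans ((not_lt.1 fun e => h' ((hT v).2 e)).trans (zl v).1)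
  obtain rfl : X = 1 + 12 * y := RingOfIntegers.ext (by
    change _ = algebraMap (𝓞 K) K _
    rw [map_add, map_mul, hy, map_one, map_ofNat]; ring)
  obtain ⟨F, hF⟩ : ∃ F : 𝓞 K, F = (1 + 12 * y) ^ 3 + a * (1 + 12 * y) * (12 * n ^ 2) ^ 2 +
    b * (12 * n ^ 2) ^ 3 := ⟨_, rfl⟩
  have N := norm12 (3 * y + 36 * y ^ 2 + 144 * y ^ 3 + a * (1 + 12 * y) * 12 * n ^ 4 +
    b * 144 * n ^ 6)
  rw [show 1 + 12 * (3 * y + 36 * y ^ 2 + 144 * y ^ 3 + a * (1 + 12 * y) * 12 * n ^ 4 +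
    b * 144 * n ^ 6) = F by rw [hF]; ring] at N
  generalize 1 + 12 * y = X at *
  have hF' : (F : K) = X ^ 3 + (12 * n ^ 2) ^ 2 * (a * X + b * (12 * n ^ 2)) := by
    rw [hF]; simp [map_ofNat]; ring
  generalize (12 * n ^ 2 : K) = Z at *
  have Fu : u.valuation K (F : K) = exp (-3) := by
    have z : u.valuation K Z < exp (-1) := (zl u).2.trans_lt (by
      have := (u.intValuation_le_pow_iff_mem n 1).2
        (by simpa using (u.valuation_lt_one_iff_mem n).1 (nv u (by simp)))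
      rw [← u.valuation_of_algebraMap (K := K)] at this
      refine (pow_le_pow_left' this 2).trans_lt ?_
      rw [← exp_nsmul, exp_lt_exp]; norm_num)
    have k : u.valuation K (a * X + b * Z) ≤ exp (-1) := by
      refine (u.valuation K).map_add_le ?_ ?_ <;> rw [map_mul]
      · exact (mul_le_of_le_one_left' (u.valuation_le_one a)).trans Xu.le
      · exact (mul_le_of_le_one_left' (u.valuation_le_one b)).trans z.le
    have x3 : u.valuation K ((X : K) ^ 3) = exp (-1) ^ 2 * exp (-1) := by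
      rw [map_pow, Xu, pow_succ]
    rw [hF', (u.valuation K).map_add_eq_of_lt_left, x3, ← exp_nsmul, ← exp_add]
    · rfl
    · rw [x3, map_mul, map_pow]
      exact mul_lt_mul_of_lt_of_le_of_nonneg_of_pos (pow_lt_pow_left₀ z zero_le two_ne_zero) k
        zero_le (zero_lt_iff.2 exp_ne_zero)
  rw [u.valuation_of_algebraMap] at Fu
  obtain ⟨I, hI⟩ := (u.intValuation_le_pow_iff_dvd F 3).1 Fu.le
  have uI : ¬ u.asIdeal ∣ I := fun ⟨J, e⟩ => by
    have := (u.intValuation_le_pow_iff_dvd F 4).2 ⟨J, by rw [hI, e]; ring⟩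
    rw [Fu, exp_le_exp] at this
    norm_num at this
  have I0 : I ≠ 0 := fun e => uI (e ▸ dvd_zero _)
  obtain ⟨v, hv, k⟩ : ∃ v : HeightOneSpectrum (𝓞 K), v.asIdeal ∣ I ∧
      ¬ (Ideal.absNorm v.asIdeal % 12 = 1 ∨ Ideal.absNorm v.asIdeal % 12 = 11) := by
    by_contra! h
    have := normG I I0 h
    rw [hI, map_mul, map_pow, Nat.mul_mod, Nat.pow_mod] at N
    rcases hn with e | e <;> rcases this with f | f <;> simp [e, f] at N
  have vu : v ≠ u := fun e => uI (e ▸ hv)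
  have vF : v.asIdeal ∣ Ideal.span {F} := hI ▸ hv.mul_left _
  have F1 := (v.valuation_lt_one_iff_dvd (K := K) F).2 vF
  have Z1 : v.valuation K Z ≤ 1 := (zl v).1.trans (w_nat _ 12)
  have vT : v ∉ T := fun h => by
    have c1 := Cg.mk' le_rfl (by simp) ((X1 v h vu).trans_le (w_nat _ 12))
    have c2 : Cg (v.valuation K) 1 Z 0 := Cg.mk' le_rfl (by simp) (by simpa using (hT v).1 h)
    have c3 := ((c1.pow 3).add ((c2.pow 2).mul (((c1.of (v.valuation_le_one a)).mul c1).add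
      ((c1.of (v.valuation_le_one b)).mul c2)))).eq (by simp)
    rw [← hF'] at c3
    simp [c3] at F1
  have Z2 : v.valuation K Z = 1 := le_antisymm Z1 (not_lt.1 fun e => vT ((hT v).2 e))
  have Z0 : Z ≠ 0 := fun e => by simp [e] at Z2
  refine ⟨v, fun h => vT (ST v (by simp [h])), nsq12 ?_, X / Z, ?_, ?_⟩
  · obtain ⟨c, e⟩ := map_dvd Ideal.absNorm vF
    rw [e, Nat.mul_mod] at N
    have h1 := Nat.mod_lt (Ideal.absNorm v.asIdeal) (show 0 < 12 by norm_num)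
    have h2 := Nat.mod_lt c (show 0 < 12 by norm_num)
    generalize Ideal.absNorm v.asIdeal % 12 = r at *
    generalize c % 12 = s at *
    interval_cases r <;> first | omega | simp at k
  · rw [map_div₀, Z2, div_one]; exact v.valuation_le_one X
  · rw [show (X / Z : K) ^ 3 + a * (X / Z) + b = F / Z ^ 3 by rw [hF']; field_simp; ring,
      map_div₀, map_pow, Z2, one_pow, div_one]
    exact F1

theorem Cg.fam {Γ : Type*} [LinearOrderedCommGroupWithZero Γ] {w : Valuation K Γ} {g : Γ}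
    {a b l m l' m' : K} (ha : w a ≤ 1) (hb : w b ≤ 1) (h : Cg w g l l') (k : Cg w g m m') :
    Cg w g (a * l ^ 2 + 9 * b * l * m - 3 * a ^ 2 * m ^ 2)
      (a * l' ^ 2 + 9 * b * l' * m' - 3 * a ^ 2 * m' ^ 2) ∧
    Cg w g (b * l ^ 3 - 2 * a ^ 2 * l ^ 2 * m - 9 * a * b * l * m ^ 2 -
      (2 * a ^ 3 + 27 * b ^ 2) * m ^ 3) (b * l' ^ 3 - 2 * a ^ 2 * l' ^ 2 * m' -
      9 * a * b * l' * m' ^ 2 - (2 * a ^ 3 + 27 * b ^ 2) * m' ^ 3) ∧
    Cg w g (l ^ 3 + 9 * a * l * m ^ 2 + 27 * b * m ^ 3)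
      (l' ^ 3 + 9 * a * l' * m' ^ 2 + 27 * b * m' ^ 3) := by
  have a1 := h.of ha
  have b1 := h.of hb
  refine ⟨?_, ?_, ?_⟩ <;>
    repeat' first
      | assumption | exact h.num _ | apply Cg.add | apply Cg.sub | apply Cg.mul | apply Cg.pow

theorem not_R3 {v : HeightOneSpectrum (𝓞 K)} (h : ∀ y : K, ¬ v.valuation K (y ^ 2 - 3) < 1)
    (h6 : v.valuation K 6 = 1) {T : K} (hT : T ≠ 0) : ¬ v.valuation K (R3 T - 1728) < 1 := by
  intro k
  have e : (R3 T - 1728) * T = (T ^ 2 + (18 * T - 27)) ^ 2 := by unfold R3; field_simp; ring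
  have e1 := congrArg (v.valuation K) e
  rw [map_mul, map_pow] at e1
  have t0 : 0 < v.valuation K T := zero_lt_iff.2 ((map_ne_zero _).2 hT)
  have e2 : v.valuation K (T ^ 2 + (18 * T - 27)) ^ 2 < v.valuation K T :=
    e1 ▸ mul_lt_of_lt_one_left t0 k
  have e3 : 1 ≤ v.valuation K (T ^ 2 + (18 * T - 27)) := by
    rw [show T ^ 2 + (18 * T - 27) = 6 ^ 2 * (((T + 9) / 6) ^ 2 - 3) by ring, map_mul, map_pow, h6,
      one_pow, one_mul]
    exact not_lt.1 (h _)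
  have e4 : 1 < v.valuation K T := (one_le_pow₀ e3).trans_lt e2
  rw [(v.valuation K).map_add_eq_of_lt_left, map_pow, ← pow_mul] at e2
  · exact absurd e2 (not_lt.2 (le_self_pow₀ e4.le (by norm_num)))
  · rw [map_pow]
    refine lt_of_le_of_lt ((v.valuation K).map_sub_le ?_ ((w_nat _ 27).trans e4.le))
      (lt_self_pow₀ e4 one_lt_two)
    rw [map_mul]; exact mul_le_of_le_one_left' (w_nat _ 18)

theorem hensel {v : HeightOneSpectrum (𝓞 K)} {a b x : K} (ha : v.valuation K a ≤ 1)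
    (hb : v.valuation K b ≤ 1) (hd : v.valuation K (4 * a ^ 3 + 27 * b ^ 2) = 1)
    (hx : v.valuation K x ≤ 1) (h : v.valuation K (x ^ 3 + a * x + b) < 1) :
    ∃ x : K, v.valuation K x ≤ 1 ∧ v.valuation K (x ^ 3 + a * x + b) = exp (-1) := by
  by_cases k : v.valuation K (x ^ 3 + a * x + b) = exp (-1)
  · exact ⟨x, hx, k⟩
  obtain ⟨π, hπ⟩ := v.valuation_exists_uniformizer K
  have e1 : v.valuation K π < 1 := by rw [hπ, ← exp_zero, exp_lt_exp]; norm_num
  have c1 : Cg (v.valuation K) 1 π 0 := Cg.mk' le_rfl (by simp) (by simpa using e1)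
  have cx := c1.of hx
  have ca := c1.of ha
  have cb := c1.of hb
  have c2 : Cg (v.valuation K) 1 (x ^ 3 + a * x + b) 0 :=
    Cg.mk' le_rfl (by simp) (by simpa using h)
  have u : v.valuation K (3 * x ^ 2 + a) = 1 := by
    have c3 := ((c1.num 3).mul (cx.pow 2)).add ca
    refine le_antisymm c3.l (not_lt.1 fun e => ?_)
    have c4 : Cg (v.valuation K) 1 (3 * x ^ 2 + a) 0 := Cg.mk' le_rfl (by simp) (by simpa using e)
    have := (((c4.pow 2).mul (c3.add ((c1.num 3).mul ca))).add (((c1.num 27).mul c2).mul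
      ((cb.sub (cx.pow 3)).sub (ca.mul cx)))).lt (by simp)
    rw [← hd] at this
    exact this.ne (congrArg _ (by ring))
  refine ⟨x + π, (cx.add c1).l, ?_⟩
  have c5 := ((((c1.num 3).mul (cx.pow 2)).add ca).add
    (c1.mul (((c1.num 3).mul cx).add c1))).eq (by simp [u])
  rw [zero_mul, add_zero, u] at c5
  rw [show (x + π) ^ 3 + a * (x + π) + b = π * (3 * x ^ 2 + a + π * (3 * x + π)) +
    (x ^ 3 + a * x + b) by ring, (v.valuation K).map_add_eq_of_lt_left, map_mul, c5, mul_one, hπ]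
  rw [map_mul, c5, mul_one, hπ]
  refine lt_of_le_of_ne ?_ k
  rcases eq_or_ne (v.valuation K (x ^ 3 + a * x + b)) 0 with z | z
  · rw [z]; exact zero_le
  rw [← exp_log z, ← exp_zero, exp_lt_exp] at h
  rw [← exp_log z, exp_le_exp]
  omega

theorem rowA2' (P : ∀ S : Finset (HeightOneSpectrum (𝓞 K)), ∃ v ∉ S,
      Ideal.absNorm v.asIdeal % 12 = 5 ∨ Ideal.absNorm v.asIdeal % 12 = 7)
    (a' b' : 𝓞 K) {a b : K} (ea : a' = a) (eb : b' = b) (hd : 4 * a ^ 3 + 27 * b ^ 2 ≠ 0)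
    (S : Finset (HeightOneSpectrum (𝓞 K))) :
    ∃ l m : K, l ^ 3 + 9 * a * l * m ^ 2 + 27 * b * m ^ 3 ≠ 0 ∧
      ∀ j, j = 6912 * (a * l ^ 2 + 9 * b * l * m - 3 * a ^ 2 * m ^ 2) ^ 3 /
        ((4 * a ^ 3 + 27 * b ^ 2) * (l ^ 3 + 9 * a * l * m ^ 2 + 27 * b * m ^ 3) ^ 2) →
      (∀ T, T ≠ 0 → j ≠ R3 T) ∧ (∀ J, J ^ 3 ≠ j) ∧
      ∀ v ∈ S, v.valuation K (j - 6912 * a ^ 3 / (4 * a ^ 3 + 27 * b ^ 2)) < 1 := by
  have ha : ∀ v : HeightOneSpectrum (𝓞 K), v.valuation K a ≤ 1 := fun v => ea ▸ v.valuation_le_one a'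
  have hb : ∀ v : HeightOneSpectrum (𝓞 K), v.valuation K b ≤ 1 := fun v => eb ▸ v.valuation_le_one b'
  obtain ⟨d, ed⟩ : ∃ d, d = 4 * a ^ 3 + 27 * b ^ 2 := ⟨_, rfl⟩
  have d1 : ∀ v : HeightOneSpectrum (𝓞 K), v.valuation K d ≤ 1 := fun v => by
    have c : Cg (v.valuation K) 1 a a := ⟨ha v, ha v, by simp⟩
    exact ed ▸ (((c.num 4).mul (c.pow 3)).add ((c.num 27).mul ((c.of (hb v)).pow 2))).l
  rw [← ed] at hd
  obtain ⟨T, hT⟩ := bad (c := 6 * d) (mul_ne_zero (by norm_num) hd)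
  have gd : ∀ v ∉ T, v.valuation K 2 = 1 ∧ v.valuation K 3 = 1 ∧ v.valuation K d = 1 := fun v h => by
    have := not_lt.1 fun e => h ((hT v).2 e)
    rw [show 6 * d = 2 * (3 * d) by ring, map_mul, map_mul] at this
    have k2 : v.valuation K 2 ≤ 1 := w_nat _ 2
    have k3 : v.valuation K 3 ≤ 1 := w_nat _ 3
    have k := eq_one_of_one_le_mul_right k2 (mul_le_one' k3 (d1 v)) this
    exact ⟨eq_one_of_one_le_mul_left k2 (mul_le_one' k3 (d1 v)) this,
      eq_one_of_one_le_mul_left k3 (d1 v) k.ge, eq_one_of_one_le_mul_right k3 (d1 v) k.ge⟩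
  obtain ⟨u, hu, -, x, x1, x2⟩ := parity P a' b' (S ∪ T)
  obtain ⟨w, hw, w3, y, y1, y2⟩ := parity P a' b' (insert u (S ∪ T))
  rw [ea, eb] at x2 y2
  simp only [Finset.mem_insert, Finset.mem_union, not_or] at hu hw
  obtain ⟨u2, u3, ud⟩ := gd u hu.2
  obtain ⟨w2, w3', wd⟩ := gd w hw.2.2
  obtain ⟨x, x1, x2⟩ := hensel (ha u) (hb u) (ed ▸ ud) x1 x2
  have cy : Cg (w.valuation K) 1 y y := ⟨y1, y1, by simp⟩
  have cl := ((cy.num 3).mul (cy.pow 2)).add ((cy.num 2).mul (cy.of (ha w)))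
  have x3 : u.valuation K (3 * x) ≤ 1 := by rw [map_mul, u3, one_mul]; exact x1
  obtain ⟨g, gu, gw, gS, g0⟩ : ∃ g : HeightOneSpectrum (𝓞 K) → ℤᵐ⁰, g u = exp (-1) ∧ g w = 1 ∧
      (∀ v ∈ S, g v = v.valuation K d) ∧ ∀ v, g v ≠ 0 :=
    ⟨fun v => if v = u then exp (-1) else v.valuation K d, if_pos rfl, (if_neg hw.1).trans wd,
      fun v h => if_neg fun e : v = u => hu.1 (e ▸ h), fun v => by
        dsimp only; split_ifs <;> simp [hd]⟩
  obtain ⟨l, hl⟩ := approx (insert u (insert w S))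
    (fun v => if v = u then 3 * x else if v = w then 3 * y ^ 2 + 2 * a else 1) g
    (fun v _ => by split_ifs with h k <;> [exact h ▸ x3; exact k ▸ cl.l; simp]) fun v _ => g0 v
  obtain ⟨m, hm⟩ := approx (insert u (insert w S))
    (fun v => if v = u then 1 else if v = w then -y else 0) g
    (fun v _ => by split_ifs with h k <;> [simp; exact k ▸ cy.neg.l; simp]) fun v _ => g0 v
  have lu := hl u (by simp)
  have mu := hm u (by simp)
  have lw := hl w (by simp)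
  have mw := hm w (by simp)
  simp only [if_true, if_neg hw.1, gu, gw] at lu mu lw mw
  have e1 : (exp (-1 : ℤ) : ℤᵐ⁰) ≤ 1 := by rw [← exp_zero, exp_le_exp]; norm_num
  have Du := (Cg.fam (ha u) (hb u) (Cg.mk' e1 x3 lu) (Cg.mk' e1 (by simp) mu)).2.2
  rw [show (3 * x) ^ 3 + 9 * a * (3 * x) * 1 ^ 2 + 27 * b * 1 ^ 3 = 3 ^ 3 * (x ^ 3 + a * x + b) by
    ring] at Du
  have Du' := Du.eq (by rw [map_mul, map_pow, u3, x2]; simp)
  rw [map_mul, map_pow, u3, x2, one_pow, one_mul] at Du'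
  obtain ⟨-, Bw, Dw⟩ := Cg.fam (ha w) (hb w) (Cg.mk' le_rfl cl.l lw) (Cg.mk' le_rfl cy.neg.l mw)
  have cf : Cg (w.valuation K) 1 (y ^ 3 + a * y + b) 0 := Cg.mk' le_rfl (by simp) (by simpa using y2)
  have ca := cy.of (ha w)
  have cb := cy.of (hb w)
  have Bw' := Bw.lt (by
    have := (cf.mul ((((cy.num 18).mul ((ca.pow 2).mul (cy.pow 2))).add ((cy.num 27).mul
      (cb.mul (cy.pow 3)))).add ((cy.num 8).mul (ca.pow 3)))).lt (by simp)
    convert this using 2; ring)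
  have Dw1 : w.valuation K (l ^ 3 + 9 * a * l * m ^ 2 + 27 * b * m ^ 3) = 1 := by
    have := (((cy.num 2).mul (cy.of (d1 w))).add (cf.mul ((((cy.num 27).mul (cy.pow 3)).add
      ((cy.num 54).mul (ca.mul cy))).sub ((cy.num 54).mul cb)))).eq (by simp [w2, wd])
    rw [zero_mul, add_zero, map_mul, w2, wd, one_mul] at this
    have k : w.valuation K ((3 * y ^ 2 + 2 * a) ^ 3 + 9 * a * (3 * y ^ 2 + 2 * a) * (-y) ^ 2 +
      27 * b * (-y) ^ 3) = 1 := by rw [← this, ed]; exact congrArg _ (by ring)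
    exact (Dw.eq k.ge).trans k
  have D0 : (l ^ 3 + 9 * a * l * m ^ 2 + 27 * b * m ^ 3 : K) ≠ 0 := fun e => by simp [e] at Dw1
  refine ⟨l, m, D0, fun j hj => ?_⟩
  rw [← ed] at hj ⊢
  have hS : ∀ v ∈ S, v.valuation K (j - 6912 * a ^ 3 / d) < 1 := fun v h => by
    have k1 := hl v (by simp [h])
    have k2 := hm v (by simp [h])
    have n1 : v ≠ u := fun e => hu.1 (e ▸ h)
    have n2 : v ≠ w := fun e => hw.2.1 (e ▸ h)
    simp only [if_neg n1, if_neg n2, gS v h] at k1 k2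
    obtain ⟨cA, -, cD⟩ := Cg.fam (ha v) (hb v) (Cg.mk' (d1 v) (by simp) k1)
      (Cg.mk' (d1 v) (by simp) k2)
    have D1 := cD.eq (by simpa using d1 v)
    have := ((cA.num 6912).mul ((cA.pow 3).sub (((cA.of (ha v)).pow 3).mul (cD.pow 2)))).lt
      (by simpa using (zero_lt_iff.2 ((map_ne_zero _).2 hd)))
    generalize (l ^ 3 + 9 * a * l * m ^ 2 + 27 * b * m ^ 3 : K) = D at *
    generalize (a * l ^ 2 + 9 * b * l * m - 3 * a ^ 2 * m ^ 2 : K) = A at *
    rw [show j - 6912 * a ^ 3 / d = 6912 * (A ^ 3 - a ^ 3 * D ^ 2) / (d * D ^ 2) by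
      rw [hj]; field_simp, map_div₀, div_lt_one₀ (zero_lt_iff.2 (by simp [hd, D0])), map_mul _ d,
      map_pow, D1]
    simpa using this
  have id : 4 * (a * l ^ 2 + 9 * b * l * m - 3 * a ^ 2 * m ^ 2) ^ 3 + 27 * (b * l ^ 3 -
      2 * a ^ 2 * l ^ 2 * m - 9 * a * b * l * m ^ 2 - (2 * a ^ 3 + 27 * b ^ 2) * m ^ 3) ^ 2 =
      d * (l ^ 3 + 9 * a * l * m ^ 2 + 27 * b * m ^ 3) ^ 2 := by rw [ed]; ring
  generalize (l ^ 3 + 9 * a * l * m ^ 2 + 27 * b * m ^ 3 : K) = D at *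
  generalize (a * l ^ 2 + 9 * b * l * m - 3 * a ^ 2 * m ^ 2 : K) = A at *
  generalize (b * l ^ 3 - 2 * a ^ 2 * l ^ 2 * m - 9 * a * b * l * m ^ 2 -
    (2 * a ^ 3 + 27 * b ^ 2) * m ^ 3 : K) = B at *
  have w6 : w.valuation K 6 = 1 := by rw [show (6 : K) = 2 * 3 by norm_num, map_mul, w2, w3', one_mul]
  have jw : w.valuation K (j - 1728) < 1 := by
    rw [show j - 1728 = -(6 ^ 6 * B ^ 2 / (d * D ^ 2)) by
      rw [hj]; field_simp; linear_combination 1728 * id]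
    simpa [w6, wd, Dw1] using pow_lt_one' Bw' two_ne_zero
  refine ⟨fun T h e => not_R3 w3 w6 h (e ▸ jw), fun J e => ?_, hS⟩
  have A0 : A ≠ 0 := fun z => by
    rw [hj, z, show 6912 * 0 ^ 3 / (d * D ^ 2) - 1728 = -(2 ^ 6 * 3 ^ 3 : K) by norm_num] at jw
    simp [w2, w3'] at jw
  have J0 : u.valuation K (J / A) ≠ 0 := (map_ne_zero _).2 (div_ne_zero (fun z => by
    rw [z, hj, zero_pow three_ne_zero, eq_comm] at e
    simp [hd, D0, A0] at e) A0)
  have k : (J / A) ^ 3 * (d * D ^ 2) = 2 ^ 8 * 3 ^ 3 := by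
    rw [div_pow, e, hj]; field_simp; norm_num
  have k' := congrArg (u.valuation K) k
  simp only [map_mul, map_pow, u2, u3, ud, Du', one_pow, one_mul] at k'
  rw [← exp_log J0, ← exp_nsmul, ← exp_nsmul, ← exp_add, ← exp_zero, exp_inj] at k'
  simp only [nsmul_eq_mul] at k'
  omega

theorem rowA2 (P : ∀ S : Finset (HeightOneSpectrum (𝓞 K)), ∃ v ∉ S,
      Ideal.absNorm v.asIdeal % 12 = 5 ∨ Ideal.absNorm v.asIdeal % 12 = 7)
    {a b : K} (hd : 4 * a ^ 3 + 27 * b ^ 2 ≠ 0) (S : Finset (HeightOneSpectrum (𝓞 K))) :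
    ∃ l m : K, l ^ 3 + 9 * a * l * m ^ 2 + 27 * b * m ^ 3 ≠ 0 ∧
      ∀ j, j = 6912 * (a * l ^ 2 + 9 * b * l * m - 3 * a ^ 2 * m ^ 2) ^ 3 /
        ((4 * a ^ 3 + 27 * b ^ 2) * (l ^ 3 + 9 * a * l * m ^ 2 + 27 * b * m ^ 3) ^ 2) →
      (∀ T, T ≠ 0 → j ≠ R3 T) ∧ (∀ J, J ^ 3 ≠ j) ∧
      ∀ v ∈ S, v.valuation K (j - 6912 * a ^ 3 / (4 * a ^ 3 + 27 * b ^ 2)) < 1 := by
  obtain ⟨a1, a2, h2, rfl⟩ := IsFractionRing.div_surjective (𝓞 K) a
  obtain ⟨b1, b2, k2, rfl⟩ := IsFractionRing.div_surjective (𝓞 K) b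
  have h3 : algebraMap (𝓞 K) K a2 ≠ 0 := by simpa using nonZeroDivisors.ne_zero h2
  have k3 : algebraMap (𝓞 K) K b2 ≠ 0 := by simpa using nonZeroDivisors.ne_zero k2
  have u0 := mul_ne_zero h3 k3
  have ea : ((a1 * a2 ^ 3 * b2 ^ 4 : 𝓞 K) : K) = (algebraMap _ K a2 * algebraMap _ K b2) ^ 4 *
      (algebraMap _ K a1 / algebraMap _ K a2) := by
    change algebraMap (𝓞 K) K _ = _
    simp only [map_mul, map_pow]; field_simp
  have eb : ((b1 * a2 ^ 6 * b2 ^ 5 : 𝓞 K) : K) = (algebraMap _ K a2 * algebraMap _ K b2) ^ 6 *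
      (algebraMap _ K b1 / algebraMap _ K b2) := by
    change algebraMap (𝓞 K) K _ = _
    simp only [map_mul, map_pow]; field_simp
  generalize algebraMap _ K a2 * algebraMap _ K b2 = u at *
  generalize algebraMap _ K a1 / algebraMap _ K a2 = a at *
  generalize algebraMap _ K b1 / algebraMap _ K b2 = b at *
  have ed : 4 * (u ^ 4 * a) ^ 3 + 27 * (u ^ 6 * b) ^ 2 = u ^ 12 * (4 * a ^ 3 + 27 * b ^ 2) := by ring
  obtain ⟨l, m, D0, h⟩ := rowA2' P _ _ ea eb (ed ▸ mul_ne_zero (pow_ne_zero _ u0) hd) S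
  have eD : l ^ 3 + 9 * (u ^ 4 * a) * l * m ^ 2 + 27 * (u ^ 6 * b) * m ^ 3 =
    l ^ 3 + 9 * a * l * (u ^ 2 * m) ^ 2 + 27 * b * (u ^ 2 * m) ^ 3 := by ring
  rw [eD] at D0 h
  rw [ed] at h
  refine ⟨l, u ^ 2 * m, D0, fun j hj => ?_⟩
  generalize l ^ 3 + 9 * a * l * (u ^ 2 * m) ^ 2 + 27 * b * (u ^ 2 * m) ^ 3 = D at *
  generalize 4 * a ^ 3 + 27 * b ^ 2 = d at *
  convert h j (by rw [hj]; field_simp) using 6
  field_simp

/-- every curve is congruent mod `2` to curves with large three-torsion -/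
theorem link2 [Algebra.IsQuadraticExtension ℚ K] [IsTotallyComplex K] (E : WeierstrassCurve K)
    [E.IsElliptic] : Link E 2 := fun S => by
  obtain ⟨l, m, D0, h⟩ := rowA2 (fun S => by
    obtain ⟨v, hv, l, -, -, e, k⟩ := P1 S 0
    exact ⟨v, hv, e ▸ k⟩) (j_ab E).1 S
  obtain ⟨E', i, c, e⟩ := cong2 E rfl rfl D0
  obtain ⟨h1, h2, h3⟩ := h _ e
  refine ⟨E', i, Or.inl (by_contra fun k => ?_), c, (j_ab E).2 ▸ h3⟩
  obtain ⟨J, f, -⟩ := cube3 (fun z => by
    obtain ⟨T, t, f⟩ := G3 z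
    exact h1 T t f) k fun z => h2 12 (by rw [z]; norm_num)
  exact h2 J f

end Vale.Agent.Q017
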