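import Vale.Agent.Q017.Pts

/-!
# From Galois-stable torsion structures to points on modular curves
-/

set_option linter.all false

open WeierstrassCurve WeierstrassCurve.Affine
open scoped Classical

namespace Vale.Agent.Q017

open Vale.Agent.Q017A

universe u

variable {K : Type u} [Field K] [CharZero K] {E : WeierstrassCurve K}

theorem j_short (E : WeierstrassCurve K) [E.IsElliptic] :
    -16 * (4 * sa E ^ 3 + 27 * sb E ^ 2) ≠ 0 ∧
      E.j = (-48 * sa E) ^ 3 / (-16 * (4 * sa E ^ 3 + 27 * sb E ^ 2)) := by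
  rw [← disc_eq, j_eq]
  refine ⟨E.isUnit_Δ.ne_zero, ?_⟩
  congr 2; simp only [sa]; ring

/-- multiples of a point of order three -/
theorem mul3 {G : Type*} [AddCommGroup G] {P : G} (h : 3 • P = 0) (k : ℕ) :
    k • P = 0 ∨ k • P = P ∨ k • P = -P := by
  induction k with
  | zero => left; simp
  | succ k ih =>
    rw [succ_nsmul]
    rcases ih with e | e | e <;> rw [e]
    · simp
    · right; right; linear_combination (norm := abel1) h
    · simp

theorem line3 {H : Set (Gal K)} (h : Line E 3 H) :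
    ∃ P : Pt E, P ≠ 0 ∧ 3 • P = 0 ∧ ∀ s ∈ H, s (xc P) = xc P := by
  obtain ⟨P, h0, h3, hs⟩ := h
  refine ⟨P, h0, h3, fun s m => ?_⟩
  obtain ⟨k, e⟩ := hs s m
  rw [← xc_act]
  rcases mul3 h3 k with f | f | f
  · exact absurd (e.trans f) (act_ne s h0)
  · rw [e, f]
  · rw [e, f, xc_neg]

theorem line3' {H : Set (Gal K)} {P : Pt E} (h0 : P ≠ 0) (h3 : 3 • P = 0)
    (hs : ∀ s ∈ H, s (xc P) = xc P) : Line E 3 H := by
  refine ⟨P, h0, h3, fun s m => ?_⟩
  rcases xc_inj (act_ne s h0) h0 ((xc_act s P).trans (hs s m)) with e | e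
  · exact ⟨1, by simpa using e⟩
  · exact ⟨2, by rw [e]; linear_combination (norm := abel1) -h3⟩

theorem psi3 {P : Pt E} (h0 : P ≠ 0) (h3 : 3 • P = 0) :
    3 * xc P ^ 4 + 6 * algebraMap K _ (sa E) * xc P ^ 2 + 12 * algebraMap K _ (sb E) * xc P -
      algebraMap K _ (sa E) ^ 2 = 0 ∧
    xc P ^ 3 + algebraMap K _ (sa E) * xc P + algebraMap K _ (sb E) ≠ 0 := by
  have e : P + P = -P := by linear_combination (norm := abel1) h3
  obtain ⟨k1, k2⟩ := Pt_two (P := P) (by rw [e]; exact neg_ne_zero.2 h0)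
  rw [e, xc_neg] at k1
  exact ⟨by linear_combination k1, k2⟩

theorem G3 [E.IsElliptic] (h : Line E 3 Set.univ) : ∃ T : K, T ≠ 0 ∧ E.j = R3 T := by
  obtain ⟨P, h0, h3, hs⟩ := line3 h
  obtain ⟨x, hx⟩ := fixed_iff _ fun s => hs s trivial
  obtain ⟨k1, k2⟩ := psi3 h0 h3
  rw [← hx] at k1 k2
  have e1 : 3 * x ^ 4 + 6 * sa E * x ^ 2 + 12 * sb E * x - sa E ^ 2 = 0 :=
    (algebraMap K (AlgebraicClosure K)).injective (by simpa [map_ofNat] using k1)
  have e2 : x ^ 3 + sa E * x + sb E ≠ 0 := fun e => k2 (by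
    simpa using congrArg (algebraMap K (AlgebraicClosure K)) e)
  obtain ⟨d, hj⟩ := j_short E
  generalize sa E = a at *
  generalize sb E = b at *
  obtain ⟨g, rfl⟩ : ∃ g, b = g - x ^ 3 - a * x := ⟨x ^ 3 + a * x + b, by ring⟩
  obtain ⟨c, rfl⟩ : ∃ c, a = c - 3 * x ^ 2 := ⟨a + 3 * x ^ 2, by ring⟩
  have g0 : g ≠ 0 := by convert e2 using 1; ring
  obtain rfl : x = c ^ 2 / (12 * g) := by field_simp; linear_combination e1
  have hd : -16 * (4 * (c - 3 * (c ^ 2 / (12 * g)) ^ 2) ^ 3 +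
      27 * (g - (c ^ 2 / (12 * g)) ^ 3 - (c - 3 * (c ^ 2 / (12 * g)) ^ 2) * (c ^ 2 / (12 * g))) ^ 2) =
      16 * g ^ 2 * (c ^ 3 / (2 * g ^ 2) - 27) := by field_simp; ring
  rw [hd] at hj d
  have hT : c ^ 3 / (2 * g ^ 2) - 27 ≠ 0 := right_ne_zero_of_mul d
  refine ⟨_, hT, ?_⟩
  rw [hj, R3]
  generalize e : c ^ 3 / (2 * g ^ 2) - 27 = T at hT
  rw [div_eq_div_iff (by simp [g0, hT]) hT, ← e]
  field_simp; ring

theorem mul5 {G : Type*} [AddCommGroup G] {P : G} (h : 5 • P = 0) (k : ℕ) :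
    k • P = 0 ∨ k • P = P ∨ k • P = P + P ∨ k • P = -(P + P) ∨ k • P = -P := by
  induction k with
  | zero => left; simp
  | succ k ih =>
    rw [succ_nsmul]
    rcases ih with e | e | e | e | e <;> rw [e]
    · simp
    · simp
    · right; right; right; left; linear_combination (norm := abel1) h
    · right; right; right; right; abel
    · simp

theorem alg5 {L : Type u} [Field L] [CharZero L] {a b x z : L} (hd : z - x ≠ 0)
    (g0 : x ^ 3 + a * x + b ≠ 0)
    (h1 : (z + 2 * x) * (4 * (x ^ 3 + a * x + b)) = (3 * x ^ 2 + a) ^ 2)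
    (h2 : (x + 2 * z) * (4 * (z ^ 3 + a * z + b)) = (3 * z ^ 2 + a) ^ 2) {S : L}
    (hS : S = 4 * (x ^ 2 + x * z + z ^ 2 + a) / (z - x) ^ 2 - 11) :
    -48 * a = (z - x) ^ 2 * (S ^ 2 + 10 * S + 5) ∧
      -16 * (4 * a ^ 3 + 27 * b ^ 2) = (z - x) ^ 6 * S := by
  obtain ⟨g, rfl⟩ : ∃ g, b = g - x ^ 3 - a * x := ⟨x ^ 3 + a * x + b, by ring⟩
  obtain ⟨c, rfl⟩ : ∃ c, a = c - 3 * x ^ 2 := ⟨a + 3 * x ^ 2, by ring⟩
  obtain ⟨d, rfl⟩ : ∃ d, z = x + d := ⟨z - x, by ring⟩
  have g1 : g ≠ 0 := by convert g0 using 1; ring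
  have d0 : d ≠ 0 := by convert hd using 1; ring
  have e : d * (4 * g + 2 * c * d - d ^ 3) = 0 := by linear_combination h2 - h1
  obtain rfl : c = (d ^ 3 - 4 * g) / (2 * d) := by
    have := (mul_eq_zero.1 e).resolve_left d0
    field_simp; linear_combination this
  obtain rfl : x = (((d ^ 3 - 4 * g) / (2 * d)) ^ 2 / (4 * g) - d) / 3 := by
    rw [eq_div_iff three_ne_zero, eq_sub_iff_add_eq, eq_div_iff (by simpa using g1)]
    linear_combination h1
  subst hS
  simp only [add_sub_cancel_left]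
  constructor <;> (field_simp; ring)

theorem G5 [E.IsElliptic] (h : Line E 5 Set.univ) : ∃ S : K, S ≠ 0 ∧ E.j = R5 S := by
  obtain ⟨P, h0, h5, hs⟩ := h
  have e4 : P + P + (P + P) = -P := by linear_combination (norm := abel1) h5
  have n4 : P + P + (P + P) ≠ 0 := by rw [e4]; exact neg_ne_zero.2 h0
  have n2 : P + P ≠ 0 := fun e => n4 (by rw [e, add_zero])
  obtain ⟨k1, g0⟩ := Pt_two n2
  obtain ⟨k2, -⟩ := Pt_two n4
  rw [e4, xc_neg] at k2
  have hd : xc (P + P) - xc P ≠ 0 := by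
    intro e
    rcases xc_inj n2 h0 (sub_eq_zero.1 e) with f | f
    · exact h0 (by linear_combination (norm := abel1) f)
    · exact h0 (by linear_combination (norm := abel1) f + f - h5)
  obtain ⟨S, hS⟩ := fixed_iff (4 * (xc P ^ 2 + xc P * xc (P + P) + xc (P + P) ^ 2 +
      algebraMap K _ (sa E)) / (xc (P + P) - xc P) ^ 2 - 11) (fun s => by
    obtain ⟨k, e⟩ := hs s trivial
    simp only [map_sub, map_div₀, map_mul, map_add, map_pow, map_ofNat, AlgEquiv.commutes,
      ← xc_act]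
    rcases mul5 h5 k with f | f | f | f | f
    · exact absurd (e.trans f) (act_ne s h0)
    · rw [e, f]
    · rw [e, f, e4, xc_neg]; ring
    · rw [e, f, ← neg_add, e4, xc_neg, xc_neg, xc_neg]; ring
    · rw [e, f, ← neg_add, xc_neg, xc_neg])
  obtain ⟨a1, a2⟩ := alg5 hd g0 k1 k2 hS
  obtain ⟨d, hj⟩ := j_short E
  have d' := (map_ne_zero (algebraMap K (AlgebraicClosure K))).2 d
  simp only [map_mul, map_add, map_pow, map_neg, map_ofNat] at d'
  rw [a2] at d'
  have S0 := right_ne_zero_of_mul d'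
  refine ⟨S, (map_ne_zero _).1 S0, (algebraMap K (AlgebraicClosure K)).injective ?_⟩
  rw [hj, map_R5, R5]
  simp only [map_mul, map_add, map_pow, map_neg, map_ofNat, map_div₀]
  rw [a1, a2]
  field_simp

/-! ## two-torsion -/

theorem cubic_roots {L : Type u} [Field L] [CharZero L] [IsAlgClosed L] (a b : L) :
    ∃ x y z : L, x + y + z = 0 ∧ (∀ e, e ^ 3 + a * e + b = (e - x) * (e - y) * (e - z)) ∧
      ((x - y) * (x - z) * (y - z)) ^ 2 = -(4 * a ^ 3 + 27 * b ^ 2) := by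
  obtain ⟨x, hx⟩ := IsAlgClosed.exists_root
    (Polynomial.X ^ 3 + Polynomial.C a * Polynomial.X + Polynomial.C b : Polynomial L)
    (by rw [show (Polynomial.X ^ 3 + Polynomial.C a * Polynomial.X + Polynomial.C b :
      Polynomial L).degree = 3 by compute_degree!]; norm_num)
  simp only [Polynomial.IsRoot, Polynomial.eval_add, Polynomial.eval_mul, Polynomial.eval_pow,
    Polynomial.eval_X, Polynomial.eval_C] at hx
  obtain ⟨r, hr⟩ := IsAlgClosed.exists_pow_nat_eq (-3 * x ^ 2 - 4 * a) two_pos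
  obtain rfl : b = -x ^ 3 - a * x := by linear_combination hx
  obtain rfl : a = -(r ^ 2 + 3 * x ^ 2) / 4 := by linear_combination hr / 4
  exact ⟨x, (-x + r) / 2, (-x - r) / 2, by ring, fun e => by ring, by ring⟩

theorem two_main [E.IsElliptic] {H : Set (Gal K)} (h : ¬ AbsIrr E 2 H) :
    (∃ e : AlgebraicClosure K, e ^ 3 + algebraMap K _ (sa E) * e + algebraMap K _ (sb E) = 0 ∧
      ∀ s ∈ H, s e = e) ∨
    ∃ d : AlgebraicClosure K,
      d ^ 2 = algebraMap K _ (-(4 * sa E ^ 3 + 27 * sb E ^ 2)) ∧ ∀ s ∈ H, s d = d := by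
  have root : ∀ P : Pt E, P ≠ 0 → (P + P = 0 ↔
      xc P ^ 3 + algebraMap K _ (sa E) * xc P + algebraMap K _ (sb E) = 0) := fun P h0 => by
    rw [two_tors h0, ← Pt_eqn h0, pow_eq_zero_iff two_ne_zero]
  by_cases hl : Line E 2 H
  · obtain ⟨P, h0, h2, hs⟩ := hl
    refine Or.inl ⟨xc P, (root P h0).1 (by rwa [two_nsmul] at h2), fun s m => ?_⟩
    obtain ⟨k, e⟩ := hs s m
    rw [← xc_act]
    rcases Nat.even_or_odd' k with ⟨n, rfl | rfl⟩
    · exact absurd (by rw [e, mul_nsmul, h2, nsmul_zero]) (act_ne s h0)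
    · rw [e, add_nsmul, mul_nsmul, h2, nsmul_zero, zero_add, one_nsmul]
  have hc : Comm E 2 H := by by_contra hc; exact h ⟨hl, hc⟩
  obtain ⟨x, y, z, h0, hf, hd⟩ := cubic_roots (algebraMap K (AlgebraicClosure K) (sa E))
    (algebraMap K _ (sb E))
  by_cases hH : ∀ s ∈ H, s ((x - y) * (x - z) * (y - z)) = (x - y) * (x - z) * (y - z)
  · exact Or.inr ⟨_, by rw [hd]; simp [map_ofNat], hH⟩
  left
  push Not at hH
  obtain ⟨s, m, hs⟩ := hH
  have d0 : (x - y) * (x - z) * (y - z) ≠ 0 := fun e => hs (by rw [e, map_zero])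
  have xy : x ≠ y := fun e => d0 (by rw [e]; ring)
  have xz : x ≠ z := fun e => d0 (by rw [e]; ring)
  have yz : y ≠ z := fun e => d0 (by rw [e]; ring)
  have rt : ∀ e, e ^ 3 + algebraMap K (AlgebraicClosure K) (sa E) * e + algebraMap K _ (sb E) = 0 ↔
      e = x ∨ e = y ∨ e = z := fun e => by
    rw [hf, mul_eq_zero, mul_eq_zero, sub_eq_zero, sub_eq_zero, sub_eq_zero, or_assoc]
  have mp : ∀ (t : Gal K) e, (e = x ∨ e = y ∨ e = z) → (t e = x ∨ t e = y ∨ t e = z) := by
    intro t e he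
    have := congrArg t ((rt e).2 he)
    simp only [map_add, map_mul, map_pow, AlgEquiv.commutes, map_zero] at this
    exact (rt _).1 this
  have sz : s z = x + y + z - s x - s y := by
    have := congrArg s h0
    simp only [map_add, map_zero] at this
    linear_combination this - h0
  have inj : s x ≠ s y := fun e => xy (s.injective e)
  have key : ∃ e, (e = x ∨ e = y ∨ e = z) ∧ s e = e ∧
      ∀ f, (f = x ∨ f = y ∨ f = z) → s f = f → f = e := by
    simp only [map_mul, map_sub] at hs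
    rcases mp s x (by simp) with a | a | a <;> rcases mp s y (by simp) with b | b | b <;>
      rw [a, b] at sz inj
    · exact absurd rfl inj
    · exact absurd (by rw [a, b, sz]; ring) hs
    · refine ⟨x, by simp, a, ?_⟩
      rintro f (rfl | rfl | rfl) k
      · rfl
      · exact absurd (k.symm.trans b) yz
      · exact absurd (by linear_combination k - sz) yz
    · refine ⟨z, by simp, by linear_combination sz, ?_⟩
      rintro f (rfl | rfl | rfl) k
      · exact absurd (k.symm.trans a) xy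
      · exact absurd (b.symm.trans k) xy
      · rfl
    · exact absurd rfl inj
    · exact absurd (by rw [a, b, sz]; ring) hs
    · exact absurd (by rw [a, b, sz]; ring) hs
    · refine ⟨y, by simp, b, ?_⟩
      rintro f (rfl | rfl | rfl) k
      · exact absurd (k.symm.trans a) xz
      · rfl
      · exact absurd (by linear_combination k - sz) xz
    · exact absurd rfl inj
  obtain ⟨e, he, se, ue⟩ := key
  refine ⟨e, (rt e).2 he, fun t n => ue _ (mp t e he) ?_⟩
  obtain ⟨P, p0, rfl⟩ := exists_Pt E e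
  have := congrArg xc (hc s m t n P (by rw [two_nsmul, root P p0, rt]; exact he))
  simp only [xc_act] at this
  rw [this, se]

theorem two_root [E.IsElliptic] {e : AlgebraicClosure K}
    (h : e ^ 3 + algebraMap K _ (sa E) * e + algebraMap K _ (sb E) = 0) (hs : ∀ s : Gal K, s e = e) :
    ∃ V : K, V ≠ 0 ∧ E.j = R2 V := by
  obtain ⟨x, rfl⟩ := fixed_iff e hs
  have e1 : x ^ 3 + sa E * x + sb E = 0 :=
    (algebraMap K (AlgebraicClosure K)).injective (by simpa using h)
  obtain ⟨d, hj⟩ := j_short E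
  generalize sa E = a at *
  obtain ⟨c, rfl⟩ : ∃ c, a = c - 3 * x ^ 2 := ⟨a + 3 * x ^ 2, by ring⟩
  have hd : -16 * (4 * (c - 3 * x ^ 2) ^ 3 + 27 * sb E ^ 2) = c ^ 2 * (16 * (9 * x ^ 2 - 4 * c)) := by
    rw [show sb E = -x ^ 3 - (c - 3 * x ^ 2) * x by linear_combination e1]; ring
  rw [hd] at hj d
  have c0 : c ≠ 0 := by rintro rfl; simp at d
  have v0 := right_ne_zero_of_mul d
  refine ⟨16 * (9 * x ^ 2 - 4 * c) / c, div_ne_zero v0 c0, ?_⟩
  rw [hj, R2]
  generalize e : 16 * (9 * x ^ 2 - 4 * c) = v at v0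
  field_simp
  rw [← e]; ring

theorem j_sub [E.IsElliptic] :
    (E.j - 1728) * (-(4 * sa E ^ 3 + 27 * sb E ^ 2)) = (216 * sb E) ^ 2 ∧
      -(4 * sa E ^ 3 + 27 * sb E ^ 2) ≠ 0 := by
  obtain ⟨d, hj⟩ := j_short E
  have d0 : 4 * sa E ^ 3 + 27 * sb E ^ 2 ≠ 0 := right_ne_zero_of_mul d
  refine ⟨?_, neg_ne_zero.2 d0⟩
  rw [hj]
  generalize e : 4 * sa E ^ 3 + 27 * sb E ^ 2 = v at d0
  field_simp
  rw [← e]; ring

theorem two_sq [E.IsElliptic] {d : AlgebraicClosure K} {c : K}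
    (h : d ^ 2 = algebraMap K _ (c * -(4 * sa E ^ 3 + 27 * sb E ^ 2))) (hs : ∀ s : Gal K, s d = d) :
    IsSquare (c * (E.j - 1728)) := by
  obtain ⟨x, rfl⟩ := fixed_iff d hs
  have e1 : x ^ 2 = c * -(4 * sa E ^ 3 + 27 * sb E ^ 2) :=
    (algebraMap K (AlgebraicClosure K)).injective (by rw [← h, map_pow])
  obtain ⟨k, d0⟩ := j_sub (E := E)
  generalize -(4 * sa E ^ 3 + 27 * sb E ^ 2) = v at *
  refine ⟨216 * sb E * x / v, ?_⟩
  field_simp
  linear_combination c * v * k - (216 * sb E) ^ 2 * e1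

theorem G2 [E.IsElliptic] (h : ¬ AbsIrr E 2 Set.univ) :
    (∃ V : K, V ≠ 0 ∧ E.j = R2 V) ∨ IsSquare (E.j - 1728) := by
  rcases two_main h with ⟨e, he, hs⟩ | ⟨d, hd, hs⟩
  · exact Or.inl (two_root he fun s => hs s trivial)
  · right
    simpa using two_sq (c := 1) (by rw [one_mul]; exact hd) fun s => hs s trivial

theorem G2' [E.IsElliptic] (h : ¬ AbsIrr E 2 (Cyc K 4)) :
    (∃ V : K, V ≠ 0 ∧ E.j = R2 V) ∨ IsSquare (E.j - 1728) ∨ IsSquare (1728 - E.j) := by
  obtain ⟨i, hi⟩ := IsAlgClosed.exists_pow_nat_eq (-1 : AlgebraicClosure K) two_pos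
  have hr : ∀ s : Gal K, s i = i ∨ s i = -i := fun s =>
    sq_eq_sq_iff_eq_or_eq_neg.1 (by rw [← map_pow, hi, map_neg, map_one])
  have hH : ∀ s : Gal K, s i = i → s ∈ Cyc K 4 := fun s e x hx => by
    have : (x - 1) * (x + 1) * (x - i) * (x + i) = 0 := by
      linear_combination hx - (x ^ 2 - 1) * hi
    simp only [mul_eq_zero, sub_eq_zero, add_eq_zero_iff_eq_neg] at this
    rcases this with ((rfl | rfl) | rfl) | rfl <;> simp [e]
  rcases two_main h with ⟨e, he, hs⟩ | ⟨d, hd, hs⟩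
  · left
    by_cases k : ∀ s : Gal K, s e = e
    · exact two_root he k
    push Not at k
    obtain ⟨t, ht⟩ := k
    have ti := (hr t).resolve_left fun m => ht (hs t (hH t m))
    have h2 : (t e) ^ 3 + algebraMap K _ (sa E) * t e + algebraMap K _ (sb E) = 0 := by
      simpa using congrArg t he
    have h3 : (t e - e) * (t e ^ 2 + t e * e + e ^ 2 + algebraMap K _ (sa E)) = 0 := by
      linear_combination h2 - he
    have h4 := (mul_eq_zero.1 h3).resolve_left (sub_ne_zero.2 ht)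
    refine two_root (e := -e - t e) (by linear_combination he - (2 * e + t e) * h4) fun s => ?_
    have tt : ∀ s : Gal K, s i = -i → t (s e) = e := fun s m =>
      hs (t * s) (hH _ (by rw [AlgEquiv.mul_apply, m, map_neg, ti, neg_neg]))
    have t2 : ∀ s : Gal K, s i = -i → s e = t e := fun s m =>
      t.injective ((tt s m).trans (tt t ti).symm)
    rcases hr s with m | m
    · have := t2 (s * t) (by rw [AlgEquiv.mul_apply, ti, map_neg, m])
      rw [AlgEquiv.mul_apply] at this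
      rw [map_sub, map_neg, this, hs s (hH s m)]
    · have := hs (s * t) (hH _ (by rw [AlgEquiv.mul_apply, ti, map_neg, m, neg_neg]))
      rw [AlgEquiv.mul_apply] at this
      rw [map_sub, map_neg, this, t2 s m]; ring
  · right
    rcases quad_desc hr (fun s m => hs s (hH s m)) (fun s => sq_eq_sq_iff_eq_or_eq_neg.1
      (by rw [← map_pow, hd, AlgEquiv.commutes])) with k | k
    · left
      simpa using two_sq (c := 1) (by rw [one_mul]; exact hd) k
    · right
      simpa using two_sq (c := -1) (by rw [mul_pow, hd, hi, map_mul]; simp) k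

/-! ## three-torsion -/

/-- four distinct roots of the third division polynomial -/
structure Four {L : Type u} [Field L] (a b x y z w : L) : Prop where
  hx : 3 * x ^ 4 + 6 * a * x ^ 2 + 12 * b * x - a ^ 2 = 0
  hy : 3 * y ^ 4 + 6 * a * y ^ 2 + 12 * b * y - a ^ 2 = 0
  hz : 3 * z ^ 4 + 6 * a * z ^ 2 + 12 * b * z - a ^ 2 = 0
  hw : 3 * w ^ 4 + 6 * a * w ^ 2 + 12 * b * w - a ^ 2 = 0
  xy : x ≠ y
  xz : x ≠ z
  xw : x ≠ w
  yz : y ≠ z
  yw : y ≠ w
  zw : z ≠ w

theorem Four.main {L : Type u} [Field L] [CharZero L] {a b x y z w : L} (h : Four a b x y z w) :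
    x + y + z + w = 0 ∧
    (∀ e, 3 * e ^ 4 + 6 * a * e ^ 2 + 12 * b * e - a ^ 2 = 0 → e = x ∨ e = y ∨ e = z ∨ e = w) ∧
    3 * ((x - y) * (z - w)) ^ 2 = -(3 * (x + y) ^ 2 + 4 * a) ^ 2 ∧
    (-(3 * (x + y) ^ 2 + 4 * a)) ^ 3 = -16 * (4 * a ^ 3 + 27 * b ^ 2) := by
  obtain ⟨hx, hy, hz, hw, xy, xz, xw, yz, yw, zw⟩ := h
  have d1 : ∀ {u}, 3 * u ^ 4 + 6 * a * u ^ 2 + 12 * b * u - a ^ 2 = 0 → x ≠ u →
      x ^ 3 + x ^ 2 * u + x * u ^ 2 + u ^ 3 + 2 * a * (x + u) + 4 * b = 0 := fun hu n =>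
    mul_left_cancel₀ (sub_ne_zero.2 n) (by linear_combination (hx - hu) / 3)
  have d2 : ∀ {u}, 3 * u ^ 4 + 6 * a * u ^ 2 + 12 * b * u - a ^ 2 = 0 → x ≠ u → y ≠ u →
      x ^ 2 + y ^ 2 + u ^ 2 + x * y + x * u + y * u + 2 * a = 0 := fun hu n m =>
    mul_left_cancel₀ (sub_ne_zero.2 m) (by linear_combination d1 hy xy - d1 hu n)
  have s0 : x + y + z + w = 0 :=
    mul_left_cancel₀ (sub_ne_zero.2 zw) (by linear_combination d2 hz xz yz - d2 hw xw yw)
  have e1 := d1 hy xy
  have e2 := d2 hz xz yz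
  clear d1 d2 hy hz hw
  obtain rfl : w = -x - y - z := by linear_combination s0
  obtain rfl : a = -(x ^ 2 + y ^ 2 + z ^ 2 + x * y + x * z + y * z) / 2 := by
    linear_combination e2 / 2
  obtain rfl : b = -(x ^ 3 + x ^ 2 * y + x * y ^ 2 + y ^ 3 +
      2 * (-(x ^ 2 + y ^ 2 + z ^ 2 + x * y + x * z + y * z) / 2) * (x + y)) / 4 := by
    linear_combination e1 / 4
  refine ⟨s0, fun e he => ?_, by linear_combination -16 * hx,
    by linear_combination 36 * (x + y) ^ 2 * hx⟩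
  have : (e - x) * ((e - y) * ((e - z) * (e - (-x - y - z)))) = 0 := by
    linear_combination (he - hx) / 3
  simpa only [mul_eq_zero, sub_eq_zero] using this

theorem Four.sgn {a b : K} {x y z w r : AlgebraicClosure K}
    (h : Four (algebraMap K _ a) (algebraMap K _ b) x y z w) (hr : r ^ 2 = -3) (s : Gal K)
    (hs : s (x + y) = x + y ∨ s (x + y) = -(x + y)) :
    s r * ((s x - s y) * (s z - s w)) = r * ((x - y) * (z - w)) := by
  have k := h.main.2.2.1
  have f : s (3 * (x + y) ^ 2 + 4 * algebraMap K _ a) = 3 * (x + y) ^ 2 + 4 * algebraMap K _ a := by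
    rw [map_add, map_mul, map_mul, map_pow, map_ofNat, map_ofNat, AlgEquiv.commutes]
    rcases hs with e | e <;> rw [e]
    ring
  rw [← map_sub, ← map_sub, ← map_mul, ← map_mul]
  rcases sq_eq_sq_iff_eq_or_eq_neg.1 (show (r * ((x - y) * (z - w))) ^ 2 =
    (3 * (x + y) ^ 2 + 4 * algebraMap K _ a) ^ 2 by
      linear_combination ((x - y) * (z - w)) ^ 2 * hr - k) with e | e
  · rw [e, f]
  · rw [e, map_neg, f]

theorem Four.map {a b : K} {x y z w e : AlgebraicClosure K}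
    (h : Four (algebraMap K _ a) (algebraMap K _ b) x y z w) (s : Gal K)
    (he : 3 * e ^ 4 + 6 * algebraMap K _ a * e ^ 2 + 12 * algebraMap K _ b * e -
      algebraMap K _ a ^ 2 = 0) : s e = x ∨ s e = y ∨ s e = z ∨ s e = w :=
  h.main.2.1 _ (by simpa [map_ofNat] using congrArg s he)

theorem Four.sum {a b : K} {x y z w : AlgebraicClosure K}
    (h : Four (algebraMap K _ a) (algebraMap K _ b) x y z w) (s : Gal K) :
    s x + s y + s z + s w = 0 := by
  simpa using congrArg s h.main.1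

theorem Four.no4 {a b : K} {x y z w r : AlgebraicClosure K}
    (h : Four (algebraMap K _ a) (algebraMap K _ b) x y z w) (hr : r ^ 2 = -3) {s : Gal K}
    (sr : s r = r) (h1 : s x = y) (h2 : s y = z) (h3 : s z ≠ z) (h4 : s w ≠ w) : False := by
  have r0 : r ≠ 0 := by rintro rfl; norm_num at hr
  have s0 := h.main.1
  have s1 := h.sum s
  rcases h.map s h.hz with e | e | e | e
  · exact h4 (by linear_combination s1 - s0 - h1 - h2 - e)
  · exact h.xz (s.injective (h1.trans e.symm))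
  · exact h3 e
  · have k := Four.sgn ⟨h.hx, h.hz, h.hy, h.hw, h.xz, h.xy, h.xw, h.yz.symm, h.zw, h.yw⟩ hr s
      (Or.inr (by rw [map_add, h1, e]; linear_combination s0))
    rw [sr, h1, h2, e, show s w = x by linear_combination s1 - s0 - h1 - h2 - e] at k
    have : r * ((x - z) * (y - w)) = 0 := by linear_combination -k / 2
    simp only [mul_eq_zero, sub_eq_zero, r0, h.xz, h.yw, or_self] at this

theorem four_pts {P Q : Pt E} (p0 : P ≠ 0) (p3 : 3 • P = 0) (q0 : Q ≠ 0) (q3 : 3 • Q = 0)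
    (h : xc P ≠ xc Q) : (P + Q ≠ 0 ∧ 3 • (P + Q) = 0) ∧ (P - Q ≠ 0 ∧ 3 • (P - Q) = 0) ∧
      Four (algebraMap K _ (sa E)) (algebraMap K _ (sb E)) (xc P) (xc Q) (xc (P + Q))
        (xc (P - Q)) := by
  have n1 : P ≠ Q := fun e => h (by rw [e])
  have n2 : P ≠ -Q := fun e => h (by rw [e, xc_neg])
  have a0 : P + Q ≠ 0 := fun e => n2 (eq_neg_of_add_eq_zero_left e)
  have b0 : P - Q ≠ 0 := sub_ne_zero.2 n1
  have a3 : 3 • (P + Q) = 0 := by linear_combination (norm := abel1) p3 + q3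
  have b3 : 3 • (P - Q) = 0 := by linear_combination (norm := abel1) p3 - q3
  refine ⟨⟨a0, a3⟩, ⟨b0, b3⟩, (psi3 p0 p3).1, (psi3 q0 q3).1, (psi3 a0 a3).1, (psi3 b0 b3).1, h,
    fun e => ?_, fun e => ?_, fun e => ?_, fun e => ?_, fun e => ?_⟩
  · rcases xc_inj p0 a0 e with f | f
    · exact q0 (by linear_combination (norm := abel1) -f)
    · exact n1 (by linear_combination (norm := abel1) p3 - f)
  · rcases xc_inj p0 b0 e with f | f
    · exact q0 (by linear_combination (norm := abel1) f)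
    · exact n2 (by linear_combination (norm := abel1) p3 - f)
  · rcases xc_inj q0 a0 e with f | f
    · exact p0 (by linear_combination (norm := abel1) -f)
    · exact n1 (by linear_combination (norm := abel1) f - q3)
  · rcases xc_inj q0 b0 e with f | f
    · exact n2 (by linear_combination (norm := abel1) q3 - f)
    · exact p0 (by linear_combination (norm := abel1) f)
  · rcases xc_inj a0 b0 e with f | f
    · exact q0 (by linear_combination (norm := abel1) q3 - f)
    · exact p0 (by linear_combination (norm := abel1) p3 - f)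

theorem act3 (s : Gal K) {P : Pt E} (p3 : 3 • P = 0) : 3 • act E s P = 0 := by
  rw [← map_nsmul, p3, map_zero]

theorem exists_three [E.IsElliptic] : ∃ P : Pt E, P ≠ 0 ∧ 3 • P = 0 := by
  obtain ⟨x, hx⟩ := IsAlgClosed.exists_root
    (Polynomial.C 3 * Polynomial.X ^ 4 + Polynomial.C (6 * algebraMap K _ (sa E)) * Polynomial.X ^ 2 +
      Polynomial.C (12 * algebraMap K _ (sb E)) * Polynomial.X -
      Polynomial.C (algebraMap K _ (sa E) ^ 2) : Polynomial (AlgebraicClosure K))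
    (by rw [show (Polynomial.C 3 * Polynomial.X ^ 4 +
      Polynomial.C (6 * algebraMap K _ (sa E)) * Polynomial.X ^ 2 +
      Polynomial.C (12 * algebraMap K _ (sb E)) * Polynomial.X -
      Polynomial.C (algebraMap K _ (sa E) ^ 2) : Polynomial (AlgebraicClosure K)).degree = 4 by
        compute_degree!]; norm_num)
  simp only [Polynomial.IsRoot, Polynomial.eval_add, Polynomial.eval_mul, Polynomial.eval_pow,
    Polynomial.eval_X, Polynomial.eval_C, Polynomial.eval_sub] at hx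
  obtain ⟨P, p0, rfl⟩ := exists_Pt E x
  have d' := (map_ne_zero (algebraMap K (AlgebraicClosure K))).2 (j_short E).1
  simp only [map_mul, map_add, map_pow, map_neg, map_ofNat] at d'
  have n2 : P + P ≠ 0 := by
    intro e
    have e1 := Pt_eqn p0
    rw [(two_tors p0).1 e] at e1
    generalize algebraMap K (AlgebraicClosure K) (sa E) = a at *
    generalize algebraMap K (AlgebraicClosure K) (sb E) = b at *
    have e2 : (3 * xc P ^ 2 + a) ^ 2 = 0 := by linear_combination -hx - 12 * xc P * e1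
    have e3 := pow_eq_zero_iff two_ne_zero |>.1 e2
    obtain rfl : a = -3 * xc P ^ 2 := by linear_combination e3
    obtain rfl : b = 2 * xc P ^ 3 := by linear_combination -e1
    exact d' (by ring)
  obtain ⟨k, g0⟩ := Pt_two n2
  have e : xc (P + P) = xc P :=
    sub_eq_zero.1 (mul_right_cancel₀ g0 (by linear_combination k / 4 - hx / 4))
  rcases xc_inj n2 p0 e with f | f
  · exact absurd (by linear_combination (norm := abel1) f) p0
  · exact ⟨P, p0, by linear_combination (norm := abel1) f⟩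

theorem cyc3 {r : AlgebraicClosure K} (hr : r ^ 2 = -3) (s : Gal K) : s ∈ Cyc K 3 ↔ s r = r := by
  constructor
  · intro h
    have := h ((r - 1) / 2) (by linear_combination (r - 3) / 8 * hr)
    simp only [map_div₀, map_sub, map_one, map_ofNat] at this
    linear_combination 2 * this
  · intro e x hx
    have : (x - 1) * (x - (r - 1) / 2) * (x - (-r - 1) / 2) = 0 := by
      linear_combination hx - (x - 1) / 4 * hr
    simp only [mul_eq_zero, sub_eq_zero] at this
    rcases this with (rfl | rfl) | rfl <;> simp [e, map_ofNat]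

theorem not_line_cyc (hl : ¬ Line E 3 Set.univ) : ¬ Line E 3 (Cyc K 3) := by
  intro h
  obtain ⟨r, hr⟩ := IsAlgClosed.exists_pow_nat_eq (-3 : AlgebraicClosure K) two_pos
  have r0 : r ≠ 0 := by rintro rfl; norm_num at hr
  have pm : ∀ s : Gal K, s r = r ∨ s r = -r := fun s =>
    sq_eq_sq_iff_eq_or_eq_neg.1 (by rw [← map_pow, hr, map_neg, map_ofNat])
  obtain ⟨P, p0, p3, hs⟩ := line3 h
  simp only [cyc3 hr] at hs
  obtain ⟨t, ht⟩ : ∃ t : Gal K, t (xc P) ≠ xc P := by
    by_contra k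
    push Not at k
    exact hl (line3' p0 p3 fun s _ => k s)
  have ti := (pm t).resolve_left fun m => ht (hs t m)
  have tt : ∀ s : Gal K, s r = -r → t (s (xc P)) = xc P := fun s m =>
    hs (t * s) (by rw [AlgEquiv.mul_apply, m, map_neg, ti, neg_neg])
  have t2 : ∀ s : Gal K, s r = -r → s (xc P) = t (xc P) := fun s m =>
    t.injective ((tt s m).trans (tt t ti).symm)
  obtain ⟨⟨a0, a3⟩, -, F⟩ := four_pts p0 p3 (act_ne t p0) (act3 t p3) (by rw [xc_act]; exact ht.symm)
  rw [xc_act] at F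
  refine hl (line3' a0 a3 fun s _ => ?_)
  have k : s (xc P) + s (t (xc P)) = xc P + t (xc P) ∧
      s r * (s (xc P) - s (t (xc P))) = r * (xc P - t (xc P)) := by
    rcases pm s with m | m
    · have := t2 (s * t) (by rw [AlgEquiv.mul_apply, ti, map_neg, m])
      rw [AlgEquiv.mul_apply] at this
      rw [this, hs s m, m]; simp
    · have := hs (s * t) (by rw [AlgEquiv.mul_apply, ti, map_neg, m, neg_neg])
      rw [AlgEquiv.mul_apply] at this
      rw [this, t2 s m, m]; constructor <;> ring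
  have g := F.sgn hr s (Or.inl (by rw [map_add, k.1]))
  rw [← mul_assoc, k.2, ← mul_assoc] at g
  have g' := mul_left_cancel₀ (mul_ne_zero r0 (sub_ne_zero.2 F.xy)) g
  linear_combination (g' + F.sum s - k.1 - F.main.1) / 2

theorem three_main [E.IsElliptic] (hl : ¬ Line E 3 Set.univ) (h : ¬ AbsIrr E 3 (Cyc K 3))
    (b0 : sb E ≠ 0) {r : AlgebraicClosure K} (hr : r ^ 2 = -3) :
    ∃ p : AlgebraicClosure K, (-(3 * p ^ 2 + 4 * algebraMap K _ (sa E))) ^ 3 =
      -16 * (4 * algebraMap K _ (sa E) ^ 3 + 27 * algebraMap K _ (sb E) ^ 2) ∧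
      (((∀ g : Gal K, g p = p) ∧ AbsIrr E 3 Set.univ) ∨ ∀ g : Gal K, g (p * r) = p * r) := by
  have nl := not_line_cyc hl
  have hc : Comm E 3 (Cyc K 3) := by by_contra hc; exact h ⟨nl, hc⟩
  have r0 : r ≠ 0 := by rintro rfl; norm_num at hr
  have pm : ∀ s : Gal K, s r = r ∨ s r = -r := fun s =>
    sq_eq_sq_iff_eq_or_eq_neg.1 (by rw [← map_pow, hr, map_neg, map_ofNat])
  simp only [Comm, cyc3 hr] at hc
  have mv : ∀ P : Pt E, P ≠ 0 → 3 • P = 0 → ∃ t : Gal K, t r = r ∧ t (xc P) ≠ xc P := by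
    intro P p0 p3
    by_contra k
    push Not at k
    exact nl (line3' p0 p3 fun s m => k s ((cyc3 hr s).1 m))
  have B1 : ∀ s : Gal K, s r = r → ∀ P : Pt E, P ≠ 0 → 3 • P = 0 → s (xc P) = xc P →
      ∀ R : Pt E, R ≠ 0 → 3 • R = 0 → s (xc R) = xc R := by
    intro s m P p0 p3 e R r0' r3
    obtain ⟨t, n, ht⟩ := mv P p0 p3
    obtain ⟨-, -, F⟩ := four_pts p0 p3 (act_ne t p0) (act3 t p3) (by rw [xc_act]; exact ht.symm)
    have e2 : s (xc (act E t P)) = xc (act E t P) := by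
      rw [← xc_act, hc s m t n P p3, xc_act, xc_act, e, xc_act]
    have g := F.sgn hr s (Or.inl (by rw [map_add, e, e2]))
    rw [m, e, e2, ← mul_assoc, ← mul_assoc] at g
    have g' := mul_left_cancel₀ (mul_ne_zero r0 (sub_ne_zero.2 F.xy)) g
    have s1 := F.sum s
    have s0 := F.main.1
    rcases F.main.2.1 _ (psi3 r0' r3).1 with f | f | f | f <;> rw [f]
    · exact e
    · exact e2
    · linear_combination (g' + s1 - e - e2 - s0) / 2
    · linear_combination (-g' + s1 - e - e2 - s0) / 2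
  have B2 : ∀ s : Gal K, s r = r → (∀ R : Pt E, R ≠ 0 → 3 • R = 0 → s (xc R) ≠ xc R) →
      ∀ P : Pt E, P ≠ 0 → 3 • P = 0 → act E s (act E s P) = -P := by
    intro s m hs P p0 p3
    have q0 := act_ne s p0
    have q3 := act3 s p3
    obtain ⟨⟨a0, a3⟩, ⟨c0, c3⟩, F⟩ := four_pts p0 p3 q0 q3
      (by rw [xc_act]; exact (hs P p0 p3).symm)
    rcases F.map s F.hy with f | f | f | f
    · rw [← xc_act] at f
      refine (xc_inj (act_ne s q0) p0 f).resolve_left fun g => hs _ a0 a3 ?_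
      rw [← xc_act, map_add, g, add_comm]
    · exact absurd f (hs _ q0 q3)
    · exact (F.no4 hr m (xc_act s P).symm f (hs _ a0 a3) (hs _ c0 c3)).elim
    · exact (Four.no4 ⟨F.hx, F.hy, F.hw, F.hz, F.xy, F.xw, F.xz, F.yw, F.yz, F.zw.symm⟩ hr m
        (xc_act s P).symm f (hs _ c0 c3) (hs _ a0 a3)).elim
  obtain ⟨P, p0, p3⟩ := exists_three (E := E)
  obtain ⟨s, m, hs⟩ := mv P p0 p3
  have s1 : ∀ R : Pt E, R ≠ 0 → 3 • R = 0 → s (xc R) ≠ xc R := fun R r1 r3 e =>
    hs (B1 s m R r1 r3 e P p0 p3)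
  have s2 := B2 s m s1
  have ss : ∀ R : Pt E, R ≠ 0 → 3 • R = 0 → s (s (xc R)) = xc R := fun R r1 r3 => by
    rw [← xc_act, ← xc_act, s2 R r1 r3, xc_neg]
  have B3 : ∀ t : Gal K, t r = r → t (xc P) ≠ xc P →
      ∀ R : Pt E, R ≠ 0 → 3 • R = 0 → t (xc R) = s (xc R) := by
    intro t n ht R r1 r3
    have t2 := B2 t n fun R r1 r3 e => ht (B1 t n R r1 r3 e P p0 p3)
    have st : (s * t) r = r := by rw [AlgEquiv.mul_apply, n, m]
    by_cases k : (s * t) (xc P) = xc P
    · exact s.injective ((B1 _ st P p0 p3 k R r1 r3).trans (ss R r1 r3).symm)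
    · have := B2 _ st (fun R r1 r3 e => k (B1 _ st R r1 r3 e P p0 p3)) P p0 p3
      rw [act_mul, act_mul, ← hc s m t n _ (act3 t p3), t2 P p0 p3, map_neg, map_neg,
        s2 P p0 p3, neg_neg] at this
      exact absurd (by linear_combination (norm := abel1) p3 - this) p0
  have B4 : ∀ g : Gal K, g (s (xc P)) = s (g (xc P)) := by
    intro g
    have n : (g⁻¹ * s * g) r = r := by
      rw [AlgEquiv.mul_apply, AlgEquiv.mul_apply]
      apply g.injective
      rw [← AlgEquiv.mul_apply, mul_inv_cancel, AlgEquiv.one_apply]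
      rcases pm g with e | e <;> simp [e, m]
    have k : ∀ x, g ((g⁻¹ * s * g) x) = s (g x) := fun x => by
      rw [← AlgEquiv.mul_apply, ← mul_assoc, ← mul_assoc, mul_inv_cancel, one_mul,
        AlgEquiv.mul_apply]
    rw [← k, B3 _ n (fun e => ?_) P p0 p3]
    have := k (xc P)
    rw [e, ← xc_act] at this
    exact s1 _ (act_ne g p0) (act3 g p3) this.symm
  obtain ⟨⟨a0, a3⟩, ⟨c0, c3⟩, F⟩ := four_pts p0 p3 (act_ne s p0) (act3 s p3)
    (by rw [xc_act]; exact hs.symm)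
  have sz : s (xc (P + act E s P)) = xc (P - act E s P) := by
    rw [← xc_act, map_add, s2 P p0 p3, ← xc_neg]; congr 1; abel
  have sw : s (xc (P - act E s P)) = xc (P + act E s P) := by rw [← sz, ss _ a0 a3]
  have F0 := F
  rw [xc_act] at F
  have s0 := F.main.1
  have gp : ∀ g : Gal K, (g (xc P) = xc P ∨ g (xc P) = s (xc P)) ∧
      g (xc P + s (xc P)) = xc P + s (xc P) ∨ g (xc P + s (xc P)) = -(xc P + s (xc P)) := by
    intro g
    rw [map_add, B4]
    rcases F.map g F.hx with f | f | f | f <;> rw [f]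
    · simp
    · rw [ss P p0 p3]; simp [add_comm]
    · right; rw [sz]; linear_combination s0
    · right; rw [sw]; linear_combination s0
  refine ⟨xc P + s (xc P), F.main.2.2.2, ?_⟩
  have hp : ∀ g : Gal K, g r = r → g (xc P + s (xc P)) = xc P + s (xc P) := by
    intro g n
    rw [map_add, B4]
    by_cases k : g (xc P) = xc P
    · rw [k]
    · rw [B3 g n k P p0 p3, ss P p0 p3, add_comm]
  rcases quad_desc pm hp (fun g => (gp g).imp_left And.right) with k | k
  swap
  · exact Or.inr k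
  by_cases hG : ∀ g : Gal K, g r = r
  · exact Or.inr fun g => by rw [map_mul, k, hG]
  refine Or.inl ⟨k, hl, fun cm => ?_⟩
  push Not at hG
  obtain ⟨t, ht⟩ := hG
  have C : ∀ t : Gal K, t r = -r → t (xc P) = xc P → False := by
    intro t n e
    have g := F.sgn hr t (Or.inl (k t))
    have e3 : t (xc (P + act E s P)) = xc (P + act E s P) ∧
        t (xc (P - act E s P)) = xc (P - act E s P) := by
      rw [← xc_act, ← xc_act, map_add, map_sub, cm t trivial s trivial P p3]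
      rcases xc_inj (act_ne t p0) p0 ((xc_act t P).trans e) with f | f <;> rw [f]
      · exact ⟨rfl, rfl⟩
      · rw [map_neg, ← neg_add, xc_neg, ← xc_neg (P - _)]
        exact ⟨rfl, by congr 1; abel⟩
    rw [n, B4, e, e3.1, e3.2] at g
    have : r * ((xc P - s (xc P)) * (xc (P + act E s P) - xc (P - act E s P))) = 0 := by
      linear_combination -g / 2
    simp only [mul_eq_zero, sub_eq_zero, r0, F.xy, F.zw, or_self] at this
  have ti := (pm t).resolve_left ht
  rcases gp t with ⟨f | f, -⟩ | f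
  · exact C t ti f
  · exact C (s * t) (by rw [AlgEquiv.mul_apply, ti, map_neg, m])
      (by rw [AlgEquiv.mul_apply, f, ss P p0 p3])
  · have z : xc P + s (xc P) = 0 := by linear_combination (f - k t) / 2
    have := F.main.2.2.2
    rw [z] at this
    have b1 : algebraMap K (AlgebraicClosure K) (sb E) ^ 2 = 0 := by
      linear_combination this / 432
    exact b0 ((map_eq_zero _).1 (pow_eq_zero_iff two_ne_zero |>.1 b1))

theorem cube3 [E.IsElliptic] (hl : ¬ Line E 3 Set.univ) (h : ¬ AbsIrr E 3 (Cyc K 3))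
    (hj : E.j ≠ 1728) : ∃ J : K, J ^ 3 = E.j ∧
      ((IsSquare (J ^ 2 + 12 * J + 144) ∧ AbsIrr E 3 Set.univ) ∨
        IsSquare (-3 * (J ^ 2 + 12 * J + 144))) := by
  have b0 : sb E ≠ 0 := fun e => by
    obtain ⟨k, d⟩ := j_sub (E := E)
    rw [e] at k d
    exact mul_ne_zero (sub_ne_zero.2 hj) d (by rw [k]; ring)
  obtain ⟨r, hr⟩ := IsAlgClosed.exists_pow_nat_eq (-3 : AlgebraicClosure K) two_pos
  obtain ⟨p, hp, k⟩ := three_main hl h b0 hr
  obtain ⟨d, hj⟩ := j_short E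
  have key : ∀ w : K, algebraMap K _ w = p ^ 2 → w ≠ 0 ∧ 3 * w + 4 * sa E ≠ 0 ∧
      (48 * sa E / (3 * w + 4 * sa E)) ^ 3 = E.j ∧
      (48 * sa E / (3 * w + 4 * sa E)) ^ 2 + 12 * (48 * sa E / (3 * w + 4 * sa E)) + 144 =
        (144 * sb E) ^ 2 / (w * (3 * w + 4 * sa E) ^ 2) := by
    intro w hw
    have e : (-(3 * w + 4 * sa E)) ^ 3 = -16 * (4 * sa E ^ 3 + 27 * sb E ^ 2) :=
      (algebraMap K (AlgebraicClosure K)).injective (by simpa [map_ofNat, hw] using hp)
    have w0 : w ≠ 0 := by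
      rintro rfl
      exact pow_ne_zero 2 b0 (by linear_combination e / 432)
    have d0 : 3 * w + 4 * sa E ≠ 0 := fun z => d (by rw [← e, z]; ring)
    refine ⟨w0, d0, ?_, ?_⟩
    · rw [hj, ← e]; field_simp
    · generalize f : 3 * w + 4 * sa E = v at d0
      field_simp
      rw [← f]; linear_combination -48 * e
  rcases k with ⟨k, ai⟩ | k
  · obtain ⟨q, hq⟩ := fixed_iff p k
    obtain ⟨w0, d0, k1, k2⟩ := key (q ^ 2) (by rw [map_pow, hq])
    have q0 : q ≠ 0 := fun e => w0 (by rw [e]; ring)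
    refine ⟨_, k1, Or.inl ⟨⟨144 * sb E / (q * (3 * q ^ 2 + 4 * sa E)), ?_⟩, ai⟩⟩
    rw [k2]; field_simp
  · obtain ⟨q, hq⟩ := fixed_iff _ k
    obtain ⟨w0, d0, k1, k2⟩ := key (-q ^ 2 / 3) (by
      rw [map_div₀, map_neg, map_pow, hq, map_ofNat]; linear_combination -p ^ 2 / 3 * hr)
    have q0 : q ≠ 0 := fun e => w0 (by rw [e]; ring)
    refine ⟨_, k1, Or.inr ⟨432 * sb E / (q * (3 * (-q ^ 2 / 3) + 4 * sa E)), ?_⟩⟩
    rw [k2]
    generalize 3 * (-q ^ 2 / 3) + 4 * sa E = v at d0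
    field_simp; ring

/-- points of `X(s3, b5)` and of its twist -/
theorem xs3 [E.IsElliptic] (hl : ¬ Line E 3 Set.univ) (h : ¬ AbsIrr E 3 (Cyc K 3))
    (h5 : Line E 5 Set.univ) (h0 : E.j ≠ 0) (hj : E.j ≠ 1728) :
    ∃ u y : K, u ≠ 0 ∧ E.j = (u ^ 6 + 10 * u ^ 3 + 5) ^ 3 / u ^ 3 ∧
      ((y ^ 2 = u ^ 4 + 2 * u ^ 3 - u ^ 2 + 10 * u + 25 ∧ AbsIrr E 3 Set.univ) ∨
        y ^ 2 = -3 * (u ^ 4 + 2 * u ^ 3 - u ^ 2 + 10 * u + 25)) := by
  obtain ⟨J, hJ, k⟩ := cube3 hl h hj
  obtain ⟨S, S0, hS⟩ := G5 h5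
  have J0 : J ≠ 0 := by rintro rfl; exact h0 (by rw [← hJ]; ring)
  obtain ⟨u, hu⟩ : ∃ u, u = (S ^ 2 + 10 * S + 5) / J := ⟨_, rfl⟩
  have u3 : u ^ 3 = S := by
    rw [hu, div_pow, hJ, div_eq_iff h0, hS, R5]; field_simp
  have u0 : u ≠ 0 := by rintro rfl; exact S0 (by rw [← u3]; ring)
  subst u3
  obtain rfl : J = (u ^ 6 + 10 * u ^ 3 + 5) / u := by
    rw [eq_div_iff J0] at hu
    rw [eq_div_iff u0]; linear_combination hu
  have e : ((u ^ 6 + 10 * u ^ 3 + 5) / u) ^ 2 + 12 * ((u ^ 6 + 10 * u ^ 3 + 5) / u) + 144 =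
      (u ^ 4 + 2 * u ^ 3 - u ^ 2 + 10 * u + 25) * ((u ^ 4 - u ^ 3 + 2 * u ^ 2 + u + 1) / u) ^ 2 := by
    field_simp; ring
  have g0 : (u ^ 4 - u ^ 3 + 2 * u ^ 2 + u + 1) / u ≠ 0 := fun z => hj (by
    rw [z] at e
    linear_combination -hJ + ((u ^ 6 + 10 * u ^ 3 + 5) / u - 12) * e)
  rw [e] at k
  generalize (u ^ 4 - u ^ 3 + 2 * u ^ 2 + u + 1) / u = g at g0 k
  rcases k with ⟨⟨y, hy⟩, ai⟩ | ⟨y, hy⟩
  · exact ⟨u, y / g, u0, by rw [← hJ, div_pow], Or.inl ⟨by field_simp; linear_combination -hy, ai⟩⟩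
  · exact ⟨u, y / g, u0, by rw [← hJ, div_pow], Or.inr (by field_simp; linear_combination -hy)⟩

end Vale.Agent.Q017
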